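import Vale.Agent.P322.PsiBasic

/-!
# P322, module M1 (part): `bregman_le`
-/

namespace Vale.P322

/-- three-slopes inequality for `L` on `[0,1)` -/
theorem L_slope {a b c : ℝ} (ha : 0 ≤ a) (hab : a < b) (hbc : b < c) (hc : c < 1) :
    (L b - L a) * (c - b) ≤ (L c - L b) * (b - a) := by
  have habs : ∀ x, 0 ≤ x → x ≤ c → |x| < 1 := fun x h0 h1 => by
    rw [abs_of_nonneg h0]; linarith
  obtain ⟨ξ, hξ, e1⟩ := exists_hasDerivAt_eq_slope L (fun t => 1 / (1 - t ^ 2)) hab
    (fun x hx => (hasDerivAt_L (habs x (by linarith [hx.1]) (by linarith [hx.2]))).continuousAt.continuousWithinAt)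
    (fun x hx => hasDerivAt_L (habs x (by linarith [hx.1]) (by linarith [hx.2])))
  obtain ⟨η, hη, e2⟩ := exists_hasDerivAt_eq_slope L (fun t => 1 / (1 - t ^ 2)) hbc
    (fun x hx => (hasDerivAt_L (habs x (by linarith [hx.1]) (by linarith [hx.2]))).continuousAt.continuousWithinAt)
    (fun x hx => hasDerivAt_L (habs x (by linarith [hx.1]) (by linarith [hx.2])))
  have h1 : ξ < η := hξ.2.trans hη.1
  have h2 : 0 < 1 - η ^ 2 := by nlinarith [hη.1, hη.2]
  have h3 : 1 / (1 - ξ ^ 2) ≤ 1 / (1 - η ^ 2) := by
    refine one_div_le_one_div_of_le h2 ?_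
    nlinarith [hξ.1]
  rw [e1, e2, div_le_div_iff₀ (by linarith) (by linarith)] at h3
  exact h3

theorem psi_mono {y z : ℝ} (hy : 0 ≤ y) (hyz : y ≤ z) (hz : z ≤ 1) : psi y ≤ psi z := by
  rcases eq_or_lt_of_le (hy.trans hyz) with h | h
  · have : y = z := by linarith
    rw [this]
  · have hz' : |z| ≤ 1 := by rw [abs_of_pos h]; exact hz
    have h1 := psi_mul_le (ρ := y / z) (by positivity) (by rw [div_le_one h]; exact hyz) hz'
    rw [div_mul_cancel₀ _ h.ne'] at h1
    refine h1.trans ?_
    have h2 : (y / z) ^ 2 ≤ 1 := by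
      have : y / z ≤ 1 := by rw [div_le_one h]; exact hyz
      have h0 : 0 ≤ y / z := by positivity
      nlinarith
    have := psi_nonneg hz'
    nlinarith

/-- `(1+m)² ln(2/(1+m)) ≥ (1-m)² ln(2/(1-m))`. -/
theorem phi_compare {m : ℝ} (hm0 : 0 ≤ m) (hm1 : m < 1) :
    0 ≤ (1 + m) ^ 2 * (Real.log 2 - Real.log (1 + m)) - (1 - m) ^ 2 * Real.log 2
      + (1 - m) * ((1 - m) * Real.log (1 - m)) := by
  set D : ℝ → ℝ := fun m => (1 + m) * ((1 + m) * Real.log 2 - (1 + m) * Real.log (1 + m))
      - (1 - m) ^ 2 * Real.log 2 + (1 - m) * ((1 - m) * Real.log (1 - m)) with hD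
  have hcont : Continuous D := by
    have c1 : Continuous fun m : ℝ => (1 + m) * Real.log (1 + m) :=
      Real.continuous_mul_log.comp (continuous_const.add continuous_id)
    have c2 : Continuous fun m : ℝ => (1 - m) * Real.log (1 - m) :=
      Real.continuous_mul_log.comp (continuous_const.sub continuous_id)
    exact (((continuous_const.add continuous_id).mul
      (((continuous_const.add continuous_id).mul continuous_const).sub c1)).sub
      (((continuous_const.sub continuous_id).pow 2).mul continuous_const)).add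
      ((continuous_const.sub continuous_id).mul c2)
  have hder : ∀ x, 0 < x → x < 1 → HasDerivAt D (4 * (Real.log 2 - psi x) - 2) x := by
    intro x hx0 hx1
    have e1 : HasDerivAt (fun m : ℝ => 1 + m) 1 x := by
      simpa using (hasDerivAt_id x).const_add 1
    have e2 : HasDerivAt (fun m : ℝ => 1 - m) (-1) x := by
      simpa using (hasDerivAt_id x).const_sub 1
    have e3 := e1.log (by linarith : (1 + x) ≠ 0)
    have e4 := e2.log (by linarith : (1 - x) ≠ 0)
    have e5 := (e1.mul ((e1.mul_const (Real.log 2)).sub (e1.mul e3))).sub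
      ((e2.pow 2).mul_const (Real.log 2))
    have e6 := e5.add (e2.mul (e2.mul e4))
    have h1 : (1 + x) ≠ 0 := by linarith
    have h2 : (1 - x) ≠ 0 := by linarith
    refine (e6.congr_deriv ?_)
    simp only [Pi.mul_apply, Pi.sub_apply]
    unfold psi
    field_simp
    ring
  have hD0 : D 0 = 0 := by simp [hD]
  have hD1 : D 1 = 0 := by
    simp only [hD]
    norm_num
  have hDm : D m = (1 + m) ^ 2 * (Real.log 2 - Real.log (1 + m)) - (1 - m) ^ 2 * Real.log 2
      + (1 - m) * ((1 - m) * Real.log (1 - m)) := by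
    simp only [hD]
    ring
  rw [← hDm]
  rcases eq_or_lt_of_le hm0 with h | h
  · rw [← h, hD0]
  · by_contra hcon
    push Not at hcon
    obtain ⟨y, hy, ey⟩ := exists_hasDerivAt_eq_slope D (fun x => 4 * (Real.log 2 - psi x) - 2) h
      hcont.continuousOn (fun x hx => hder x hx.1 (hx.2.trans hm1))
    obtain ⟨z, hz, ez⟩ := exists_hasDerivAt_eq_slope D (fun x => 4 * (Real.log 2 - psi x) - 2) hm1
      hcont.continuousOn (fun x hx => hder x (h.trans hx.1) hx.2)
    have h1 : (D m - D 0) / (m - 0) < 0 := by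
      rw [hD0]
      exact div_neg_of_neg_of_pos (by linarith) (by linarith)
    have h2 : 0 < (D 1 - D m) / (1 - m) := by
      rw [hD1]
      exact div_pos (by linarith) (by linarith)
    have h3 := psi_mono hy.1.le (hy.2.trans hz.1).le hz.2.le
    linarith

theorem bregman_le {m x : ℝ} (hm0 : 0 ≤ m) (hm1 : m < 1) (hx : |x| ≤ 1) :
    (1 - m) ^ 2 * (psi x - psi m - (x - m) * L m) ≤ Real.log (2 / (1 + m)) * (x - m) ^ 2 := by
  rw [Real.log_div (by norm_num) (by linarith)]
  obtain ⟨c, hc⟩ : ∃ c, c = Real.log 2 - Real.log (1 + m) := ⟨_, rfl⟩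
  rw [← hc]
  set F : ℝ → ℝ := fun x => c * (x - m) ^ 2 - (1 - m) ^ 2 * (psi x - psi m - (x - m) * L m)
    with hF
  set F' : ℝ → ℝ := fun x => 2 * c * (x - m) - (1 - m) ^ 2 * (L x - L m) with hF'
  have hcont : Continuous F := by
    have := continuous_psi
    fun_prop
  have hder : ∀ x, 0 ≤ x → x < 1 → HasDerivAt F (F' x) x := by
    intro x hx0 hx1
    have e0 := hasDerivAt_psi (show |x| < 1 by rw [abs_of_nonneg hx0]; exact hx1)
    have e1 : HasDerivAt (fun y : ℝ => y - m) 1 x := by
      simpa using (hasDerivAt_id x).sub_const m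
    have e2 := ((e1.pow 2).const_mul c).sub
      (((e0.sub_const (psi m)).sub (e1.mul_const (L m))).const_mul ((1 - m) ^ 2))
    refine (e2.congr_deriv ?_)
    simp only [hF']
    ring
  have hFm : F m = 0 := by simp [hF]
  have hF1 : F 1 = 0 := by
    simp only [hF]
    rw [psi_one, hc]
    unfold psi L
    ring
  have hF'm : F' m = 0 := by simp [hF']
  -- concavity of `F'`
  have hconc : ∀ a b d, 0 ≤ a → a < b → b < d → d < 1 →
      (F' d - F' b) * (b - a) ≤ (F' b - F' a) * (d - b) := by
    intro a b d h0 h1 h2 h3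
    have := L_slope h0 h1 h2 h3
    simp only [hF']
    have h4 := mul_le_mul_of_nonneg_left this (sq_nonneg (1 - m))
    nlinarith
  -- nonnegativity on `[0, 1]`
  have hpos : ∀ x, 0 ≤ x → x ≤ 1 → 0 ≤ F x := by
    intro x hx0 hx1
    rcases lt_trichotomy x m with h | h | h
    · by_contra hcon
      push Not at hcon
      obtain ⟨z, hz, ez⟩ := exists_hasDerivAt_eq_slope F F' h hcont.continuousOn
        (fun y hy => hder y (hx0.trans hy.1.le) (hy.2.trans hm1))
      obtain ⟨w, hw, ew⟩ := exists_hasDerivAt_eq_slope F F' hm1 hcont.continuousOn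
        (fun y hy => hder y (hm0.trans hy.1.le) hy.2)
      rw [hFm, hF1, sub_zero, zero_div] at ew
      have h1 : 0 < F' z := by
        rw [ez, hFm]
        exact div_pos (by linarith) (by linarith)
      have h2 := hconc z m w (hx0.trans hz.1.le) hz.2 hw.1 hw.2
      rw [ew, hF'm] at h2
      have h3 : 0 < F' z * (w - m) := mul_pos h1 (by linarith [hw.1])
      nlinarith
    · rw [h, hFm]
    · rcases eq_or_lt_of_le hx1 with h1 | h1
      · rw [h1, hF1]
      · by_contra hcon
        push Not at hcon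
        obtain ⟨y, hy, ey⟩ := exists_hasDerivAt_eq_slope F F' h hcont.continuousOn
          (fun t ht => hder t (hm0.trans ht.1.le) (ht.2.trans h1))
        obtain ⟨z, hz, ez⟩ := exists_hasDerivAt_eq_slope F F' h1 hcont.continuousOn
          (fun t ht => hder t (hx0.trans ht.1.le) ht.2)
        have h2 : F' y < 0 := by
          rw [ey, hFm]
          exact div_neg_of_neg_of_pos (by linarith) (by linarith)
        have h3 : 0 < F' z := by
          rw [ez, hF1]
          exact div_pos (by linarith) (by linarith)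
        have h4 := hconc m y z hm0 hy.1 (hy.2.trans hz.1) hz.2
        rw [hF'm] at h4
        have h5 : 0 < F' z * (y - m) := mul_pos h3 (by linarith [hy.1])
        have h6 : F' y * (z - m) < 0 := mul_neg_of_neg_of_pos h2 (by linarith [hz.1])
        nlinarith
  -- reflection
  have hrefl : ∀ x, 0 ≤ x → F x ≤ F (-x) := by
    intro x hx0
    have h1 := phi_compare hm0 hm1
    have h2 : F (-x) - F x = x * ((1 + m) ^ 2 * (Real.log 2 - Real.log (1 + m))
        - (1 - m) ^ 2 * Real.log 2 + (1 - m) * ((1 - m) * Real.log (1 - m))) := by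
      simp only [hF]
      rw [psi_neg, hc]
      unfold psi L
      ring
    have h3 := mul_nonneg hx0 h1
    linarith
  have hfin : 0 ≤ F x := by
    rcases le_total 0 x with h | h
    · exact hpos x h ((le_abs_self x).trans hx)
    · have h1 : 0 ≤ -x := by linarith
      have h2 : -x ≤ 1 := (neg_le_abs x).trans hx
      have h3 := hrefl (-x) h1
      rw [neg_neg] at h3
      exact (hpos (-x) h1 h2).trans h3
  simp only [hF] at hfin
  linarith

end Vale.P322
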