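import Vale.Agent.P322.Cube

/-! # P322: for `n ≥ 2` there is a coordinate with small level-one coefficient -/

namespace Vale.P322

open Finset

theorem mean_sq_bool {n : ℕ} {f : (Fin n → Bool) → ℝ} (hf : ∀ x, f x = 1 ∨ f x = -1) :
    mean (fun x => (f x) ^ 2) = 1 := by
  have : (fun x => (f x) ^ 2) = fun _ => (1 : ℝ) := by
    funext x
    rcases hf x with h | h <;> rw [h] <;> norm_num
  rw [this, mean_const]

theorem mean_sq_le_one {n : ℕ} {f : (Fin n → Bool) → ℝ} (hf : ∀ x, f x = 1 ∨ f x = -1) :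
    (mean f) ^ 2 ≤ 1 := by
  have h1 := bessel n f
  rw [mean_sq_bool hf] at h1
  have h2 : 0 ≤ ∑ i, (fh i f) ^ 2 := Finset.sum_nonneg fun i _ => sq_nonneg _
  linarith

theorem exists_coord_ge3 {n : ℕ} {f : (Fin (n + 3) → Bool) → ℝ} (hf : ∀ x, f x = 1 ∨ f x = -1) :
    ∃ i : Fin (n + 3), 3 * (fh i f) ^ 2 ≤ 1 - (mean f) ^ 2 := by
  by_contra hcon
  push Not at hcon
  have h1 := bessel (n + 3) f
  rw [mean_sq_bool hf] at h1
  have h2 : ∑ _i : Fin (n + 3), (1 - (mean f) ^ 2) < ∑ i : Fin (n + 3), 3 * (fh i f) ^ 2 :=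
    Finset.sum_lt_sum_of_nonempty ⟨0, Finset.mem_univ _⟩ fun i _ => hcon i
  rw [Finset.sum_const, Finset.card_univ, Fintype.card_fin, nsmul_eq_mul, ← Finset.mul_sum] at h2
  have h3 := mean_sq_le_one hf
  push_cast at h2
  have h4 : (0 : ℝ) ≤ (n : ℝ) := Nat.cast_nonneg n
  nlinarith [mul_nonneg h4 (sub_nonneg.mpr h3)]

theorem exists_coord_two {f : (Fin 2 → Bool) → ℝ} (hf : ∀ x, f x = 1 ∨ f x = -1) :
    ∃ i : Fin 2, 3 * (fh i f) ^ 2 ≤ 1 - (mean f) ^ 2 := by
  have hsum : ∀ F : (Fin 2 → Bool) → ℝ, ∑ x, F x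
      = F ![true, true] + F ![true, false] + F ![false, true] + F ![false, false] := by
    intro F
    rw [← (finTwoArrowEquiv Bool).symm.sum_comp F, Fintype.sum_prod_type, Fintype.sum_bool,
      Fintype.sum_bool, Fintype.sum_bool]
    have e : ∀ a b : Bool, F ((finTwoArrowEquiv Bool).symm (a, b)) = F ![a, b] := by
      intro a b; rfl
    rw [e, e, e, e]
    ring
  have m0 : mean f = (f ![true, true] + f ![true, false] + f ![false, true] + f ![false, false]) / 4 := by
    unfold mean; rw [hsum]; norm_num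
  have f0 : fh 0 f = (f ![true, true] + f ![true, false] - f ![false, true] - f ![false, false]) / 4 := by
    unfold fh mean; rw [hsum]; simp [sg]; norm_num; ring
  have f1 : fh 1 f = (f ![true, true] - f ![true, false] + f ![false, true] - f ![false, false]) / 4 := by
    unfold fh mean; rw [hsum]; simp [sg]; norm_num; ring
  have key : 3 * (fh 0 f) ^ 2 ≤ 1 - (mean f) ^ 2 ∨ 3 * (fh 1 f) ^ 2 ≤ 1 - (mean f) ^ 2 := by
    rw [m0, f0, f1]
    rcases hf ![true, true] with a | a <;> rcases hf ![true, false] with b | b <;>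
      rcases hf ![false, true] with c | c <;> rcases hf ![false, false] with d | d <;>
      rw [a, b, c, d] <;> norm_num
  rcases key with h | h
  · exact ⟨0, h⟩
  · exact ⟨1, h⟩

theorem exists_coord {n : ℕ} {f : (Fin (n + 2) → Bool) → ℝ} (hf : ∀ x, f x = 1 ∨ f x = -1) :
    ∃ i : Fin (n + 2), 3 * (fh i f) ^ 2 ≤ 1 - (mean f) ^ 2 := by
  match n, f, hf with
  | 0, f, hf => exact exists_coord_two hf
  | (n + 1), f, hf => exact exists_coord_ge3 hf

end Vale.P322
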