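import Vale.Agent.P322.Defs

/-! # P322: noise operator on the cube, splitting along a coordinate, Bessel -/

namespace Vale.P322

open Finset

/-- noise kernel of one bit -/
noncomputable def ker (ρ : ℝ) (a b : Bool) : ℝ := if a = b then (1 + ρ) / 2 else (1 - ρ) / 2

/-- noise operator -/
noncomputable def T {n : ℕ} (ρ : ℝ) (f : (Fin n → Bool) → ℝ) (y : Fin n → Bool) : ℝ :=
  ∑ x : Fin n → Bool, (∏ i, ker ρ (x i) (y i)) * f x

/-- mean under the uniform measure -/
noncomputable def mean {n : ℕ} (f : (Fin n → Bool) → ℝ) : ℝ := (∑ x, f x) / 2 ^ n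

/-- average output entropy -/
noncomputable def Hc {n : ℕ} (ρ : ℝ) (f : (Fin n → Bool) → ℝ) : ℝ := (∑ y, h (T ρ f y)) / 2 ^ n

/-- restriction of coordinate `i` to `b` -/
def restr {n : ℕ} (i : Fin (n + 1)) (b : Bool) (f : (Fin (n + 1) → Bool) → ℝ) :
    (Fin n → Bool) → ℝ :=
  fun x => f (i.insertNth b x)

theorem sum_insertNth {n : ℕ} (i : Fin (n + 1)) (F : (Fin (n + 1) → Bool) → ℝ) :
    ∑ x, F x = ∑ x : Fin n → Bool, (F (i.insertNth true x) + F (i.insertNth false x)) := by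
  have e := Fin.insertNthEquiv (fun _ => Bool) i
  rw [← (Fin.insertNthEquiv (fun _ => Bool) i).sum_comp F, Fintype.sum_prod_type,
    Fintype.sum_bool, ← Finset.sum_add_distrib]
  rfl

theorem ker_self (ρ : ℝ) (a : Bool) : ker ρ a a = (1 + ρ) / 2 := by simp [ker]

theorem ker_tf (ρ : ℝ) : ker ρ true false = (1 - ρ) / 2 := by simp [ker]
theorem ker_ft (ρ : ℝ) : ker ρ false true = (1 - ρ) / 2 := by simp [ker]

theorem ker_nonneg {ρ : ℝ} (h0 : 0 ≤ ρ) (h1 : ρ ≤ 1) (a b : Bool) : 0 ≤ ker ρ a b := by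
  unfold ker; split_ifs <;> linarith

theorem T_insertNth {n : ℕ} (ρ : ℝ) (i : Fin (n + 1)) (f : (Fin (n + 1) → Bool) → ℝ)
    (b : Bool) (y : Fin n → Bool) :
    T ρ f (i.insertNth b y) = ker ρ true b * T ρ (restr i true f) y
      + ker ρ false b * T ρ (restr i false f) y := by
  unfold T
  rw [sum_insertNth i, Finset.mul_sum, Finset.mul_sum, ← Finset.sum_add_distrib]
  refine Finset.sum_congr rfl fun x _ => ?_
  rw [Fin.prod_univ_succAbove _ i, Fin.prod_univ_succAbove _ i]
  simp only [Fin.insertNth_apply_same, Fin.insertNth_apply_succAbove, restr]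
  ring

theorem T_true {n : ℕ} (ρ : ℝ) (i : Fin (n + 1)) (f : (Fin (n + 1) → Bool) → ℝ)
    (y : Fin n → Bool) :
    T ρ f (i.insertNth true y) = (1 + ρ) / 2 * T ρ (restr i true f) y
      + (1 - ρ) / 2 * T ρ (restr i false f) y := by
  rw [T_insertNth, ker_self, ker_ft]

theorem T_false {n : ℕ} (ρ : ℝ) (i : Fin (n + 1)) (f : (Fin (n + 1) → Bool) → ℝ)
    (y : Fin n → Bool) :
    T ρ f (i.insertNth false y) = (1 - ρ) / 2 * T ρ (restr i true f) y
      + (1 + ρ) / 2 * T ρ (restr i false f) y := by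
  rw [T_insertNth, ker_self, ker_tf]

theorem mean_split {n : ℕ} (i : Fin (n + 1)) (f : (Fin (n + 1) → Bool) → ℝ) :
    mean f = (mean (restr i true f) + mean (restr i false f)) / 2 := by
  unfold mean restr
  rw [sum_insertNth i f, Finset.sum_add_distrib, pow_succ]
  field_simp

theorem Hc_split {n : ℕ} (ρ : ℝ) (i : Fin (n + 1)) (f : (Fin (n + 1) → Bool) → ℝ) :
    Hc ρ f = (∑ y, hr ρ (T ρ (restr i true f) y) (T ρ (restr i false f) y)) / 2 ^ n := by
  unfold Hc
  rw [sum_insertNth i, pow_succ, div_eq_div_iff (by positivity) (by positivity),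
    Finset.sum_mul, Finset.sum_mul]
  refine Finset.sum_congr rfl fun y _ => ?_
  rw [T_true, T_false]
  unfold hr
  ring

theorem sum_ker {n : ℕ} (ρ : ℝ) (y : Fin n → Bool) :
    ∑ x : Fin n → Bool, ∏ i, ker ρ (x i) (y i) = 1 := by
  have := (Finset.prod_univ_sum (fun _ : Fin n => (Finset.univ : Finset Bool))
    (fun i b => ker ρ b (y i))).symm
  rw [Fintype.piFinset_univ] at this
  rw [this]
  refine Finset.prod_eq_one fun i _ => ?_
  rw [Fintype.sum_bool]
  unfold ker
  cases y i <;> simp <;> ring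

theorem abs_T_le {n : ℕ} {ρ : ℝ} (h0 : 0 ≤ ρ) (h1 : ρ ≤ 1) {f : (Fin n → Bool) → ℝ}
    (hf : ∀ x, |f x| ≤ 1) (y : Fin n → Bool) : |T ρ f y| ≤ 1 := by
  unfold T
  calc |∑ x : Fin n → Bool, (∏ i, ker ρ (x i) (y i)) * f x|
      ≤ ∑ x : Fin n → Bool, |(∏ i, ker ρ (x i) (y i)) * f x| := Finset.abs_sum_le_sum_abs _ _
    _ ≤ ∑ x : Fin n → Bool, ∏ i, ker ρ (x i) (y i) := by
        refine Finset.sum_le_sum fun x _ => ?_
        rw [abs_mul, abs_of_nonneg (Finset.prod_nonneg fun i _ => ker_nonneg h0 h1 _ _)]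
        have hp : 0 ≤ ∏ i, ker ρ (x i) (y i) := Finset.prod_nonneg fun i _ => ker_nonneg h0 h1 _ _
        nlinarith [hf x]
    _ = 1 := sum_ker ρ y

theorem ker_comm (ρ : ℝ) (a b : Bool) : ker ρ a b = ker ρ b a := by
  unfold ker; simp [eq_comm]

theorem mean_T {n : ℕ} (ρ : ℝ) (f : (Fin n → Bool) → ℝ) : mean (T ρ f) = mean f := by
  unfold mean
  congr 1
  unfold T
  rw [Finset.sum_comm]
  refine Finset.sum_congr rfl fun x _ => ?_
  rw [← Finset.sum_mul]
  have : ∑ y : Fin n → Bool, ∏ i, ker ρ (x i) (y i) = 1 := by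
    rw [← sum_ker ρ x]
    refine Finset.sum_congr rfl fun y _ => Finset.prod_congr rfl fun i _ => ker_comm ρ _ _
  rw [this, one_mul]

theorem T_avg {n : ℕ} (ρ : ℝ) (f₁ f₂ : (Fin n → Bool) → ℝ) (y : Fin n → Bool) :
    T ρ (fun x => (f₁ x + f₂ x) / 2) y = (T ρ f₁ y + T ρ f₂ y) / 2 := by
  unfold T
  rw [← Finset.sum_add_distrib, Finset.sum_div]
  refine Finset.sum_congr rfl fun x _ => ?_
  ring

theorem T_neg {n : ℕ} (ρ : ℝ) (f : (Fin n → Bool) → ℝ) (y : Fin n → Bool) :
    T ρ (fun x => - f x) y = - T ρ f y := by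
  unfold T
  rw [← Finset.sum_neg_distrib]
  refine Finset.sum_congr rfl fun x _ => ?_
  ring

theorem mean_avg {n : ℕ} (f₁ f₂ : (Fin n → Bool) → ℝ) :
    mean (fun x => (f₁ x + f₂ x) / 2) = (mean f₁ + mean f₂) / 2 := by
  unfold mean
  rw [← Finset.sum_div, Finset.sum_add_distrib]
  ring

theorem mean_neg {n : ℕ} (f : (Fin n → Bool) → ℝ) : mean (fun x => - f x) = - mean f := by
  unfold mean
  rw [Finset.sum_neg_distrib]; ring

theorem mean_le_mean {n : ℕ} {f₁ f₂ : (Fin n → Bool) → ℝ} (hle : ∀ x, f₁ x ≤ f₂ x) :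
    mean f₁ ≤ mean f₂ := by
  unfold mean
  exact div_le_div_of_nonneg_right (Finset.sum_le_sum fun x _ => hle x) (by positivity)

theorem mean_const {n : ℕ} (c : ℝ) : mean (fun _ : Fin n → Bool => c) = c := by
  unfold mean
  rw [Finset.sum_const, Finset.card_univ, Fintype.card_fun, Fintype.card_bool, Fintype.card_fin,
    nsmul_eq_mul]
  push_cast
  field_simp

theorem abs_mean_le {n : ℕ} {f : (Fin n → Bool) → ℝ} {c : ℝ} (hf : ∀ x, |f x| ≤ c) :
    |mean f| ≤ c := by
  rw [abs_le]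
  constructor
  · rw [← mean_const (n := n) (-c)]
    exact mean_le_mean fun x => (abs_le.mp (hf x)).1
  · rw [← mean_const (n := n) c]
    exact mean_le_mean fun x => (abs_le.mp (hf x)).2

/-- sign of a coordinate -/
def sg (b : Bool) : ℝ := if b then 1 else -1

/-- Fourier coefficient of level one -/
noncomputable def fh {n : ℕ} (i : Fin n) (f : (Fin n → Bool) → ℝ) : ℝ :=
  mean (fun x => sg (x i) * f x)

theorem fh_eq {n : ℕ} (i : Fin (n + 1)) (f : (Fin (n + 1) → Bool) → ℝ) :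
    fh i f = (mean (restr i true f) - mean (restr i false f)) / 2 := by
  unfold fh
  rw [mean_split i]
  unfold restr mean
  simp only [Fin.insertNth_apply_same, sg, if_true, one_mul]
  simp only [Bool.false_eq_true, if_false, neg_mul, one_mul, Finset.sum_neg_distrib]
  ring

theorem fh_succ {n : ℕ} (j : Fin n) (f : (Fin (n + 1) → Bool) → ℝ) :
    fh j.succ f = (fh j (restr 0 true f) + fh j (restr 0 false f)) / 2 := by
  unfold fh
  rw [mean_split 0]
  unfold restr
  have hs : ∀ (b : Bool) (x : Fin n → Bool),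
      (Fin.insertNth (α := fun _ => Bool) 0 b x : Fin (n+1) → Bool) j.succ = x j := by
    intro b x
    have := Fin.insertNth_apply_succAbove (α := fun _ => Bool) 0 b x j
    rwa [Fin.succAbove_zero] at this
  simp only [hs]

/-- Bessel's inequality for the constant and the level-one characters. -/
theorem bessel : ∀ (n : ℕ) (f : (Fin n → Bool) → ℝ),
    (mean f) ^ 2 + ∑ i, (fh i f) ^ 2 ≤ mean (fun x => (f x) ^ 2) := by
  intro n
  induction n with
  | zero =>
    intro f
    simp only [Finset.univ_eq_empty, Finset.sum_empty, add_zero]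
    unfold mean
    simp
  | succ n ih =>
    intro f
    rw [Fin.sum_univ_succ, fh_eq 0 f, mean_split 0 f, mean_split 0 (fun x => (f x) ^ 2)]
    have h1 := ih (restr 0 true f)
    have h2 := ih (restr 0 false f)
    have e1 : (restr 0 true fun x => (f x) ^ 2) = fun x => (restr 0 true f x) ^ 2 := rfl
    have e2 : (restr 0 false fun x => (f x) ^ 2) = fun x => (restr 0 false f x) ^ 2 := rfl
    rw [e1, e2]
    have h3 : ∑ j : Fin n, (fh j.succ f) ^ 2
        ≤ (∑ j : Fin n, (fh j (restr 0 true f)) ^ 2 + ∑ j : Fin n, (fh j (restr 0 false f)) ^ 2) / 2 := by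
      rw [← Finset.sum_add_distrib, Finset.sum_div]
      refine Finset.sum_le_sum fun j _ => ?_
      rw [fh_succ]
      nlinarith [sq_nonneg (fh j (restr 0 true f) - fh j (restr 0 false f))]
    nlinarith [h1, h2, h3]

end Vale.P322
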