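import Mathlib

/-!
# P322 (Courtade–Kumar): basic definitions

Everything in nats until the final statement.
-/

namespace Vale.P322

/-- `psi t = ½[(1+t) log (1+t) + (1-t) log (1-t)]`. -/
noncomputable def psi (t : ℝ) : ℝ :=
  ((1 + t) * Real.log (1 + t) + (1 - t) * Real.log (1 - t)) / 2

/-- Entropy (nats) of a `±1` variable of mean `t`. -/
noncomputable def h (t : ℝ) : ℝ := Real.log 2 - psi t

/-- `artanh t`. -/
noncomputable def L (t : ℝ) : ℝ := (Real.log (1 + t) - Real.log (1 - t)) / 2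

/-- `g t = h t + t * L t = ½ log (4/(1-t²))` (for `|t| < 1`). -/
noncomputable def g (t : ℝ) : ℝ := Real.log 2 - (Real.log (1 + t) + Real.log (1 - t)) / 2

/-- Average output entropy of a pair `(x,y)` sent through one coordinate of noise `ρ`. -/
noncomputable def hr (ρ x y : ℝ) : ℝ :=
  (h ((1 + ρ) / 2 * x + (1 - ρ) / 2 * y) + h ((1 - ρ) / 2 * x + (1 + ρ) / 2 * y)) / 2

/-- Average entropy of a pair. -/
noncomputable def hb (x y : ℝ) : ℝ := (h x + h y) / 2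

/-- `B ρ = h ρ - (1-ρ²) log 2 ≥ 0`. -/
noncomputable def B (ρ : ℝ) : ℝ := h ρ - (1 - ρ ^ 2) * Real.log 2

/-- The Bellman function used for `ρ ≤ 9/10`. -/
noncomputable def H1 (ρ m : ℝ) : ℝ := (1 - ρ ^ 2) * h m + (1 - m ^ 2) * B ρ

/-- Certificate J. -/
def CertJ (ρ m d : ℝ) : Prop :=
  ρ ^ 2 * (1 - ρ ^ 2) * (d ^ 2 / (2 * (1 - m ^ 2)))
      + B ρ * ((1 - ρ ^ 2) * (1 - m ^ 2) + ρ ^ 2 * d ^ 2)
    ≤ ρ ^ 2 * (1 - ρ ^ 2) * (d * Real.log 2)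

/-- Certificate A. -/
def CertA (ρ m d : ℝ) : Prop :=
  B ρ * (2 * (1 + m) ^ 2 * Real.log (2 / (1 + m)) + (1 - ρ ^ 2) * (1 - m ^ 2) + ρ ^ 2 * d ^ 2)
    ≤ ρ ^ 2 * (1 - ρ ^ 2) * hb (m + d) (m - d)

/-- `Δ₁ = H1 ρ m - (H1 ρ (m+d) + H1 ρ (m-d))/2`. -/
noncomputable def Del (ρ m d : ℝ) : ℝ :=
  (1 - ρ ^ 2) * (h m - hb (m + d) (m - d)) + B ρ * d ^ 2

/-- `Hbar₁ = (H1 ρ (m+d) + H1 ρ (m-d))/2`. -/
noncomputable def Hbar (ρ m d : ℝ) : ℝ :=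
  (1 - ρ ^ 2) * hb (m + d) (m - d) + B ρ * (1 - m ^ 2 - d ^ 2)

/-- Certificate K. -/
def CertK (ρ m d : ℝ) : Prop :=
  Del ρ m d * ((1 - ρ ^ 2) * Hbar ρ m d + Del ρ m d)
    ≤ (1 - ρ ^ 2) ^ 2 * (Real.log 2 / 2 * d ^ 2)

/-- `lam ρ = g(ρ²)/g(ρ)`, the multiplier of the KL plane. -/
noncomputable def lam (ρ : ℝ) : ℝ := g (ρ ^ 2) / g ρ

/-- slope of the KL plane. -/
noncomputable def al (ρ : ℝ) : ℝ := lam ρ * L ρ - ρ * L (ρ ^ 2)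

end Vale.P322
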