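import Vale.Agent.P322.FinalDefs

/-! # P322: from the core inequality (nats) to mutual information in bits -/

namespace Vale.P322

open Finset

/-- `true ↦ 1`, `false ↦ -1`. -/
def eU : Bool ≃ ℤˣ where
  toFun b := if b then 1 else -1
  invFun z := decide (z = 1)
  left_inv := by decide
  right_inv := by
    intro z
    rcases Int.units_eq_one_or z with h | h <;> subst h <;> decide

/-- coordinatewise version of `eU` -/
def EU (n : ℕ) : (Fin n → Bool) ≃ (Fin n → ℤˣ) := (Equiv.refl (Fin n)).arrowCongr eU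

theorem EU_apply {n : ℕ} (x : Fin n → Bool) (i : Fin n) : EU n x i = eU (x i) := rfl

/-- real-valued function on the Boolean cube attached to `f` -/
noncomputable def FR {n : ℕ} (f : (Fin n → ℤˣ) → ℤˣ) (x : Fin n → Bool) : ℝ :=
  (((f (EU n x) : ℤˣ) : ℤ) : ℝ)

theorem FR_pm {n : ℕ} (f : (Fin n → ℤˣ) → ℤˣ) (x : Fin n → Bool) :
    FR f x = 1 ∨ FR f x = -1 := by
  unfold FR
  rcases Int.units_eq_one_or (f (EU n x)) with h | h <;> rw [h] <;> simp

theorem noise_ker (ε : ℝ) (a b : Bool) :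
    noiseWeight ε (eU a * eU b) = ker (1 - 2 * ε) a b := by
  have h1 : (1 : ℤˣ) ≠ -1 := by decide
  cases a <;> cases b <;> simp [noiseWeight, ker, eU, h1] <;> ring

theorem ind_eq (b c : ℤˣ) :
    (if c = b then (1 : ℝ) else 0) = (1 + ((b : ℤ) : ℝ) * ((c : ℤ) : ℝ)) / 2 := by
  have h1 : (1 : ℤˣ) ≠ -1 := by decide
  have h2 : (-1 : ℤˣ) ≠ 1 := by decide
  rcases Int.units_eq_one_or b with h | h <;> rcases Int.units_eq_one_or c with h' | h' <;>
    subst h <;> subst h' <;> simp [h1, h2]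

theorem inner_sum {n : ℕ} (ε : ℝ) (f : (Fin n → ℤˣ) → ℤˣ) (b : ℤˣ) (x y : Fin n → ℤˣ) :
    (∑ z : Fin n → ℤˣ, if f x = b ∧ (fun i => x i * z i) = y then
        (1 / 2 ^ n) * ∏ i, noiseWeight ε (z i) else (0 : ℝ))
      = (1 / 2 ^ n) * ((∏ i, noiseWeight ε (x i * y i)) * (if f x = b then (1 : ℝ) else 0)) := by
  rw [Finset.sum_eq_single (fun i => x i * y i)]
  · have hxy : (fun i => x i * (x i * y i)) = y := by
      funext i
      rw [← mul_assoc, Int.units_mul_self, one_mul]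
    by_cases hb : f x = b
    · simp [hb, hxy]
    · simp [hb]
  · intro z _ hz
    rw [if_neg]
    rintro ⟨_, h⟩
    apply hz
    funext i
    have h3 : x i * z i = y i := congrFun h i
    rw [← h3, ← mul_assoc, Int.units_mul_self, one_mul]
  · intro h
    exact absurd (Finset.mem_univ _) h

theorem joint_eq {n : ℕ} (ε : ℝ) (f : (Fin n → ℤˣ) → ℤˣ) (b : ℤˣ) (y : Fin n → Bool) :
    jointLaw ε f b (EU n y)
      = (1 / 2 ^ n) * ((1 + ((b : ℤ) : ℝ) * T (1 - 2 * ε) (FR f) y) / 2) := by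
  unfold jointLaw
  simp only [inner_sum]
  rw [← (EU n).sum_comp, ← Finset.mul_sum]
  congr 1
  have h1 : ∀ x : Fin n → Bool,
      (∏ i, noiseWeight ε (EU n x i * EU n y i)) * (if f (EU n x) = b then (1 : ℝ) else 0)
        = (∏ i, ker (1 - 2 * ε) (x i) (y i)) / 2
          + ((b : ℤ) : ℝ) * ((∏ i, ker (1 - 2 * ε) (x i) (y i)) * FR f x) / 2 := by
    intro x
    rw [ind_eq]
    simp only [EU_apply, noise_ker]
    unfold FR
    ring
  simp only [h1]
  rw [Finset.sum_add_distrib, ← Finset.sum_div, sum_ker, ← Finset.sum_div, ← Finset.mul_sum]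
  unfold T
  ring

theorem sum_units (F : ℤˣ → ℝ) : ∑ b : ℤˣ, F b = F 1 + F (-1) := by
  have h : (Finset.univ : Finset ℤˣ) = {1, -1} := by decide
  rw [h, Finset.sum_pair (by decide)]

theorem card_cube (n : ℕ) : ((Finset.univ : Finset (Fin n → Bool)).card : ℝ) = 2 ^ n := by
  rw [Finset.card_univ, Fintype.card_fun, Fintype.card_bool, Fintype.card_fin]
  push_cast
  rfl

theorem marg_y {n : ℕ} (ε : ℝ) (f : (Fin n → ℤˣ) → ℤˣ) (y : Fin n → Bool) :
    ∑ b, jointLaw ε f b (EU n y) = 1 / 2 ^ n := by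
  rw [sum_units, joint_eq, joint_eq]
  push_cast
  ring

theorem marg_b {n : ℕ} (ε : ℝ) (f : (Fin n → ℤˣ) → ℤˣ) (b : ℤˣ) :
    ∑ y, jointLaw ε f b y = (1 + ((b : ℤ) : ℝ) * mean (FR f)) / 2 := by
  rw [← (EU n).sum_comp]
  simp only [joint_eq]
  rw [← Finset.mul_sum, ← Finset.sum_div, Finset.sum_add_distrib, ← Finset.mul_sum,
    Finset.sum_const, nsmul_eq_mul, card_cube, mul_one]
  have h := mean_T (1 - 2 * ε) (FR f)
  unfold mean at h
  have hp : (2 : ℝ) ^ n ≠ 0 := by positivity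
  have h2 : ∑ x, T (1 - 2 * ε) (FR f) x = mean (FR f) * 2 ^ n := by
    unfold mean
    rw [← h]
    field_simp
  rw [h2]
  field_simp

/-- For `p = 2^{-n} (1+s)/2`, the summand of the mutual information. -/
theorem summand {c s m : ℝ} (hc : 0 < c) (hs : m = -1 → s = -1) :
    (c * ((1 + s) / 2)) * Real.logb 2 ((c * ((1 + s) / 2)) / ((1 + m) / 2 * c))
      = c * (((1 + s) * Real.log (1 + s)) / 2 - (1 + s) * Real.log (1 + m) / 2) / Real.log 2 := by
  by_cases h1 : 1 + s = 0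
  · rw [h1]; simp
  · have hm : 1 + m ≠ 0 := by
      intro h
      apply h1
      have := hs (by linarith)
      linarith
    have e : (c * ((1 + s) / 2)) / ((1 + m) / 2 * c) = (1 + s) / (1 + m) := by
      field_simp
    rw [e, Real.logb, Real.log_div h1 hm]
    ring

theorem h2_eq {ε : ℝ} (h0 : 0 ≤ ε) (h1 : ε ≤ 1 / 2) :
    1 - h2 ε = psi (1 - 2 * ε) / Real.log 2 := by
  have hl : Real.log 2 ≠ 0 := ne_of_gt (Real.log_pos (by norm_num))
  unfold h2 psi Real.logb
  have e1 : (1 + (1 - 2 * ε)) = 2 * (1 - ε) := by ring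
  have e2 : (1 - (1 - 2 * ε)) = 2 * ε := by ring
  rw [e1, e2, Real.log_mul (by norm_num) (by linarith)]
  rcases h0.eq_or_lt with h | h
  · rw [← h]; simp; field_simp
  · rw [Real.log_mul (by norm_num) (ne_of_gt h)]
    field_simp
    ring

theorem sum_T {n : ℕ} (ρ : ℝ) (F : (Fin n → Bool) → ℝ) :
    ∑ y, T ρ F y = mean F * 2 ^ n := by
  have h := mean_T ρ F
  have hp : (2 : ℝ) ^ n ≠ 0 := by positivity
  rw [← h]
  unfold mean
  field_simp

theorem T_eq_neg_one {n : ℕ} {ρ : ℝ} (h0 : 0 ≤ ρ) (h1 : ρ ≤ 1) {F : (Fin n → Bool) → ℝ}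
    (hF : ∀ x, |F x| ≤ 1) (hm : mean F = -1) (y : Fin n → Bool) : T ρ F y = -1 := by
  have hs : ∑ y, (1 + T ρ F y) = 0 := by
    rw [Finset.sum_add_distrib, sum_T, hm, Finset.sum_const, nsmul_eq_mul, card_cube]
    ring
  have hn : ∀ y ∈ (Finset.univ : Finset (Fin n → Bool)), 0 ≤ 1 + T ρ F y := by
    intro y _
    have := (abs_le.mp (abs_T_le h0 h1 hF y)).1
    linarith
  have := (Finset.sum_eq_zero_iff_of_nonneg hn).mp hs y (Finset.mem_univ _)
  linarith

theorem T_eq_one {n : ℕ} {ρ : ℝ} (h0 : 0 ≤ ρ) (h1 : ρ ≤ 1) {F : (Fin n → Bool) → ℝ}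
    (hF : ∀ x, |F x| ≤ 1) (hm : mean F = 1) (y : Fin n → Bool) : T ρ F y = 1 := by
  have hs : ∑ y, (1 - T ρ F y) = 0 := by
    rw [Finset.sum_sub_distrib, sum_T, hm, Finset.sum_const, nsmul_eq_mul, card_cube]
    ring
  have hn : ∀ y ∈ (Finset.univ : Finset (Fin n → Bool)), 0 ≤ 1 - T ρ F y := by
    intro y _
    have := (abs_le.mp (abs_T_le h0 h1 hF y)).2
    linarith
  have := (Finset.sum_eq_zero_iff_of_nonneg hn).mp hs y (Finset.mem_univ _)
  linarith

theorem info_eq {n : ℕ} (f : (Fin n → ℤˣ) → ℤˣ) (ε : ℝ) (h0 : 0 ≤ ε) (h1 : ε ≤ 1 / 2) :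
    mutualInfoBits (jointLaw ε f)
      = (h (mean (FR f)) - Hc (1 - 2 * ε) (FR f)) / Real.log 2 := by
  have hρ0 : 0 ≤ 1 - 2 * ε := by linarith
  have hρ1 : 1 - 2 * ε ≤ 1 := by linarith
  have hF : ∀ x, |FR f x| ≤ 1 := by
    intro x
    rcases FR_pm f x with h | h <;> rw [h] <;> simp
  have hc : (0 : ℝ) < 1 / 2 ^ n := by positivity
  have hplus : ∀ y : Fin n → Bool,
      jointLaw ε f 1 (EU n y) * Real.logb 2 (jointLaw ε f 1 (EU n y)
        / ((∑ b', jointLaw ε f 1 b') * (∑ a', jointLaw ε f a' (EU n y))))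
      = (1 / 2 ^ n) * (((1 + T (1 - 2 * ε) (FR f) y) * Real.log (1 + T (1 - 2 * ε) (FR f) y)) / 2
        - (1 + T (1 - 2 * ε) (FR f) y) * Real.log (1 + mean (FR f)) / 2) / Real.log 2 := by
    intro y
    rw [marg_b, marg_y, joint_eq]
    simp only [Units.val_one, Int.cast_one, one_mul]
    exact summand hc (fun hm => T_eq_neg_one hρ0 hρ1 hF hm y)
  have hminus : ∀ y : Fin n → Bool,
      jointLaw ε f (-1) (EU n y) * Real.logb 2 (jointLaw ε f (-1) (EU n y)
        / ((∑ b', jointLaw ε f (-1) b') * (∑ a', jointLaw ε f a' (EU n y))))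
      = (1 / 2 ^ n) * (((1 + -T (1 - 2 * ε) (FR f) y) * Real.log (1 + -T (1 - 2 * ε) (FR f) y)) / 2
        - (1 + -T (1 - 2 * ε) (FR f) y) * Real.log (1 + -mean (FR f)) / 2) / Real.log 2 := by
    intro y
    rw [marg_b, marg_y, joint_eq]
    simp only [Units.val_neg, Units.val_one, Int.cast_neg, Int.cast_one, neg_mul, one_mul]
    refine summand hc (fun hm => ?_)
    have : mean (FR f) = 1 := by linarith
    rw [T_eq_one hρ0 hρ1 hF this y]
  unfold mutualInfoBits
  rw [sum_units]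
  have hA := (EU n).sum_comp (fun y => jointLaw ε f 1 y * Real.logb 2 (jointLaw ε f 1 y
        / ((∑ b', jointLaw ε f 1 b') * (∑ a', jointLaw ε f a' y))))
  have hB := (EU n).sum_comp (fun y => jointLaw ε f (-1) y * Real.logb 2 (jointLaw ε f (-1) y
        / ((∑ b', jointLaw ε f (-1) b') * (∑ a', jointLaw ε f a' y))))
  rw [← hA, ← hB, Finset.sum_congr rfl fun y _ => hplus y, Finset.sum_congr rfl fun y _ => hminus y]
  rw [← Finset.sum_add_distrib]
  have hsum : ∀ y : Fin n → Bool,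
      (1 / 2 ^ n) * (((1 + T (1 - 2 * ε) (FR f) y) * Real.log (1 + T (1 - 2 * ε) (FR f) y)) / 2
        - (1 + T (1 - 2 * ε) (FR f) y) * Real.log (1 + mean (FR f)) / 2) / Real.log 2
      + (1 / 2 ^ n) * (((1 + -T (1 - 2 * ε) (FR f) y) * Real.log (1 + -T (1 - 2 * ε) (FR f) y)) / 2
        - (1 + -T (1 - 2 * ε) (FR f) y) * Real.log (1 + -mean (FR f)) / 2) / Real.log 2
      = (1 / (2 ^ n * Real.log 2)) * (psi (T (1 - 2 * ε) (FR f) y)
        - (Real.log (1 + mean (FR f)) + Real.log (1 - mean (FR f))) / 2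
        - T (1 - 2 * ε) (FR f) y * ((Real.log (1 + mean (FR f))
          - Real.log (1 - mean (FR f))) / 2)) := by
    intro y
    have hl : Real.log 2 ≠ 0 := ne_of_gt (Real.log_pos (by norm_num))
    have hp : (2 : ℝ) ^ n ≠ 0 := by positivity
    unfold psi
    rw [show (1 + -T (1 - 2 * ε) (FR f) y) = 1 - T (1 - 2 * ε) (FR f) y by ring,
      show (1 + -mean (FR f)) = 1 - mean (FR f) by ring]
    field_simp
    ring
  simp only [hsum]
  rw [← Finset.mul_sum, Finset.sum_sub_distrib, Finset.sum_sub_distrib, ← Finset.sum_mul, sum_T,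
    Finset.sum_const, nsmul_eq_mul, card_cube]
  unfold Hc h
  rw [Finset.sum_sub_distrib, Finset.sum_const, nsmul_eq_mul, card_cube]
  have hl : Real.log 2 ≠ 0 := ne_of_gt (Real.log_pos (by norm_num))
  have hp : (2 : ℝ) ^ n ≠ 0 := by positivity
  have hpsi : psi (mean (FR f)) = (Real.log (1 + mean (FR f)) + Real.log (1 - mean (FR f))) / 2
      + mean (FR f) * ((Real.log (1 + mean (FR f)) - Real.log (1 - mean (FR f))) / 2) := by
    unfold psi; ring
  rw [hpsi]
  field_simp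
  ring

/-- The Courtade–Kumar bound in bits follows from the core inequality. -/
theorem final_of_core (core : Core) (n : ℕ) (f : (Fin n → ℤˣ) → ℤˣ) (ε : ℝ) (h0 : 0 ≤ ε)
    (h1 : ε ≤ 1 / 2) : mutualInfoBits (jointLaw ε f) ≤ 1 - h2 ε := by
  rw [info_eq f ε h0 h1, h2_eq h0 h1]
  have hl : 0 < Real.log 2 := Real.log_pos (by norm_num)
  exact div_le_div_of_nonneg_right
    (core n (FR f) (FR_pm f) (1 - 2 * ε) (by linarith) (by linarith)) hl.le

end Vale.P322
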