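import Mathlib

/-! # P322: the quantities of the Courtade–Kumar question, in bits -/

namespace Vale.P322

/-- Law of one noise sign `Z_i`: `P(Z_i = -1) = ε`, `P(Z_i = 1) = 1 - ε`. -/
noncomputable def noiseWeight (ε : ℝ) (z : ℤˣ) : ℝ := if z = -1 then ε else 1 - ε

/-- Joint law of `(f(X), Y)`: `X` uniform on `{-1,1}^n`, `Z_i` i.i.d. with `P(Z_i=-1)=ε`
independent of `X`, and `Y_i = X_i Z_i`. -/
noncomputable def jointLaw {n : ℕ} (ε : ℝ) (f : (Fin n → ℤˣ) → ℤˣ) (b : ℤˣ)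
    (y : Fin n → ℤˣ) : ℝ :=
  ∑ x : Fin n → ℤˣ, ∑ z : Fin n → ℤˣ,
    if f x = b ∧ (fun i => x i * z i) = y then (1 / 2 ^ n) * ∏ i, noiseWeight ε (z i) else 0

/-- Mutual information, in bits, of a pair of finite random variables with joint law `p`. -/
noncomputable def mutualInfoBits {α β : Type*} [Fintype α] [Fintype β] (p : α → β → ℝ) : ℝ :=
  ∑ a, ∑ b, p a b * Real.logb 2 (p a b / ((∑ b', p a b') * (∑ a', p a' b)))

/-- Binary entropy function, in bits. -/
noncomputable def h2 (p : ℝ) : ℝ := -p * Real.logb 2 p - (1 - p) * Real.logb 2 (1 - p)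

end Vale.P322
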