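import Vale.Agent.P322.Cube
import Vale.Agent.P322.InfoDefs

/-! # P322: the core inequality on the cube, in nats -/

namespace Vale.P322

/-- Core inequality (nats) on the Boolean cube. -/
def Core : Prop :=
  ∀ (n : ℕ) (f : (Fin n → Bool) → ℝ), (∀ x, f x = 1 ∨ f x = -1) →
    ∀ ρ : ℝ, 0 ≤ ρ → ρ ≤ 1 → h (mean f) - Hc ρ f ≤ psi ρ

end Vale.P322
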