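import Vale.Agent.P322.PsiBasic

/-!
# P322, module M1 (part): `psi_mul_le_four`, `psi_upper`
-/

namespace Vale.P322

/-- A function on `[0,1]` with `G 0 = 0`, `G' 0 = 0` and `G'' ≥ 0` is nonnegative. -/
theorem nonneg_of_second_deriv {G G' G'' : ℝ → ℝ} (hc : Continuous G)
    (h1 : ∀ x, 0 ≤ x → x < 1 → HasDerivAt G (G' x) x)
    (h2 : ∀ x, 0 ≤ x → x < 1 → HasDerivAt G' (G'' x) x)
    (h3 : ∀ x, 0 ≤ x → x < 1 → 0 ≤ G'' x) (hG : G 0 = 0) (hG' : G' 0 = 0)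
    {x : ℝ} (hx0 : 0 ≤ x) (hx1 : x ≤ 1) : 0 ≤ G x := by
  have hpos : ∀ y, 0 ≤ y → y < 1 → 0 ≤ G' y := by
    intro y hy0 hy1
    rcases eq_or_lt_of_le hy0 with h | h
    · rw [← h, hG']
    · obtain ⟨z, hz, ez⟩ := exists_hasDerivAt_eq_slope G' G'' h
        (fun t ht => (h2 t ht.1 (ht.2.trans_lt hy1)).continuousAt.continuousWithinAt)
        (fun t ht => h2 t ht.1.le (ht.2.trans hy1))
      have h4 := h3 z hz.1.le (hz.2.trans hy1)
      rw [ez, hG', sub_zero, sub_zero] at h4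
      by_contra hcon
      push Not at hcon
      have := div_neg_of_neg_of_pos hcon h
      linarith
  rcases eq_or_lt_of_le hx0 with h | h
  · rw [← h, hG]
  · obtain ⟨z, hz, ez⟩ := exists_hasDerivAt_eq_slope G G' h hc.continuousOn
      (fun t ht => h1 t ht.1.le (ht.2.trans_le hx1))
    have h4 := hpos z hz.1.le (hz.2.trans_le hx1)
    rw [ez, hG, sub_zero, sub_zero] at h4
    by_contra hcon
    push Not at hcon
    have := div_neg_of_neg_of_pos hcon h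
    linarith

theorem psi_mul_le_four {ρ t : ℝ} (h0 : 0 ≤ ρ) (h1 : ρ ≤ 1) (ht : |t| ≤ 1) :
    psi (ρ * t) ≤ ρ ^ 4 * psi t + (ρ ^ 2 - ρ ^ 4) * (t ^ 2 / 2) := by
  have key : ∀ t, 0 ≤ t → t ≤ 1 →
      psi (ρ * t) ≤ ρ ^ 4 * psi t + (ρ ^ 2 - ρ ^ 4) * (t ^ 2 / 2) := by
    intro t ht0 ht1
    set G : ℝ → ℝ := fun t => ρ ^ 4 * psi t + (ρ ^ 2 - ρ ^ 4) * (t ^ 2 / 2) - psi (ρ * t) with hG
    have hc : Continuous G := by
      have := continuous_psi
      fun_prop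
    have habs : ∀ x, 0 ≤ x → x < 1 → |ρ * x| < 1 := fun x hx0 hx1 => by
      rw [abs_of_nonneg (mul_nonneg h0 hx0)]
      nlinarith
    have hd1 : ∀ x, 0 ≤ x → x < 1 →
        HasDerivAt G (ρ ^ 4 * L x + (ρ ^ 2 - ρ ^ 4) * x - ρ * L (ρ * x)) x := by
      intro x hx0 hx1
      have e1 := (hasDerivAt_psi (show |x| < 1 by rw [abs_of_nonneg hx0]; exact hx1)).const_mul
        (ρ ^ 4)
      have e2 : HasDerivAt (fun t : ℝ => (ρ ^ 2 - ρ ^ 4) * (t ^ 2 / 2)) ((ρ ^ 2 - ρ ^ 4) * x) x := by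
        have := (((hasDerivAt_id x).pow 2).div_const 2).const_mul (ρ ^ 2 - ρ ^ 4)
        refine this.congr_deriv ?_
        simp
      have e3 : HasDerivAt (fun t : ℝ => ρ * t) ρ x := by
        simpa using (hasDerivAt_id x).const_mul ρ
      have e4 : HasDerivAt (fun t : ℝ => psi (ρ * t)) (L (ρ * x) * ρ) x :=
        HasDerivAt.comp x (hasDerivAt_psi (habs x hx0 hx1)) e3
      refine ((e1.add e2).sub e4).congr_deriv ?_
      ring
    have hd2 : ∀ x, 0 ≤ x → x < 1 →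
        HasDerivAt (fun x => ρ ^ 4 * L x + (ρ ^ 2 - ρ ^ 4) * x - ρ * L (ρ * x))
          (ρ ^ 4 * (1 / (1 - x ^ 2)) + (ρ ^ 2 - ρ ^ 4) - ρ ^ 2 * (1 / (1 - (ρ * x) ^ 2))) x := by
      intro x hx0 hx1
      have e1 := (hasDerivAt_L (show |x| < 1 by rw [abs_of_nonneg hx0]; exact hx1)).const_mul
        (ρ ^ 4)
      have e2 : HasDerivAt (fun t : ℝ => (ρ ^ 2 - ρ ^ 4) * t) (ρ ^ 2 - ρ ^ 4) x := by
        simpa using (hasDerivAt_id x).const_mul (ρ ^ 2 - ρ ^ 4)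
      have e3 : HasDerivAt (fun t : ℝ => ρ * t) ρ x := by
        simpa using (hasDerivAt_id x).const_mul ρ
      have e4 : HasDerivAt (fun t : ℝ => L (ρ * t)) (1 / (1 - (ρ * x) ^ 2) * ρ) x :=
        HasDerivAt.comp x (hasDerivAt_L (habs x hx0 hx1)) e3
      refine ((e1.add e2).sub (e4.const_mul ρ)).congr_deriv ?_
      ring
    have hd3 : ∀ x, 0 ≤ x → x < 1 →
        0 ≤ ρ ^ 4 * (1 / (1 - x ^ 2)) + (ρ ^ 2 - ρ ^ 4) - ρ ^ 2 * (1 / (1 - (ρ * x) ^ 2)) := by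
      intro x hx0 hx1
      have a1 : 0 < 1 - x ^ 2 := by nlinarith
      have a2 : 0 < 1 - (ρ * x) ^ 2 := by
        have := habs x hx0 hx1
        rw [abs_of_nonneg (mul_nonneg h0 hx0)] at this
        have := mul_nonneg h0 hx0
        nlinarith
      have a3 : ρ ^ 4 * (1 / (1 - x ^ 2)) + (ρ ^ 2 - ρ ^ 4) - ρ ^ 2 * (1 / (1 - (ρ * x) ^ 2))
          = ρ ^ 4 * x ^ 4 * (1 - ρ ^ 2) / ((1 - x ^ 2) * (1 - (ρ * x) ^ 2)) := by
        have a5 : 1 - ρ ^ 2 * x ^ 2 ≠ 0 := by rw [← mul_pow]; exact a2.ne'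
        rw [mul_pow]
        field_simp
        ring
      rw [a3]
      have a4 : 0 ≤ 1 - ρ ^ 2 := by nlinarith
      positivity
    have hfin := nonneg_of_second_deriv hc hd1 hd2 hd3
      (by simp only [hG]; rw [mul_zero, psi_zero]; ring)
      (by
        have : L 0 = 0 := by unfold L; simp
        simp only [mul_zero, this]; ring) ht0 ht1
    simp only [hG] at hfin
    linarith
  rcases le_total 0 t with h | h
  · exact key t h ((le_abs_self t).trans ht)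
  · have h2 := key (-t) (by linarith) ((neg_le_abs t).trans ht)
    rw [mul_neg, psi_neg, psi_neg, neg_sq] at h2
    exact h2

theorem psi_upper {x x0 : ℝ} (h0 : 0 < x0) (h1 : x0 ≤ 1) (hx : |x| ≤ x0) :
    psi x ≤ x ^ 2 / 2 + (psi x0 - x0 ^ 2 / 2) / x0 ^ 4 * x ^ 4 := by
  have key : ∀ x, 0 ≤ x → x ≤ x0 →
      psi x ≤ x ^ 2 / 2 + (psi x0 - x0 ^ 2 / 2) / x0 ^ 4 * x ^ 4 := by
    intro x hx0 hxx
    have h2 := psi_mul_le_four (ρ := x / x0) (t := x0) (by positivity)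
      (by rw [div_le_one h0]; exact hxx) (by rw [abs_of_pos h0]; exact h1)
    rw [div_mul_cancel₀ _ h0.ne'] at h2
    refine h2.trans (le_of_eq ?_)
    field_simp
    ring
  rcases le_total 0 x with h | h
  · exact key x h ((le_abs_self x).trans hx)
  · have h2 := key (-x) (by linarith) ((neg_le_abs x).trans hx)
    rw [psi_neg, neg_sq] at h2
    have e : (-x) ^ 4 = x ^ 4 := by ring
    rw [e] at h2
    exact h2

end Vale.P322
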