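import Vale.Agent.P322.PsiBasic
import Vale.Agent.P322.Bregman
import Vale.Agent.P322.PsiFour

/-! # P322, module M1: one-variable calculus (umbrella) -/
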