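import Vale.Agent.P322.Defs
import Vale.Agent.P322.Psi

/-!
# P322: module M3, the KL-contraction plane
-/

namespace Vale.P322

namespace KL24

open Real

lemma g_eq_log {x : ℝ} (hx : |x| < 1) : g x = log 2 - log (1 - x ^ 2) / 2 := by
  obtain ⟨h1, h2⟩ := abs_lt.mp hx
  unfold g
  rw [show 1 - x ^ 2 = (1 + x) * (1 - x) by ring, log_mul (by linarith) (by linarith)]

lemma g_ge_sq {x : ℝ} (hx : |x| < 1) : x ^ 2 / 2 < g x := by
  have h2 : x ^ 2 < 1 := by rw [sq_lt_one_iff_abs_lt_one]; exact hx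
  have h1 := log_le_sub_one_of_pos (show 0 < 1 - x ^ 2 by linarith)
  have := log_pos (show (1:ℝ) < 2 by norm_num)
  rw [g_eq_log hx]
  linarith

/-- `G x = (1-x²) g x / x²` is decreasing on `(0,1)`. -/
lemma G_anti : AntitoneOn (fun x : ℝ => (1 - x ^ 2) * g x / x ^ 2) (Set.Ioo 0 1) := by
  have hd : ∀ x ∈ Set.Ioo (0:ℝ) 1, HasDerivAt (fun x : ℝ => (1 - x ^ 2) * g x / x ^ 2)
      ((((0 - 2 * x) * g x + (1 - x ^ 2) * (x / (1 - x ^ 2))) * x ^ 2
        - (1 - x ^ 2) * g x * (2 * x)) / (x ^ 2) ^ 2) x := by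
    intro x hx
    have hx' : |x| < 1 := by rw [abs_of_pos hx.1]; exact hx.2
    have h1 : HasDerivAt (fun x : ℝ => x ^ 2) (2 * x) x := by
      simpa using hasDerivAt_pow 2 x
    have h2 : HasDerivAt (fun x : ℝ => 1 - x ^ 2) (0 - 2 * x) x := (hasDerivAt_const x (1:ℝ)).sub h1
    have h3 := h2.mul (hasDerivAt_g hx')
    exact h3.div h1 (by have := hx.1; positivity)
  apply antitoneOn_of_deriv_nonpos (convex_Ioo 0 1)
  · intro x hx
    exact (hd x hx).continuousAt.continuousWithinAt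
  · intro x hx
    rw [interior_Ioo] at hx
    exact (hd x hx).differentiableAt.differentiableWithinAt
  · intro x hx
    rw [interior_Ioo] at hx
    rw [(hd x hx).deriv]
    have hx0 := hx.1
    have hx' : |x| < 1 := by rw [abs_of_pos hx.1]; exact hx.2
    have hx1 : 0 < 1 - x ^ 2 := by nlinarith [hx.1, hx.2]
    have hg := g_ge_sq hx'
    have e : ((0 - 2 * x) * g x + (1 - x ^ 2) * (x / (1 - x ^ 2))) * x ^ 2
        - (1 - x ^ 2) * g x * (2 * x) = x * (x ^ 2 - 2 * g x) := by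
      field_simp
      ring
    rw [e]
    apply div_nonpos_of_nonpos_of_nonneg _ (by positivity)
    apply mul_nonpos_of_nonneg_of_nonpos hx0.le
    linarith

/-- step (ii) -/
lemma step_ii {κ τ : ℝ} (hκ0 : 0 < κ) (hκ1 : κ < 1) (hτ0 : 0 < τ) (hτ1 : τ < 1) :
    (1 - κ ^ 2) * (L κ - L τ) * g κ + κ * g κ ≤ κ ^ 2 * (g τ / τ + L κ - L τ) := by
  let R : ℝ → ℝ := fun t =>
    κ ^ 2 * (g t / t + L κ - L t) - ((1 - κ ^ 2) * (L κ - L t) * g κ + κ * g κ)
  have hR : ∀ t ∈ Set.Ioo (0:ℝ) 1, HasDerivAt R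
      (κ ^ 2 * (((t / (1 - t ^ 2)) * t - g t * 1) / t ^ 2 + 0 - 1 / (1 - t ^ 2))
        - ((1 - κ ^ 2) * (0 - 1 / (1 - t ^ 2)) * g κ + 0)) t := by
    intro t ht
    have ht' : |t| < 1 := by rw [abs_of_pos ht.1]; exact ht.2
    have h1 : HasDerivAt (fun t : ℝ => g t / t) (((t / (1 - t ^ 2)) * t - g t * 1) / t ^ 2) t :=
      (hasDerivAt_g ht').div (hasDerivAt_id t) (ne_of_gt ht.1)
    have h2 := ((h1.add (hasDerivAt_const t (L κ))).sub (hasDerivAt_L ht')).const_mul (κ ^ 2)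
    have h3 := ((((hasDerivAt_const t (L κ)).sub (hasDerivAt_L ht')).const_mul
      (1 - κ ^ 2)).mul_const (g κ)).add (hasDerivAt_const t (κ * g κ))
    exact h2.sub h3
  have hκm : κ ∈ Set.Ioo (0:ℝ) 1 := ⟨hκ0, hκ1⟩
  have key : ∀ t ∈ Set.Ioo (0:ℝ) 1, deriv R t =
      κ ^ 2 / (1 - t ^ 2) * ((1 - κ ^ 2) * g κ / κ ^ 2 - (1 - t ^ 2) * g t / t ^ 2) := by
    intro t ht
    rw [(hR t ht).deriv]
    have ht0 : t ≠ 0 := ne_of_gt ht.1
    have ht1 : 1 - t ^ 2 ≠ 0 := by nlinarith [ht.1, ht.2]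
    have : κ ≠ 0 := hκ0.ne'
    field_simp
    ring
  have hRκ : R κ = 0 := by
    show κ ^ 2 * (g κ / κ + L κ - L κ) - ((1 - κ ^ 2) * (L κ - L κ) * g κ + κ * g κ) = 0
    have : κ ≠ 0 := hκ0.ne'
    field_simp
    ring
  have hfin : 0 ≤ R τ := by
    rcases le_total κ τ with hle | hle
    · have hm : MonotoneOn R (Set.Ico κ 1) := by
        apply monotoneOn_of_deriv_nonneg (convex_Ico κ 1)
        · intro x hx
          exact (hR x ⟨lt_of_lt_of_le hκ0 hx.1, hx.2⟩).continuousAt.continuousWithinAt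
        · intro x hx
          rw [interior_Ico] at hx
          exact (hR x ⟨hκ0.trans hx.1, hx.2⟩).differentiableAt.differentiableWithinAt
        · intro x hx
          rw [interior_Ico] at hx
          have hxm : x ∈ Set.Ioo (0:ℝ) 1 := ⟨hκ0.trans hx.1, hx.2⟩
          rw [key x hxm]
          have := G_anti hκm hxm hx.1.le
          simp only at this
          have hx1 : 0 < 1 - x ^ 2 := by nlinarith [hxm.1, hxm.2]
          apply mul_nonneg (by positivity)
          linarith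
      have := hm (Set.mem_Ico.mpr ⟨le_rfl, hκ1⟩) (Set.mem_Ico.mpr ⟨hle, hτ1⟩) hle
      rwa [hRκ] at this
    · have hm : AntitoneOn R (Set.Ioc 0 κ) := by
        apply antitoneOn_of_deriv_nonpos (convex_Ioc 0 κ)
        · intro x hx
          exact (hR x ⟨hx.1, lt_of_le_of_lt hx.2 hκ1⟩).continuousAt.continuousWithinAt
        · intro x hx
          rw [interior_Ioc] at hx
          exact (hR x ⟨hx.1, hx.2.trans hκ1⟩).differentiableAt.differentiableWithinAt
        · intro x hx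
          rw [interior_Ioc] at hx
          have hxm : x ∈ Set.Ioo (0:ℝ) 1 := ⟨hx.1, hx.2.trans hκ1⟩
          rw [key x hxm]
          have := G_anti hxm hκm hx.2.le
          simp only at this
          have hx1 : 0 < 1 - x ^ 2 := by nlinarith [hxm.1, hxm.2]
          apply mul_nonpos_of_nonneg_of_nonpos (by positivity)
          linarith
      have := hm (Set.mem_Ioc.mpr ⟨hτ0, hle⟩) (Set.mem_Ioc.mpr ⟨hκ0, le_rfl⟩) hle
      rwa [hRκ] at this
  have : R τ = κ ^ 2 * (g τ / τ + L κ - L τ) - ((1 - κ ^ 2) * (L κ - L τ) * g κ + κ * g κ) := rfl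
  linarith

lemma exists_param {u w : ℝ} (hw : -1 < w) (hwu : w < u) (hu : u < 1) :
    ∃ σ τ : ℝ, |σ| < 1 ∧ 0 < τ ∧ τ < 1 ∧ u * (1 + σ * τ) = σ + τ ∧ w * (1 - σ * τ) = σ - τ := by
  set P := (1 + u) / (1 - u) with hP
  set Q := (1 + w) / (1 - w) with hQ
  have hu' : 0 < 1 - u := by linarith
  have hw' : 0 < 1 - w := by linarith
  have hP0 : 0 < P := div_pos (by linarith) hu'
  have hQ0 : 0 < Q := div_pos (by linarith) hw'
  have hPQ : Q < P := by
    rw [hP, hQ, div_lt_div_iff₀ hw' hu']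
    nlinarith
  obtain ⟨a, ha0, ha⟩ : ∃ a : ℝ, 0 < a ∧ a ^ 2 = P := ⟨√P, sqrt_pos.mpr hP0, sq_sqrt hP0.le⟩
  obtain ⟨b, hb0, hb⟩ : ∃ b : ℝ, 0 < b ∧ b ^ 2 = Q := ⟨√Q, sqrt_pos.mpr hQ0, sq_sqrt hQ0.le⟩
  have hab : b < a := by
    rw [← ha, ← hb] at hPQ
    exact lt_of_pow_lt_pow_left₀ 2 ha0.le hPQ
  have hu2 : u * (a ^ 2 + 1) = a ^ 2 - 1 := by
    rw [ha, hP]; field_simp; ring
  have hw2 : w * (b ^ 2 + 1) = b ^ 2 - 1 := by
    rw [hb, hQ]; field_simp; ring
  -- α = a b, β = a / b; σ = (ab-1)/(ab+1), τ = (a-b)/(a+b)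
  have hab0 : 0 < a * b := mul_pos ha0 hb0
  have hs0 : 0 < a + b := by linarith
  refine ⟨(a * b - 1) / (a * b + 1), (a - b) / (a + b), ?_, ?_, ?_, ?_, ?_⟩
  · rw [abs_lt]
    constructor
    · rw [lt_div_iff₀ (by linarith)]; linarith
    · rw [div_lt_iff₀ (by linarith)]; linarith
  · exact div_pos (by linarith) hs0
  · rw [div_lt_iff₀ hs0]; linarith
  · have e1 : 1 + (a * b - 1) / (a * b + 1) * ((a - b) / (a + b))
        = 2 * b * (a ^ 2 + 1) / ((a * b + 1) * (a + b)) := by field_simp; ring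
    have e2 : (a * b - 1) / (a * b + 1) + (a - b) / (a + b)
        = 2 * b * (a ^ 2 - 1) / ((a * b + 1) * (a + b)) := by field_simp; ring
    rw [e1, e2, ← hu2]; ring
  · have e1 : 1 - (a * b - 1) / (a * b + 1) * ((a - b) / (a + b))
        = 2 * a * (b ^ 2 + 1) / ((a * b + 1) * (a + b)) := by field_simp; ring
    have e2 : (a * b - 1) / (a * b + 1) - (a - b) / (a + b)
        = 2 * a * (b ^ 2 - 1) / ((a * b + 1) * (a + b)) := by field_simp; ring
    rw [e1, e2, ← hw2]; ring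

/-- Analytic core of the translation lemma. -/
lemma core {σ τ : ℝ} (hσ : |σ| < 1) (hτ0 : 0 < τ) (hτ1 : τ < 1) :
    0 ≤ (1 - σ ^ 2 * τ ^ 2) * (log (1 - σ ^ 2 * τ ^ 2) - log (1 - σ ^ 2)) / 2
      + σ ^ 2 * (1 - τ ^ 2) * (log 2 - log (1 - τ ^ 2) / 2) - σ * (1 - τ ^ 2) * L σ := by
  obtain ⟨h1, h2⟩ := abs_lt.mp hσ
  have hx1 : 0 < 1 - σ ^ 2 := by nlinarith
  have hy1 : 0 < 1 - τ ^ 2 := by nlinarith
  have hx0 : 0 ≤ σ ^ 2 := sq_nonneg σ
  have hy0 : 0 ≤ τ ^ 2 := sq_nonneg τ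
  have hge := h_ge hσ.le
  have hgeq := g_eq (t := σ)
  rw [g_eq_log hσ] at hgeq
  set x := σ ^ 2 with hx
  set y := τ ^ 2 with hy
  have hxy : 0 < 1 - x * y := by nlinarith
  -- log concavity
  have hlc : x * log (1 - y) ≤ log (1 - x * y) := by
    have := (strictConcaveOn_log_Ioi.concaveOn).2 (Set.mem_Ioi.mpr hy1)
      (Set.mem_Ioi.mpr (one_pos : (0:ℝ) < 1)) hx0 hx1.le (by ring)
    simp only [smul_eq_mul, log_one, mul_zero, add_zero] at this
    rw [show x * (1 - y) + (1 - x) * 1 = 1 - x * y by ring] at this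
    exact this
  have hmono : log (1 - x) ≤ log (1 - x * y) := by
    apply log_le_log hx1
    nlinarith
  have a1 : 0 ≤ (1 - y) * (log (1 - x * y) - x * log (1 - y)) :=
    mul_nonneg hy1.le (by linarith)
  have a2 : 0 ≤ y * (1 - x) * (log (1 - x * y) - log (1 - x)) :=
    mul_nonneg (mul_nonneg hy0 hx1.le) (by linarith)
  have a3 : 0 ≤ (1 - y) * (x * log 2 - log (1 - x) / 2 - σ * L σ) := by
    apply mul_nonneg hy1.le
    linarith
  nlinarith [a1, a2, a3]

lemma transl {u w : ℝ} (hw : -1 < w) (hwu : w < u) (hu : u < 1) :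
    ∃ τ : ℝ, 0 < τ ∧ τ < 1 ∧ L τ = (L u - L w) / 2 ∧
      (u - w) / 2 * h τ ≤ τ * ((h u + h w) / 2) := by
  obtain ⟨σ, τ, hσ, hτ0, hτ1, hu2, hw2⟩ := exists_param hw hwu hu
  obtain ⟨h1, h2⟩ := abs_lt.mp hσ
  have hστ : |σ * τ| < 1 := by
    rw [abs_mul, abs_of_pos hτ0]
    nlinarith [abs_nonneg σ]
  obtain ⟨h3, h4⟩ := abs_lt.mp hστ
  have hA : 0 < 1 + σ * τ := by linarith
  have hB : 0 < 1 - σ * τ := by linarith
  have e1 : 1 + u = (1 + σ) * (1 + τ) / (1 + σ * τ) := by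
    rw [eq_div_iff hA.ne']; linarith
  have e2 : 1 - u = (1 - σ) * (1 - τ) / (1 + σ * τ) := by
    rw [eq_div_iff hA.ne']; linarith
  have e3 : 1 + w = (1 + σ) * (1 - τ) / (1 - σ * τ) := by
    rw [eq_div_iff hB.ne']; linarith
  have e4 : 1 - w = (1 - σ) * (1 + τ) / (1 - σ * τ) := by
    rw [eq_div_iff hB.ne']; linarith
  have p1 : (1 + σ) ≠ 0 := by linarith
  have p2 : (1 - σ) ≠ 0 := by linarith
  have p3 : (1 + τ) ≠ 0 := by linarith
  have p4 : (1 - τ) ≠ 0 := by linarith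
  have l1 : log (1 + u) = log (1 + σ) + log (1 + τ) - log (1 + σ * τ) := by
    rw [e1, log_div (mul_ne_zero p1 p3) hA.ne', log_mul p1 p3]
  have l2 : log (1 - u) = log (1 - σ) + log (1 - τ) - log (1 + σ * τ) := by
    rw [e2, log_div (mul_ne_zero p2 p4) hA.ne', log_mul p2 p4]
  have l3 : log (1 + w) = log (1 + σ) + log (1 - τ) - log (1 - σ * τ) := by
    rw [e3, log_div (mul_ne_zero p1 p4) hB.ne', log_mul p1 p4]
  have l4 : log (1 - w) = log (1 - σ) + log (1 + τ) - log (1 - σ * τ) := by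
    rw [e4, log_div (mul_ne_zero p2 p3) hB.ne', log_mul p2 p3]
  refine ⟨τ, hτ0, hτ1, ?_, ?_⟩
  · unfold L
    rw [l1, l2, l3, l4]
    ring
  · have hc := core hσ hτ0 hτ1
    have hxy : 0 < 1 - σ ^ 2 * τ ^ 2 := by nlinarith
    have m1 : log (1 - σ ^ 2 * τ ^ 2) = log (1 + σ * τ) + log (1 - σ * τ) := by
      rw [← log_mul hA.ne' hB.ne']; congr 1; ring
    have m2 : log (1 - σ ^ 2) = log (1 + σ) + log (1 - σ) := by
      rw [← log_mul p1 p2]; congr 1; ring
    have m3 : log (1 - τ ^ 2) = log (1 + τ) + log (1 - τ) := by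
      rw [← log_mul p3 p4]; congr 1; ring
    rw [m1, m2, m3] at hc
    -- multiply by (1 - σ²τ²)
    have hu3 : u = (σ + τ) / (1 + σ * τ) := by rw [eq_div_iff hA.ne']; exact hu2
    have hw3 : w = (σ - τ) / (1 - σ * τ) := by rw [eq_div_iff hB.ne']; exact hw2
    have key : (1 - σ ^ 2 * τ ^ 2) * (τ * ((h u + h w) / 2) - (u - w) / 2 * h τ)
        = τ * ((1 - σ ^ 2 * τ ^ 2) * (log (1 + σ * τ) + log (1 - σ * τ)
            - (log (1 + σ) + log (1 - σ))) / 2
          + σ ^ 2 * (1 - τ ^ 2) * (log 2 - (log (1 + τ) + log (1 - τ)) / 2)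
          - σ * (1 - τ ^ 2) * L σ) := by
      unfold h psi L
      rw [l1, l2, l3, l4, hu3, hw3]
      field_simp
      ring
    have : 0 ≤ (1 - σ ^ 2 * τ ^ 2) * (τ * ((h u + h w) / 2) - (u - w) / 2 * h τ) := by
      rw [key]; exact mul_nonneg hτ0.le hc
    have := nonneg_of_mul_nonneg_right this hxy
    linarith

/-- the differential inequality -/
lemma kder {κ u w : ℝ} (hκ0 : 0 < κ) (hκ1 : κ < 1) (hw : -1 < w) (hwu : w < u) (hu : u < 1) :
    (u - w) / 2 * ((1 - κ ^ 2) * (L κ - (L u - L w) / 2) + κ) * g κ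
      ≤ ((h u + h w) / 2 + (u - w) / 2 * L κ) * κ ^ 2 := by
  obtain ⟨τ, hτ0, hτ1, hL, hh⟩ := transl hw hwu hu
  have h2 := step_ii hκ0 hκ1 hτ0 hτ1
  rw [← hL]
  have hδ : 0 < (u - w) / 2 := by linarith
  have hge : (u - w) / 2 * (h τ / τ) ≤ (h u + h w) / 2 := by
    rw [mul_div_assoc', div_le_iff₀ hτ0]; linarith
  have hgt : g τ / τ = h τ / τ + L τ := by
    rw [g_eq]; field_simp
  rw [hgt] at h2
  calc (u - w) / 2 * ((1 - κ ^ 2) * (L κ - L τ) + κ) * g κ
      = (u - w) / 2 * ((1 - κ ^ 2) * (L κ - L τ) * g κ + κ * g κ) := by ring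
    _ ≤ (u - w) / 2 * (κ ^ 2 * (h τ / τ + L τ + L κ - L τ)) :=
        mul_le_mul_of_nonneg_left h2 hδ.le
    _ = κ ^ 2 * ((u - w) / 2 * (h τ / τ) + (u - w) / 2 * L κ) := by ring
    _ ≤ κ ^ 2 * ((h u + h w) / 2 + (u - w) / 2 * L κ) := by
        apply mul_le_mul_of_nonneg_left _ (sq_nonneg κ)
        linarith
    _ = _ := by ring

lemma g_mono {a b : ℝ} (ha : 0 ≤ a) (hab : a ≤ b) (hb : b < 1) : g a ≤ g b := by
  rw [g_eq_log (by rw [abs_of_nonneg ha]; linarith),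
    g_eq_log (by rw [abs_of_nonneg (ha.trans hab)]; exact hb)]
  have h2 : 0 < 1 - b ^ 2 := by nlinarith
  have h1 : 1 - b ^ 2 ≤ 1 - a ^ 2 := by nlinarith
  have := log_le_log h2 h1
  linarith

lemma hb_comm (x y : ℝ) : hb x y = hb y x := by unfold hb; ring

lemma hr_comm (ρ x y : ℝ) : hr ρ x y = hr ρ y x := by
  unfold hr
  rw [show (1 + ρ) / 2 * x + (1 - ρ) / 2 * y = (1 - ρ) / 2 * y + (1 + ρ) / 2 * x by ring,
    show (1 - ρ) / 2 * x + (1 + ρ) / 2 * y = (1 + ρ) / 2 * y + (1 - ρ) / 2 * x by ring]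
  ring

lemma plane_lt {ρ r x y : ℝ} (hρ0 : 0 < ρ) (hρ1 : ρ < 1) (hr0 : 0 < r) (hr1 : r < 1)
    (hx : |x| ≤ 1) (hy : |y| ≤ 1) (hyx : y < x) :
    g (ρ * r) * (hb x y + L r * ((x - y) / 2))
      ≤ g r * (hr ρ x y + ρ * L (ρ * r) * ((x - y) / 2)) := by
  obtain ⟨hx1, hx2⟩ := abs_le.mp hx
  obtain ⟨hy1, hy2⟩ := abs_le.mp hy
  set c := (x + y) / 2 with hc
  set δ := (x - y) / 2 with hδ
  have hδ0 : 0 < δ := by rw [hδ]; linarith
  let N : ℝ → ℝ := fun s => (h (c + s * δ) + h (c - s * δ)) / 2 + s * δ * L (s * r)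
  let Ψ : ℝ → ℝ := fun s => N s / g (s * r)
  have habs : ∀ s : ℝ, 0 < s → s ≤ 1 → |s * r| < 1 := by
    intro s hs0 hs1
    rw [abs_of_pos (mul_pos hs0 hr0)]
    nlinarith
  have hN : ∀ s ∈ Set.Ioo ρ 1, HasDerivAt N
      (((-L (c + s * δ)) * δ + (-L (c - s * δ)) * (-δ)) / 2
        + (δ * L (s * r) + s * δ * (1 / (1 - (s * r) ^ 2) * r))) s := by
    intro s hs
    have hs0 : 0 < s := hρ0.trans hs.1
    have hu : |c + s * δ| < 1 := by
      rw [abs_lt]
      constructor <;> (rw [hc]; nlinarith [hs.1, hs.2, mul_pos (sub_pos.mpr hs.2) hδ0])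
    have hw : |c - s * δ| < 1 := by
      rw [abs_lt]
      constructor <;> (rw [hc]; nlinarith [hs.1, hs.2, mul_pos (sub_pos.mpr hs.2) hδ0])
    have d1 : HasDerivAt (fun s : ℝ => c + s * δ) δ s := by
      simpa using ((hasDerivAt_id s).mul_const δ).const_add c
    have d2 : HasDerivAt (fun s : ℝ => c - s * δ) (-δ) s := by
      simpa using ((hasDerivAt_id s).mul_const δ).const_sub c
    have d3 : HasDerivAt (fun s : ℝ => s * r) r s := by
      simpa using (hasDerivAt_id s).mul_const r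
    have d4 : HasDerivAt (fun s : ℝ => s * δ) δ s := by
      simpa using (hasDerivAt_id s).mul_const δ
    have e1 := HasDerivAt.comp (h₂ := h) s (hasDerivAt_h hu) d1
    have e2 := HasDerivAt.comp (h₂ := h) s (hasDerivAt_h hw) d2
    have e3 := HasDerivAt.comp (h₂ := L) s (hasDerivAt_L (habs s hs0 hs.2.le)) d3
    exact ((e1.add e2).div_const 2).add (d4.mul e3)
  have hG : ∀ s ∈ Set.Ioo ρ 1, HasDerivAt (fun s => g (s * r))
      ((s * r) / (1 - (s * r) ^ 2) * r) s := by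
    intro s hs
    have hs0 : 0 < s := hρ0.trans hs.1
    have d3 : HasDerivAt (fun s : ℝ => s * r) r s := by
      simpa using (hasDerivAt_id s).mul_const r
    exact HasDerivAt.comp (h₂ := g) s (hasDerivAt_g (habs s hs0 hs.2.le)) d3
  have hgpos : ∀ s, 0 < s → s ≤ 1 → 0 < g (s * r) := fun s h0 h1 => g_pos (habs s h0 h1)
  have hanti : AntitoneOn Ψ (Set.Icc ρ 1) := by
    apply antitoneOn_of_deriv_nonpos (convex_Icc ρ 1)
    · intro s hs
      have hs0 : 0 < s := lt_of_lt_of_le hρ0 hs.1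
      apply ContinuousAt.continuousWithinAt
      apply ContinuousAt.div
      · apply ContinuousAt.add
        · apply ContinuousAt.div_const
          apply ContinuousAt.add
          · exact continuous_h.continuousAt.comp (by fun_prop)
          · exact continuous_h.continuousAt.comp (by fun_prop)
        · apply ContinuousAt.mul (by fun_prop)
          exact ContinuousAt.comp (f := fun s : ℝ => s * r)
            (hasDerivAt_L (habs s hs0 hs.2)).continuousAt (by fun_prop)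
      · exact ContinuousAt.comp (f := fun s : ℝ => s * r)
          (hasDerivAt_g (habs s hs0 hs.2)).continuousAt (by fun_prop)
      · exact (hgpos s hs0 hs.2).ne'
    · intro s hs
      rw [interior_Icc] at hs
      have hs0 : 0 < s := hρ0.trans hs.1
      exact ((hN s hs).div (hG s hs) (hgpos s hs0 hs.2.le).ne').differentiableAt.differentiableWithinAt
    · intro s hs
      rw [interior_Icc] at hs
      have hs0 : 0 < s := hρ0.trans hs.1
      have hD := (hN s hs).div (hG s hs) (hgpos s hs0 hs.2.le).ne'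
      have : deriv Ψ s = _ := hD.deriv
      rw [this]
      apply div_nonpos_of_nonpos_of_nonneg _ (by positivity)
      have hκ0 : 0 < s * r := mul_pos hs0 hr0
      have hκ1 : s * r < 1 := by
        have := habs s hs0 hs.2.le
        rwa [abs_of_pos hκ0] at this
      have hk := kder (κ := s * r) (u := c + s * δ) (w := c - s * δ) hκ0 hκ1
        (by rw [hc]; nlinarith [hs.1, hs.2, mul_pos (sub_pos.mpr hs.2) hδ0])
        (by nlinarith [mul_pos hs0 hδ0])
        (by rw [hc]; nlinarith [hs.1, hs.2, mul_pos (sub_pos.mpr hs.2) hδ0])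
      have hk2 : (c + s * δ - (c - s * δ)) / 2 = s * δ := by ring
      rw [hk2] at hk
      have hpos : 0 < 1 - (s * r) ^ 2 := by nlinarith
      have hNs : N s = (h (c + s * δ) + h (c - s * δ)) / 2 + s * δ * L (s * r) := rfl
      rw [← hNs] at hk
      set Lu := L (c + s * δ)
      set Lw := L (c - s * δ)
      set Lk := L (s * r)
      set G := g (s * r)
      have hsr : 0 < s * (1 - (s * r) ^ 2) := mul_pos hs0 hpos
      have e : s * (1 - (s * r) ^ 2) * (((-Lu * δ + -Lw * -δ) / 2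
          + (δ * Lk + s * δ * (1 / (1 - (s * r) ^ 2) * r))) * G
          - N s * ((s * r) / (1 - (s * r) ^ 2) * r))
          = s * δ * ((1 - (s * r) ^ 2) * (Lk - (Lu - Lw) / 2) + s * r) * G
            - N s * (s * r) ^ 2 := by
        have hne : (1 - (s * r) ^ 2) ≠ 0 := hpos.ne'
        have q1 : (1 - (s * r) ^ 2) * (1 / (1 - (s * r) ^ 2) * r) = r := by
          rw [← mul_assoc, mul_one_div_cancel hne, one_mul]
        have q2 : (1 - (s * r) ^ 2) * ((s * r) / (1 - (s * r) ^ 2) * r) = s * r * r := by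
          rw [← mul_assoc, mul_div_cancel₀ _ hne]
        linear_combination (s * G * (s * δ)) * q1 - (s * N s) * q2
      have : s * (1 - (s * r) ^ 2) * (((-Lu * δ + -Lw * -δ) / 2
          + (δ * Lk + s * δ * (1 / (1 - (s * r) ^ 2) * r))) * G
          - N s * ((s * r) / (1 - (s * r) ^ 2) * r)) ≤ 0 := by
        rw [e]; linarith
      by_contra hcon
      push Not at hcon
      have := mul_pos hsr hcon
      linarith
  have hfin := hanti (Set.mem_Icc.mpr ⟨le_rfl, hρ1.le⟩) (Set.mem_Icc.mpr ⟨hρ1.le, le_rfl⟩) hρ1.le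
  have f1 : Ψ 1 = (hb x y + L r * δ) / g r := by
    show ((h (c + 1 * δ) + h (c - 1 * δ)) / 2 + 1 * δ * L (1 * r)) / g (1 * r) = _
    rw [show c + 1 * δ = x by rw [hc, hδ]; ring, show c - 1 * δ = y by rw [hc, hδ]; ring, one_mul,
      one_mul]
    unfold hb
    ring
  have f2 : Ψ ρ = (hr ρ x y + ρ * L (ρ * r) * δ) / g (ρ * r) := by
    show ((h (c + ρ * δ) + h (c - ρ * δ)) / 2 + ρ * δ * L (ρ * r)) / g (ρ * r) = _
    unfold hr
    rw [show (1 + ρ) / 2 * x + (1 - ρ) / 2 * y = c + ρ * δ by rw [hc, hδ]; ring,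
      show (1 - ρ) / 2 * x + (1 + ρ) / 2 * y = c - ρ * δ by rw [hc, hδ]; ring]
    ring
  rw [f1, f2, div_le_div_iff₀ (by simpa using hgpos 1 one_pos le_rfl) (hgpos ρ hρ0 hρ1.le)] at hfin
  linarith

end KL24

open KL24 in
theorem kl_plane {ρ r x y : ℝ} (hρ0 : 0 < ρ) (hρ1 : ρ < 1) (hr0 : 0 < r) (hr1 : r < 1)
    (hx : |x| ≤ 1) (hy : |y| ≤ 1) :
    g (ρ * r) * (hb x y + L r * (|x - y| / 2))
      ≤ g r * (hr ρ x y + ρ * L (ρ * r) * (|x - y| / 2)) := by
  rcases lt_trichotomy x y with hlt | heq | hgt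
  · have := plane_lt hρ0 hρ1 hr0 hr1 hy hx hlt
    rw [abs_of_neg (by linarith), hb_comm x y, hr_comm ρ x y]
    rw [show -(x - y) = y - x by ring]
    exact this
  · subst heq
    have e1 : hb x x = h x := by unfold hb; ring
    have e2 : hr ρ x x = h x := by
      unfold hr
      rw [show (1 + ρ) / 2 * x + (1 - ρ) / 2 * x = x by ring,
        show (1 - ρ) / 2 * x + (1 + ρ) / 2 * x = x by ring]
      ring
    rw [e1, e2]
    simp only [sub_self, abs_zero, zero_div, mul_zero, add_zero]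
    exact mul_le_mul_of_nonneg_right
      (g_mono (mul_pos hρ0 hr0).le (by nlinarith) hr1) (h_nonneg hx)
  · rw [abs_of_pos (by linarith)]
    exact plane_lt hρ0 hρ1 hr0 hr1 hx hy hgt

end Vale.P322
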