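import Vale.Agent.P322.Defs

/-! # P322, module M7: the scalar inequalities for `9/10 ≤ ρ < 1` -/

namespace Vale.P322

/-- `2 log 2 + ½ log (25/19) ≥ 1.5235`. -/
private theorem log_num1 : (3047 / 1000 : ℝ) ≤ 2 * Real.log 2 - Real.log (19 / 100) := by
  have h1 := Real.sum_range_le_log_div (x := 3 / 22) (by norm_num) (by norm_num) 2
  have h2 : ((1 + 3 / 22) / (1 - 3 / 22) : ℝ) = 25 / 19 := by norm_num
  rw [h2] at h1
  have h3 : Real.log (19 / 100) = - (2 * Real.log 2) - Real.log (25 / 19) := by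
    have : (19 / 100 : ℝ) = ((2 : ℝ) ^ 2 * (25 / 19))⁻¹ := by norm_num
    rw [this, Real.log_inv, Real.log_mul (by norm_num) (by norm_num), Real.log_pow]
    push_cast; ring
  have h4 := Real.log_two_gt_d9
  rw [h3]
  simp only [Finset.sum_range_succ, Finset.sum_range_zero] at h1
  norm_num at h1 h4 ⊢
  linarith

/-- `log 2 - log (7/16) ≤ 1.520224`. -/
private theorem log_num2 : Real.log 2 - Real.log (7 / 16) ≤ (1520224 / 1000000 : ℝ) := by
  have h1 := Real.log_div_le_sum_range_add (x := 1 / 15) (by norm_num) (by norm_num) 1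
  have h2 : ((1 + 1 / 15) / (1 - 1 / 15) : ℝ) = 8 / 7 := by norm_num
  rw [h2] at h1
  have h3 : Real.log (7 / 16) = - (Real.log 2) - Real.log (8 / 7) := by
    have : (7 / 16 : ℝ) = ((2 : ℝ) * (8 / 7))⁻¹ := by norm_num
    rw [this, Real.log_inv, Real.log_mul (by norm_num) (by norm_num)]
    ring
  have h4 := Real.log_two_lt_d9
  rw [h3]
  simp only [Finset.sum_range_succ, Finset.sum_range_zero] at h1
  norm_num at h1 h4 ⊢
  linarith

private theorem core1 {y : ℝ} (hy0 : 0 ≤ y) (hy1 : y ^ 2 ≤ 19 / 100) :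
    2 * (230264 / 1000000 + 523803 / 1000000 * y) ^ 2 + 3042 / 10000 * (1 - y ^ 2)
      ≤ 693147 / 1000000 := by
  have hy : y ≤ 436 / 1000 := by
    by_contra hcon
    push Not at hcon
    nlinarith
  nlinarith

/-- the polynomial inequality behind I2 -/
private theorem core2_poly {e t : ℝ} (he0 : 0 < e) (he1 : e ≤ 1 / 10) (ht0 : 0 ≤ t) :
    (34658 / 100000 - e * (2 - e) / 4) *
        ((((20235 / 10000 - (100 / 19) * (e - e ^ 2 / 2)) + t) + 1 / 2 - e / 4) ^ 2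
          - (39 / 100 * (2 - e)) / 2 - (39 / 100 * (2 - e)) ^ 2)
        + ((20235 / 10000 - (100 / 19) * (e - e ^ 2 / 2)) + t) * (39 / 100 * (2 - e)) ^ 2
      ≤ (39 / 100 * (2 - e)) * (((20235 / 10000 - (100 / 19) * (e - e ^ 2 / 2)) + t) *
        (((20235 / 10000 - (100 / 19) * (e - e ^ 2 / 2)) + t) + (1 - e) / 2
          - (34658 / 100000 + 10 / 38 * e))) := by
  have p0 : 0 ≤ (68757333359/200000000000) + (-349899302361/95000000000)*e
      + (5441654215271/722000000000)*e^2 + (161993271/144400000)*e^3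
      + (-40437711/3610000)*e^4 + (11575/1444)*e^5 + (-625/361)*e^6 := by
    have e3 : 0 < e ^ 3 := by positivity
    have e4 : e ^ 4 ≤ 1 / 10 * e ^ 3 := by nlinarith
    have e5 : 0 < e ^ 5 := by positivity
    have e6 : e ^ 6 ≤ 1 / 10 * e ^ 5 := by nlinarith
    nlinarith
  have p1 : 0 ≤ (45936917/50000000) + (-331602511/95000000)*e + (-92323/380000)*e^2
      + (507/152)*e^3 + (-25/19)*e^4 := by
    have e2 : e ^ 2 ≤ 1 / 10 * e := by nlinarith
    have e3 : 0 < e ^ 3 := by positivity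
    have e4 : e ^ 4 ≤ 1 / 10 * e ^ 3 := by nlinarith
    nlinarith
  have p2 : 0 ≤ (21671/50000) + (11/100)*e + (-1/4)*e^2 := by nlinarith
  have h1 := mul_nonneg p1 ht0
  have h2 := mul_nonneg p2 (sq_nonneg t)
  rw [← sub_nonneg]
  have key : (39 / 100 * (2 - e)) * (((20235 / 10000 - (100 / 19) * (e - e ^ 2 / 2)) + t) *
        (((20235 / 10000 - (100 / 19) * (e - e ^ 2 / 2)) + t) + (1 - e) / 2
          - (34658 / 100000 + 10 / 38 * e))) - ((34658 / 100000 - e * (2 - e) / 4) *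
        ((((20235 / 10000 - (100 / 19) * (e - e ^ 2 / 2)) + t) + 1 / 2 - e / 4) ^ 2
          - (39 / 100 * (2 - e)) / 2 - (39 / 100 * (2 - e)) ^ 2)
        + ((20235 / 10000 - (100 / 19) * (e - e ^ 2 / 2)) + t) * (39 / 100 * (2 - e)) ^ 2)
      = ((68757333359/200000000000) + (-349899302361/95000000000)*e
      + (5441654215271/722000000000)*e^2 + (161993271/144400000)*e^3
      + (-40437711/3610000)*e^4 + (11575/1444)*e^5 + (-625/361)*e^6)
      + ((45936917/50000000) + (-331602511/95000000)*e + (-92323/380000)*e^2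
      + (507/152)*e^3 + (-25/19)*e^4) * t + ((21671/50000) + (11/100)*e + (-1/4)*e^2) * t ^ 2 := by
    ring
  rw [key]
  linarith

private theorem core2 {e G s L2 k w : ℝ} (he0 : 0 < e) (he1 : e ≤ 1 / 10)
    (hG : 20235 / 10000 - (100 / 19) * (e - e ^ 2 / 2) ≤ G) (hG1 : 15235 / 10000 ≤ G)
    (hs : 1 / 2 ≤ s)
    (hw1 : G + (1 - e) / 2 ≤ w) (hw2 : w ≤ G + 1 / 2 - e / 4)
    (hk : k ≤ 34658 / 100000 + 10 / 38 * e) (hL2 : L2 ≤ 34658 / 100000 - e * (2 - e) / 4)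
    (hL0 : 0 ≤ L2) :
    L2 * w ^ 2 + (G - L2) * (39 / 100 * (2 - e)) ^ 2
      ≤ (39 / 100 * (2 - e)) * (G * (w - k) + L2 * s) := by
  have hc0 : 0 < 39 / 100 * (2 - e) := by linarith
  have hc1 : 39 / 100 * (2 - e) ≤ 78 / 100 := by linarith
  have s4 := core2_poly (t := G - (20235 / 10000 - (100 / 19) * (e - e ^ 2 / 2))) he0 he1
    (by linarith)
  rw [add_sub_cancel] at s4
  generalize hc : 39 / 100 * (2 - e) = c at *
  -- step 1
  have s1 : c * (G * (G + (1 - e) / 2 - (34658 / 100000 + 10 / 38 * e)) + L2 * (1 / 2))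
      ≤ c * (G * (w - k) + L2 * s) := by
    apply mul_le_mul_of_nonneg_left _ hc0.le
    have t1 : G * (G + (1 - e) / 2 - (34658 / 100000 + 10 / 38 * e)) ≤ G * (w - k) :=
      mul_le_mul_of_nonneg_left (by linarith) (by linarith)
    have t2 : L2 * (1 / 2) ≤ L2 * s := mul_le_mul_of_nonneg_left hs hL0
    linarith
  have s2 : L2 * w ^ 2 ≤ L2 * (G + 1 / 2 - e / 4) ^ 2 := by
    apply mul_le_mul_of_nonneg_left _ hL0
    apply pow_le_pow_left₀ (by linarith) hw2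
  -- step 2: replace L2
  have hpos : 0 ≤ (G + 1 / 2 - e / 4) ^ 2 - c / 2 - c ^ 2 := by
    have h1 : 19 / 10 ≤ G + 1 / 2 - e / 4 := by linarith
    have h2 : (19 / 10 : ℝ) ^ 2 ≤ (G + 1 / 2 - e / 4) ^ 2 := pow_le_pow_left₀ (by norm_num) h1 2
    have h3 : c ^ 2 ≤ (78 / 100 : ℝ) ^ 2 := pow_le_pow_left₀ hc0.le hc1 2
    norm_num at h2 h3
    linarith
  have s3 : L2 * ((G + 1 / 2 - e / 4) ^ 2 - c / 2 - c ^ 2)
      ≤ (34658 / 100000 - e * (2 - e) / 4) * ((G + 1 / 2 - e / 4) ^ 2 - c / 2 - c ^ 2) :=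
    mul_le_mul_of_nonneg_right hL2 hpos
  linarith

private theorem core3 {e G s L2 k w : ℝ} (he0 : 0 < e) (he1 : e ≤ 1 / 10)
    (hG1 : 15235 / 10000 ≤ G) (hs : 1 / 2 ≤ s)
    (hw1 : G + (1 - e) / 2 ≤ w)
    (hk : k ≤ 34658 / 100000 + 10 / 38 * e) (hL2 : L2 ≤ 34658 / 100000)
    (hL0 : 0 ≤ L2) :
    w * (G / 3 + 2 / 3 * L2) ≤ 5773 / 10000 * (G * (w - k) + L2 * s) := by
  have t1 : G * k ≤ G * (34658 / 100000 + 1 / 38) :=
    mul_le_mul_of_nonneg_left (by linarith) (by linarith)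
  have t2 : L2 * (1 / 2) ≤ L2 * s := mul_le_mul_of_nonneg_left hs hL0
  have hw : G + 45 / 100 ≤ w := by linarith
  have t3 : L2 * (2 / 3 * w - 28865 / 100000)
      ≤ 34658 / 100000 * (2 / 3 * w - 28865 / 100000) :=
    mul_le_mul_of_nonneg_right hL2 (by linarith)
  have t4 : (24396 / 100000 * G - 23106 / 100000) * (G + 45 / 100)
      ≤ (24396 / 100000 * G - 23106 / 100000) * w :=
    mul_le_mul_of_nonneg_left hw (by linarith)
  have t5 : 0 ≤ (G - 15235 / 10000) * w := mul_nonneg (by linarith) (by linarith)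
  nlinarith

/-- logarithmic facts, unscaled -/
private theorem facts1 {ρ : ℝ} (h0 : 9 / 10 ≤ ρ) (h1 : ρ < 1) :
    ∃ G σ L2 : ℝ, G = Real.log 2 - Real.log (1 - ρ ^ 2) / 2 ∧
      h ρ = (1 - ρ) * G + ρ * σ ∧
      lam ρ = (G - L2) / G ∧
      al ρ = (G - L2) / G * (G - σ) - ρ * (L2 + G - Real.log 2) ∧
      (1 - ρ) / 2 ≤ σ ∧ σ ≤ (1 - ρ) / (1 + ρ) ∧
      L2 ≤ Real.log 2 / 2 - (1 - ρ ^ 2) / 4 ∧ 0 ≤ L2 ∧
      2 * σ + 2 * L2 ≤ Real.log 2 + (1 - ρ) ^ 2 / (1 + ρ) ^ 2 ∧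
      15235 / 10000 + 1 / 2 * (1 - (1 - ρ ^ 2) / (19 / 100)) ≤ G := by
  have hl1 := Real.log_two_gt_d9
  have hl2 := Real.log_two_lt_d9
  have hβ : 0 < 1 - ρ ^ 2 := by nlinarith
  -- logs
  have hlogβ : Real.log (1 - ρ ^ 2) = Real.log (1 + ρ) + Real.log (1 - ρ) := by
    rw [← Real.log_mul (by linarith) (by linarith)]; congr 1; ring
  have hlogβ4 : Real.log (1 - (ρ ^ 2) ^ 2) = Real.log (1 + ρ ^ 2) + Real.log (1 - ρ ^ 2) := by
    rw [← Real.log_mul (by positivity) (by linarith)]; congr 1; ring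
  obtain ⟨G, hG⟩ : ∃ G, G = g ρ := ⟨_, rfl⟩
  obtain ⟨σ, hσ⟩ : ∃ σ, σ = Real.log 2 - Real.log (1 + ρ) := ⟨_, rfl⟩
  obtain ⟨L2, hL2⟩ : ∃ L2, L2 = Real.log (1 + ρ ^ 2) / 2 := ⟨_, rfl⟩
  have ea : Real.log (1 + ρ) = Real.log 2 - σ := by rw [hσ]; ring
  have eb : Real.log (1 - ρ) = Real.log 2 - 2 * G + σ := by
    rw [hG, g, ea]; ring
  have ec : Real.log (1 + ρ ^ 2) = 2 * L2 := by rw [hL2]; ring
  have eh : h ρ = (1 - ρ) * G + ρ * σ := by
    rw [h, psi, ea, eb]; ring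
  have eL : L ρ = G - σ := by rw [L, ea, eb]; ring
  have eLs : L (ρ ^ 2) = L2 + G - Real.log 2 := by
    rw [L, ec, hlogβ, ea, eb]; ring
  have eg2 : g (ρ ^ 2) = G - L2 := by
    rw [g, ec, hlogβ, ea, eb]; ring
  have elam : lam ρ = (G - L2) / G := by rw [lam, eg2, ← hG]
  refine ⟨G, σ, L2, ?_, eh, elam, ?_, ?_, ?_, ?_, ?_, ?_, ?_⟩
  · rw [hlogβ, hG, g]
  · rw [al, elam, eL, eLs]
  · have := Real.log_le_sub_one_of_pos (x := (1 + ρ) / 2) (by linarith)
    rw [Real.log_div (by linarith) (by norm_num), ea] at this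
    linarith
  · have := Real.log_le_sub_one_of_pos (x := 2 / (1 + ρ)) (by apply div_pos <;> linarith)
    rw [Real.log_div (by norm_num) (by linarith), ea] at this
    have h2 : 2 / (1 + ρ) - 1 = (1 - ρ) / (1 + ρ) := by
      rw [div_sub_one (by linarith)]; congr 1; ring
    rw [h2] at this
    linarith
  · have := Real.log_le_sub_one_of_pos (x := (1 + ρ ^ 2) / 2) (by positivity)
    rw [Real.log_div (by positivity) (by norm_num), ec] at this
    linarith
  · rw [hL2]; exact div_nonneg (Real.log_nonneg (by nlinarith)) (by norm_num)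
  · have := Real.log_le_sub_one_of_pos (x := 2 * (1 + ρ ^ 2) / (1 + ρ) ^ 2) (by positivity)
    rw [Real.log_div (by positivity) (by positivity), Real.log_mul (by norm_num) (by positivity),
      Real.log_pow, ec, ea] at this
    have h2 : 2 * (1 + ρ ^ 2) / (1 + ρ) ^ 2 - 1 = (1 - ρ) ^ 2 / (1 + ρ) ^ 2 := by
      rw [div_sub_one (by positivity)]; congr 1; ring
    rw [h2] at this
    push_cast at this
    linarith
  · have := Real.log_le_sub_one_of_pos (x := (1 - ρ ^ 2) / (19 / 100)) (by positivity)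
    rw [Real.log_div hβ.ne' (by norm_num), hlogβ, ea, eb] at this
    have h2 := log_num1
    linarith

/-- I1 in scaled form. -/
private theorem factI1 {e w G s : ℝ} (he0 : 0 < e) (he1 : e ≤ 1 / 10)
    (hG : G = Real.log 2 - Real.log (e * (2 - e)) / 2) (hs2 : s * (2 - e) ≤ 1) (hs0 : 0 ≤ s)
    (hw : w = G + (1 - e) * s) (hG0 : 0 ≤ G) :
    2 * (e * w) ^ 2 * ((e * (2 - e)) + (1 - e) ^ 2 * (39 / 100 * (2 - e) / w) ^ 2)
      ≤ (e * (2 - e)) ^ 2 * Real.log 2 := by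
  have hβ : 0 < e * (2 - e) := by apply mul_pos he0; linarith
  have hβ1 : e * (2 - e) ≤ 19 / 100 := by nlinarith
  obtain ⟨y, hy⟩ : ∃ y, y = Real.sqrt (e * (2 - e)) := ⟨_, rfl⟩
  have hy0 : 0 < y := by rw [hy]; exact Real.sqrt_pos.2 hβ
  have hy2 : y ^ 2 = e * (2 - e) := by rw [hy]; exact Real.sq_sqrt hβ.le
  have hw0 : 0 ≤ w := by
    rw [hw]; exact add_nonneg hG0 (mul_nonneg (by linarith) hs0)
  -- upper bound for `G`
  have hGy : y * G ≤ 520224 / 1000000 * y + 7 / 16 := by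
    have h1 := Real.log_le_sub_one_of_pos (x := (7 / 16) / y) (by positivity)
    rw [Real.log_div (by norm_num) hy0.ne'] at h1
    have h2 : Real.log (e * (2 - e)) = 2 * Real.log y := by
      rw [← hy2, Real.log_pow]; push_cast; ring
    have h3 := log_num2
    have h4 : G ≤ 520224 / 1000000 + (7 / 16) / y := by
      rw [hG, h2]; linarith
    have h5 : y * G ≤ y * (520224 / 1000000 + (7 / 16) / y) := mul_le_mul_of_nonneg_left h4 hy0.le
    have h6 : y * (520224 / 1000000 + (7 / 16) / y) = 520224 / 1000000 * y + 7 / 16 := by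
      field_simp
    linarith
  have hew : e * w ≤ y * (230264 / 1000000 + 523803 / 1000000 * y) := by
    have h1 : e * w * (2 - e) ≤ y ^ 2 * G + (1 - e) * e := by
      have : e * w * (2 - e) = (e * (2 - e)) * G + (1 - e) * e * (s * (2 - e)) := by rw [hw]; ring
      rw [this, hy2]
      have := mul_le_mul_of_nonneg_left hs2 (by nlinarith : 0 ≤ (1 - e) * e)
      linarith
    have h2 : (1 - e) * e ≤ y ^ 2 / 4 * (2 - e) := by
      rw [hy2]
      have : 0 ≤ e * e ^ 2 := by positivity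
      nlinarith
    have h3 : y ^ 2 * G ≤ y * (520224 / 1000000 * y + 7 / 16) := by
      have := mul_le_mul_of_nonneg_left hGy hy0.le
      linarith
    have h4 : y * (520224 / 1000000 * y + 7 / 16)
        ≤ (y * (230264 / 1000000 + 273803 / 1000000 * y)) * (2 - e) := by
      have h5 : 0 ≤ y * (230264 / 1000000 + 273803 / 1000000 * y) := by positivity
      have h6 := mul_le_mul_of_nonneg_left (by linarith : (19 / 10 : ℝ) ≤ 2 - e) h5
      have h7 : 0 < y ^ 2 := by positivity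
      nlinarith
    have h8 : e * w * (2 - e) ≤ (y * (230264 / 1000000 + 523803 / 1000000 * y)) * (2 - e) := by
      have : (y * (230264 / 1000000 + 523803 / 1000000 * y)) * (2 - e)
        = (y * (230264 / 1000000 + 273803 / 1000000 * y)) * (2 - e) + y ^ 2 / 4 * (2 - e) := by ring
      rw [this]; linarith
    exact le_of_mul_le_mul_right h8 (by linarith)
  have hc1 := core1 (y := y) hy0.le (by rw [hy2]; exact hβ1)
  have hew2 : (e * w) ^ 2 ≤ y ^ 2 * (230264 / 1000000 + 523803 / 1000000 * y) ^ 2 := by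
    rw [← mul_pow]
    exact pow_le_pow_left₀ (by positivity) hew 2
  have hl1 := Real.log_two_gt_d9
  by_cases hw00 : w = 0
  · rw [hw00]
    simp
    positivity
  have e1 : 2 * (e * w) ^ 2 * ((e * (2 - e)) + (1 - e) ^ 2 * (39 / 100 * (2 - e) / w) ^ 2)
      = 2 * (e * w) ^ 2 * (e * (2 - e)) + 3042 / 10000 * (1 - e) ^ 2 * (e * (2 - e)) ^ 2 := by
    field_simp
    ring
  have e2 : (1 - e) ^ 2 = 1 - y ^ 2 := by rw [hy2]; ring
  rw [e1, e2, ← hy2]
  have h3 := mul_le_mul_of_nonneg_right hew2 (by positivity : 0 ≤ 2 * y ^ 2)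
  have h4 := mul_le_mul_of_nonneg_right hc1 (by positivity : 0 ≤ (y ^ 2) ^ 2)
  have h5 : 693147 / 1000000 * (y ^ 2) ^ 2 ≤ Real.log 2 * (y ^ 2) ^ 2 :=
    mul_le_mul_of_nonneg_right (by norm_num at hl1 ⊢; linarith) (by positivity)
  linarith

/-- the bound for `k` -/
private theorem bound_k {e σ L2 k : ℝ} (he0 : 0 < e) (he1 : e ≤ 1 / 10)
    (bsum : 2 * σ + 2 * L2 ≤ Real.log 2 + e ^ 2 / (2 - e) ^ 2)
    (hk : (2 - e) * (σ + L2) - (1 - e) * Real.log 2 = e * k) :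
    k ≤ 34658 / 100000 + 10 / 38 * e := by
  have hl2 := Real.log_two_lt_d9
  norm_num at hl2
  have h2e : 0 < 2 - e := by linarith
  have h1 : e * k ≤ e * (Real.log 2 / 2 + e / (2 * (2 - e))) := by
    have h2 : (2 - e) / 2 * (2 * σ + 2 * L2) ≤
        (2 - e) / 2 * (Real.log 2 + e ^ 2 / (2 - e) ^ 2) :=
      mul_le_mul_of_nonneg_left bsum (by linarith)
    have h3 : (2 - e) / 2 * (Real.log 2 + e ^ 2 / (2 - e) ^ 2) - (1 - e) * Real.log 2
        = e * (Real.log 2 / 2 + e / (2 * (2 - e))) := by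
      field_simp
      ring
    rw [← h3, ← hk]; linarith
  have h4 : k ≤ Real.log 2 / 2 + e / (2 * (2 - e)) := le_of_mul_le_mul_left h1 he0
  have h5 : e / (2 * (2 - e)) ≤ 10 / 38 * e := by
    rw [div_le_iff₀ (by linarith)]
    nlinarith
  linarith

private theorem al_expr {e G σ s w k L2 l : ℝ} (hG0 : 0 < G)
    (hk : (2 - e) * (σ + L2) - (1 - e) * l = e * k) (hs : σ = e * s) (hw : w = G + (1 - e) * s) :
    (G - L2) / G * (G - σ) - (1 - e) * (L2 + G - l) = e * (G * (w - k) + L2 * s) / G := by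
  rw [eq_div_iff hG0.ne']
  have h5 : e * (G * (w - k) + L2 * s) = G * (e * w - e * k) + L2 * (e * s) := by ring
  have h4 : e * w = e * G + (1 - e) * σ := by rw [hw, hs]; ring
  have h6 : ((G - L2) / G * (G - σ) - (1 - e) * (L2 + G - l)) * G
      = (G - L2) * (G - σ) - (1 - e) * (L2 + G - l) * G := by
    field_simp
  rw [h5, ← hk, ← hs, h4, h6]
  ring

/-- scaled facts -/
private theorem facts2 {ρ : ℝ} (h0 : 9 / 10 ≤ ρ) (h1 : ρ < 1) :
    ∃ e G s w k L2 : ℝ, 0 < e ∧ e ≤ 1 / 10 ∧ ρ = 1 - e ∧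
      G = Real.log 2 - Real.log (e * (2 - e)) / 2 ∧
      20235 / 10000 - (100 / 19) * (e - e ^ 2 / 2) ≤ G ∧ 15235 / 10000 ≤ G ∧
      1 / 2 ≤ s ∧ s * (2 - e) ≤ 1 ∧
      w = G + (1 - e) * s ∧ G + (1 - e) / 2 ≤ w ∧ w ≤ G + 1 / 2 - e / 4 ∧
      k ≤ 34658 / 100000 + 10 / 38 * e ∧ L2 ≤ 34658 / 100000 - e * (2 - e) / 4 ∧ 0 ≤ L2 ∧
      h ρ = e * w ∧ lam ρ = (G - L2) / G ∧ al ρ = e * (G * (w - k) + L2 * s) / G := by
  obtain ⟨G, σ, L2, hG, hh, hlam, hal, bσ1, bσ2, bL1, bL0, bsum, bG⟩ := facts1 h0 h1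
  obtain ⟨e, he⟩ : ∃ e, e = 1 - ρ := ⟨_, rfl⟩
  obtain rfl : ρ = 1 - e := by rw [he]; ring
  have he0 : 0 < e := by linarith
  have he1 : e ≤ 1 / 10 := by linarith
  have hl2 := Real.log_two_lt_d9
  norm_num at hl2
  have eβ : 1 - (1 - e) ^ 2 = e * (2 - e) := by ring
  have e1 : 1 - (1 - e) = e := by ring
  have e2 : 1 + (1 - e) = 2 - e := by ring
  rw [eβ] at hG bL1 bG
  rw [e1] at hh bσ1 bσ2 bsum
  rw [e2] at bσ2 bsum
  have h2e : 0 < 2 - e := by linarith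
  have hG2 : 20235 / 10000 - (100 / 19) * (e - e ^ 2 / 2) ≤ G := by
    have : 15235 / 10000 + 1 / 2 * (1 - (e * (2 - e)) / (19 / 100))
        = 20235 / 10000 - (100 / 19) * (e - e ^ 2 / 2) := by ring
    linarith
  have hG1 : 15235 / 10000 ≤ G := by nlinarith
  have hG0 : 0 < G := by linarith
  -- scaled quantities
  obtain ⟨s, hs⟩ : ∃ s, σ = e * s := ⟨σ / e, by field_simp⟩
  have hs1 : 1 / 2 ≤ s := by
    have : e * (1 / 2) ≤ e * s := by rw [← hs]; linarith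
    exact le_of_mul_le_mul_left this he0
  have hs2 : s * (2 - e) ≤ 1 := by
    rw [le_div_iff₀ h2e, hs] at bσ2
    have : e * (s * (2 - e)) ≤ e * 1 := by linarith
    exact le_of_mul_le_mul_left this he0
  obtain ⟨k, hk⟩ : ∃ k, (2 - e) * (σ + L2) - (1 - e) * Real.log 2 = e * k :=
    ⟨((2 - e) * (σ + L2) - (1 - e) * Real.log 2) / e, by field_simp⟩
  refine ⟨e, G, s, G + (1 - e) * s, k, L2, he0, he1, rfl, hG, hG2, hG1, hs1, hs2, rfl, ?_, ?_,
    bound_k he0 he1 bsum hk, by linarith, bL0, ?_, hlam, ?_⟩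
  · have := mul_le_mul_of_nonneg_left hs1 (by linarith : 0 ≤ 1 - e)
    linarith
  · have : (1 - e) * s ≤ 1 / 2 - e / 4 := by
      have h1 : ((1 - e) * s) * (2 - e) ≤ (1 / 2 - e / 4) * (2 - e) := by
        have : (1 - e) * (s * (2 - e)) ≤ (1 - e) * 1 :=
          mul_le_mul_of_nonneg_left hs2 (by linarith)
        nlinarith [sq_nonneg e]
      exact le_of_mul_le_mul_right h1 h2e
    linarith
  · rw [hh, hs]; ring
  · rw [hal]
    exact al_expr hG0 hk hs rfl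

theorem scalar_high {ρ : ℝ} (h0 : 9 / 10 ≤ ρ) (h1 : ρ < 1) :
    ∃ z : ℝ, 0 < z ∧ z ^ 2 ≤ 1 / 3 ∧
      2 * h ρ ^ 2 * ((1 - ρ ^ 2) + ρ ^ 2 * z ^ 2) ≤ (1 - ρ ^ 2) ^ 2 * Real.log 2 ∧
      h ρ ≤ lam ρ * (1 - z ^ 2) * h ρ + al ρ * z ∧
      h ρ ≤ lam ρ * (2 / 3) * h ρ + al ρ * (1 / Real.sqrt 3) ∧
      0 ≤ al ρ := by
  obtain ⟨e, G, s, w, k, L2, he0, he1, hρ, hG, hG2, hG1, hs1, hs2, hw, hw1, hw2, hk1, hL2a, bL0,
    ehw, elam, eal⟩ := facts2 h0 h1
  have hL2b : L2 ≤ 34658 / 100000 := by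
    have : 0 ≤ e * (2 - e) := mul_nonneg he0.le (by linarith)
    linarith
  have hG0 : 0 < G := by linarith
  have hw0 : 0 < w := by linarith
  have hc2 := core2 he0 he1 hG2 hG1 hs1 hw1 hw2 hk1 hL2a bL0
  have hc3 := core3 he0 he1 hG1 hs1 hw1 hk1 hL2b bL0
  have hGL : 0 < G - L2 := by linarith
  have hal : 0 ≤ al ρ := by
    have h1 : 0 ≤ w * (G / 3 + 2 / 3 * L2) := by positivity
    have h2 : 0 ≤ G * (w - k) + L2 * s := by linarith
    rw [eal]; positivity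
  refine ⟨39 / 100 * (2 - e) / w, ?_, ?_, ?_, ?_, ?_, hal⟩
  · apply div_pos _ hw0; linarith
  · rw [div_pow, div_le_iff₀ (by positivity)]
    have h1 : (39 / 100 * (2 - e)) ^ 2 ≤ (78 / 100 : ℝ) ^ 2 :=
      pow_le_pow_left₀ (by linarith) (by linarith) 2
    have h2 : (19 / 10 : ℝ) ^ 2 ≤ w ^ 2 := pow_le_pow_left₀ (by norm_num) (by linarith) 2
    norm_num at h1 h2
    linarith
  · rw [ehw, hρ]
    have := factI1 he0 he1 hG hs2 (by linarith) hw hG0.le
    have eβ : 1 - (1 - e) ^ 2 = e * (2 - e) := by ring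
    rw [eβ]
    exact this
  · -- I2
    rw [elam, ehw, eal]
    have e1 : (G - L2) / G * (1 - (39 / 100 * (2 - e) / w) ^ 2) * (e * w)
        + e * (G * (w - k) + L2 * s) / G * (39 / 100 * (2 - e) / w) - e * w
        = e / (G * w) * ((39 / 100 * (2 - e)) * (G * (w - k) + L2 * s)
          - (L2 * w ^ 2 + (G - L2) * (39 / 100 * (2 - e)) ^ 2)) := by
      generalize 39 / 100 * (2 - e) = c
      field_simp
      ring
    have e3 : 0 ≤ e / (G * w) * ((39 / 100 * (2 - e)) * (G * (w - k) + L2 * s)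
          - (L2 * w ^ 2 + (G - L2) * (39 / 100 * (2 - e)) ^ 2)) :=
      mul_nonneg (by positivity) (by linarith)
    linarith
  · -- I3
    have r1 : 5773 / 10000 ≤ 1 / Real.sqrt 3 := by
      rw [le_div_iff₀ (by positivity), ← le_div_iff₀' (by norm_num)]
      rw [Real.sqrt_le_left (by norm_num)]
      norm_num
    have r2 : al ρ * (5773 / 10000) ≤ al ρ * (1 / Real.sqrt 3) :=
      mul_le_mul_of_nonneg_left r1 hal
    rw [elam, ehw]
    have e1 : (G - L2) / G * (2 / 3) * (e * w) + al ρ * (5773 / 10000) - e * w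
        = e / G * (5773 / 10000 * (G * (w - k) + L2 * s) - w * (G / 3 + 2 / 3 * L2)) := by
      rw [eal]
      field_simp
      ring
    have e3 : 0 ≤ e / G * (5773 / 10000 * (G * (w - k) + L2 * s) - w * (G / 3 + 2 / 3 * L2)) :=
      mul_nonneg (by positivity) (by linarith)
    linarith

end Vale.P322
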