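import Vale.Agent.P322.Pair
import Vale.Agent.P322.KLPlane
import Vale.Agent.P322.ScalarHigh
import Vale.Agent.P322.Coord
import Vale.Agent.P322.FinalDefs

/-! # P322: induction on the dimension and the core inequality -/

namespace Vale.P322

open Finset

theorem pair_low {n : ℕ} {ρ : ℝ} (h0 : 0 < ρ) (h1 : ρ ≤ 9 / 10) {f₁ f₂ : (Fin n → Bool) → ℝ}
    (hf₁ : ∀ x, f₁ x = 1 ∨ f₁ x = -1) (hf₂ : ∀ x, f₂ x = 1 ∨ f₂ x = -1)
    (ih₁ : H1 ρ (mean f₁) ≤ Hc ρ f₁) (ih₂ : H1 ρ (mean f₂) ≤ Hc ρ f₂)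
    (hpar : 3 * ((mean f₁ - mean f₂) / 2) ^ 2 ≤ 1 - ((mean f₁ + mean f₂) / 2) ^ 2) :
    H1 ρ ((mean f₁ + mean f₂) / 2) ≤ (∑ y, hr ρ (T ρ f₁ y) (T ρ f₂ y)) / 2 ^ n := by
  -- first with nonnegative mean, any sign of d
  have step : ∀ {f₁ f₂ : (Fin n → Bool) → ℝ}, (∀ x, f₁ x = 1 ∨ f₁ x = -1) →
      (∀ x, f₂ x = 1 ∨ f₂ x = -1) → H1 ρ (mean f₁) ≤ Hc ρ f₁ → H1 ρ (mean f₂) ≤ Hc ρ f₂ →
      3 * ((mean f₁ - mean f₂) / 2) ^ 2 ≤ 1 - ((mean f₁ + mean f₂) / 2) ^ 2 →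
      0 ≤ (mean f₁ + mean f₂) / 2 →
      H1 ρ ((mean f₁ + mean f₂) / 2) ≤ (∑ y, hr ρ (T ρ f₁ y) (T ρ f₂ y)) / 2 ^ n := by
    intro f₁ f₂ hf₁ hf₂ ih₁ ih₂ hpar hm0
    rcases le_total 0 ((mean f₁ - mean f₂) / 2) with hd | hd
    · exact pair_low_pos h0 h1 hf₁ hf₂ ih₁ ih₂ (m := (mean f₁ + mean f₂) / 2)
        (d := (mean f₁ - mean f₂) / 2) (by ring) (by ring) hm0 hd hpar
    · have := pair_low_pos h0 h1 hf₂ hf₁ ih₂ ih₁ (m := (mean f₁ + mean f₂) / 2)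
        (d := -((mean f₁ - mean f₂) / 2)) (by ring) (by ring) hm0 (by linarith) (by rw [neg_sq]; exact hpar)
      simpa only [hr_comm ρ (T ρ f₂ _)] using this
  rcases le_total 0 ((mean f₁ + mean f₂) / 2) with hm | hm
  · exact step hf₁ hf₂ ih₁ ih₂ hpar hm
  · have g₁ : ∀ x, (fun x => - f₁ x) x = 1 ∨ (fun x => - f₁ x) x = -1 := by
      intro x; rcases hf₁ x with h | h <;> simp [h]
    have g₂ : ∀ x, (fun x => - f₂ x) x = 1 ∨ (fun x => - f₂ x) x = -1 := by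
      intro x; rcases hf₂ x with h | h <;> simp [h]
    have hHc : ∀ f : (Fin n → Bool) → ℝ, Hc ρ (fun x => - f x) = Hc ρ f := by
      intro f
      unfold Hc
      simp only [T_neg, h_neg]
    have := step (f₁ := fun x => - f₁ x) (f₂ := fun x => - f₂ x) g₁ g₂
      (by rw [mean_neg, H1_neg, hHc]; exact ih₁) (by rw [mean_neg, H1_neg, hHc]; exact ih₂)
      (by
        rw [mean_neg, mean_neg]
        have e1 : ((-mean f₁ - -mean f₂) / 2) ^ 2 = ((mean f₁ - mean f₂) / 2) ^ 2 := by ring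
        have e2 : ((-mean f₁ + -mean f₂) / 2) ^ 2 = ((mean f₁ + mean f₂) / 2) ^ 2 := by ring
        rw [e1, e2]; exact hpar)
      (by rw [mean_neg, mean_neg]; linarith)
    rw [mean_neg, mean_neg] at this
    have e3 : (-mean f₁ + -mean f₂) / 2 = -((mean f₁ + mean f₂) / 2) := by ring
    rw [e3, H1_neg] at this
    simpa only [T_neg, hr_neg] using this

theorem T_zero_dim {ρ : ℝ} (f : (Fin 0 → Bool) → ℝ) (y : Fin 0 → Bool) : T ρ f y = f y := by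
  unfold T
  simp only [Finset.univ_unique, Finset.sum_singleton, Finset.univ_eq_empty, Finset.prod_empty,
    one_mul]
  exact congrArg f (Subsingleton.elim _ _)

theorem Hc_nonneg {n : ℕ} {ρ : ℝ} (h0 : 0 ≤ ρ) (h1 : ρ ≤ 1) {f : (Fin n → Bool) → ℝ}
    (hf : ∀ x, f x = 1 ∨ f x = -1) : 0 ≤ Hc ρ f := by
  have hf' : ∀ x, |f x| ≤ 1 := fun x => by rcases hf x with h | h <;> rw [h] <;> norm_num
  unfold Hc
  exact div_nonneg (Finset.sum_nonneg fun y _ => h_nonneg (abs_T_le h0 h1 hf' y)) (by positivity)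

/-- General induction principle. -/
theorem induct {ρ : ℝ} (h0 : 0 ≤ ρ) (h1 : ρ ≤ 1) (U : ℝ → ℝ) (hU1 : U 1 = 0) (hU2 : U (-1) = 0)
    (hU0 : U 0 ≤ h ρ)
    (pair : ∀ (n : ℕ) (f₁ f₂ : (Fin n → Bool) → ℝ), (∀ x, f₁ x = 1 ∨ f₁ x = -1) →
      (∀ x, f₂ x = 1 ∨ f₂ x = -1) → U (mean f₁) ≤ Hc ρ f₁ → U (mean f₂) ≤ Hc ρ f₂ →
      3 * ((mean f₁ - mean f₂) / 2) ^ 2 ≤ 1 - ((mean f₁ + mean f₂) / 2) ^ 2 →
      U ((mean f₁ + mean f₂) / 2) ≤ (∑ y, hr ρ (T ρ f₁ y) (T ρ f₂ y)) / 2 ^ n) :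
    ∀ (n : ℕ) (f : (Fin n → Bool) → ℝ), (∀ x, f x = 1 ∨ f x = -1) → U (mean f) ≤ Hc ρ f := by
  intro n
  induction n with
  | zero =>
    intro f hf
    have e : mean f = f default := by
      unfold mean
      simp only [Finset.univ_unique, Finset.sum_singleton, pow_zero, div_one]
      exact congrArg f (Subsingleton.elim _ _)
    have hz : U (mean f) = 0 := by
      rw [e]; rcases hf default with h | h <;> rw [h]
      · exact hU1
      · exact hU2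
    rw [hz]
    exact Hc_nonneg h0 h1 hf
  | succ n ih =>
    match n, ih with
    | 0, _ =>
      intro f hf
      rw [Hc_split ρ 0 f, mean_split 0 f]
      have e : ∀ F : (Fin 0 → Bool) → ℝ, (∑ y, F y) / 2 ^ 0 = F default := by
        intro F
        simp only [Finset.univ_unique, Finset.sum_singleton, pow_zero, div_one]
        exact congrArg F (Subsingleton.elim _ _)
      have e2 : ∀ F : (Fin 0 → Bool) → ℝ, mean F = F default := by
        intro F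
        unfold mean
        exact e F
      rw [e, e2, e2, T_zero_dim, T_zero_dim]
      have a := hf (Fin.insertNth (α := fun _ => Bool) 0 true default)
      have b := hf (Fin.insertNth (α := fun _ => Bool) 0 false default)
      have a' : restr 0 true f default = 1 ∨ restr 0 true f default = -1 := a
      have b' : restr 0 false f default = 1 ∨ restr 0 false f default = -1 := b
      have hdict : hr ρ 1 (-1) = h ρ := by
        unfold hr
        have e1 : (1 + ρ) / 2 * 1 + (1 - ρ) / 2 * -1 = ρ := by ring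
        have e2 : (1 - ρ) / 2 * 1 + (1 + ρ) / 2 * -1 = -ρ := by ring
        rw [e1, e2, h_neg]; ring
      have hdict' : hr ρ (-1) 1 = h ρ := by rw [hr_comm, hdict]
      rcases a' with a | a <;> rcases b' with b | b <;> rw [a, b]
      · rw [show ((1:ℝ) + 1) / 2 = 1 by norm_num, hU1]
        exact hr_nonneg h0 h1 (by norm_num) (by norm_num)
      · rw [show ((1:ℝ) + -1) / 2 = 0 by norm_num, hdict]; exact hU0
      · rw [show ((-1:ℝ) + 1) / 2 = 0 by norm_num, hdict']; exact hU0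
      · rw [show ((-1:ℝ) + -1) / 2 = -1 by norm_num, hU2]
        exact hr_nonneg h0 h1 (by norm_num) (by norm_num)
    | (k + 1), ih =>
      intro f hf
      obtain ⟨i, hi⟩ := exists_coord hf
      rw [fh_eq] at hi
      rw [Hc_split ρ i f, mean_split i f]
      rw [mean_split i f] at hi
      exact pair (k + 1) _ _ (fun x => hf _) (fun x => hf _) (ih _ (fun x => hf _))
        (ih _ (fun x => hf _)) hi

theorem B_def (ρ : ℝ) : B ρ = h ρ - (1 - ρ ^ 2) * Real.log 2 := rfl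

theorem main_low {ρ : ℝ} (h0 : 0 < ρ) (h1 : ρ ≤ 9 / 10) (n : ℕ) (f : (Fin n → Bool) → ℝ)
    (hf : ∀ x, f x = 1 ∨ f x = -1) : H1 ρ (mean f) ≤ Hc ρ f := by
  refine induct h0.le (by linarith) (H1 ρ) ?_ ?_ ?_ ?_ n f hf
  · unfold H1; rw [h_one]; ring
  · rw [H1_neg]; unfold H1; rw [h_one]; ring
  · unfold H1; rw [h_zero, B_def]; apply le_of_eq; ring
  · intro n f₁ f₂ hf₁ hf₂ ih₁ ih₂ hpar
    exact pair_low h0 h1 hf₁ hf₂ ih₁ ih₂ hpar

theorem plane {ρ x y : ℝ} (h0 : 0 < ρ) (h1 : ρ < 1) (hx : |x| ≤ 1) (hy : |y| ≤ 1) :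
    lam ρ * hb x y + al ρ * (|x - y| / 2) ≤ hr ρ x y := by
  have hk := kl_plane h0 h1 h0 h1 hx hy
  have hg : 0 < g ρ := g_pos (by rw [abs_of_pos h0]; exact h1)
  have e : ρ * ρ = ρ ^ 2 := by ring
  rw [e] at hk
  have key : g ρ * (lam ρ * hb x y + al ρ * (|x - y| / 2)) ≤ g ρ * hr ρ x y := by
    have e2 : g ρ * lam ρ = g (ρ ^ 2) := by
      unfold lam; field_simp
    have e3 : g ρ * al ρ = g (ρ ^ 2) * L ρ - g ρ * (ρ * L (ρ ^ 2)) := by
      unfold al; rw [mul_sub, ← mul_assoc, e2]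
    have : g ρ * (lam ρ * hb x y + al ρ * (|x - y| / 2))
        = (g ρ * lam ρ) * hb x y + (g ρ * al ρ) * (|x - y| / 2) := by ring
    rw [this, e2, e3]
    nlinarith [hk]
  exact le_of_mul_le_mul_left key hg

theorem alg_CS {ρ hρ v d z E W Hb : ℝ} (hρ0 : 0 ≤ ρ) (h1 : ρ < 1)
    (hv1 : v ≤ 1)
    (hE2 : ρ ^ 2 * Hb + (1 - ρ ^ 2) * W ≤ E) (hH : hρ * (v - d ^ 2) ≤ Hb) (hHW : Hb ≤ W)
    (hW0 : 0 ≤ W) (hK : Real.log 2 / 2 * d ^ 2 ≤ W * (W - Hb))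
    (hI1 : 2 * hρ ^ 2 * ((1 - ρ ^ 2) + ρ ^ 2 * z ^ 2) ≤ (1 - ρ ^ 2) ^ 2 * Real.log 2)
    (hdz : d ^ 2 ≤ z ^ 2) : hρ * v ≤ E := by
  have hβ : 0 < 1 - ρ ^ 2 := by nlinarith
  by_contra hcon
  push Not at hcon
  have b1 : (1 - ρ ^ 2) * (W - Hb) < hρ * d ^ 2 := by nlinarith
  have b2 : (1 - ρ ^ 2) * W < hρ * ((1 - ρ ^ 2) * v + ρ ^ 2 * d ^ 2) := by
    nlinarith [mul_le_mul_of_nonneg_left hH (sq_nonneg ρ)]
  have c1 : 0 ≤ (1 - ρ ^ 2) * (W - Hb) := mul_nonneg hβ.le (by linarith)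
  have hd2 : 0 < hρ * d ^ 2 := lt_of_le_of_lt c1 b1
  have hdne : 0 < d ^ 2 := by
    rcases (sq_nonneg d).lt_or_eq with hlt | heq
    · exact hlt
    · rw [← heq] at hd2; simp at hd2
  have hln : 0 < Real.log 2 := Real.log_pos (by norm_num)
  have hW1 : 0 < W := by
    rcases hW0.lt_or_eq with hlt | heq
    · exact hlt
    · rw [← heq] at hK
      have := mul_pos hln hdne
      linarith
  have b3 : ((1 - ρ ^ 2) * (W - Hb)) * ((1 - ρ ^ 2) * W)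
      < (hρ * d ^ 2) * (hρ * ((1 - ρ ^ 2) * v + ρ ^ 2 * d ^ 2)) :=
    mul_lt_mul' b1.le b2 (mul_pos hβ hW1).le (lt_of_le_of_lt c1 b1)
  have b4 := mul_le_mul_of_nonneg_left hK (sq_nonneg (1 - ρ ^ 2))
  have b5 : (1 - ρ ^ 2) * v + ρ ^ 2 * d ^ 2 ≤ (1 - ρ ^ 2) + ρ ^ 2 * z ^ 2 := by
    have e1 := mul_le_mul_of_nonneg_left hdz (sq_nonneg ρ)
    have e2 := mul_le_mul_of_nonneg_left hv1 hβ.le
    linarith
  have b6 : (hρ * d ^ 2) * (hρ * ((1 - ρ ^ 2) * v + ρ ^ 2 * d ^ 2))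
      ≤ d ^ 2 * (hρ ^ 2 * ((1 - ρ ^ 2) + ρ ^ 2 * z ^ 2)) := by
    have := mul_le_mul_of_nonneg_left b5 (mul_nonneg (sq_nonneg d) (sq_nonneg hρ))
    calc (hρ * d ^ 2) * (hρ * ((1 - ρ ^ 2) * v + ρ ^ 2 * d ^ 2))
        = d ^ 2 * hρ ^ 2 * ((1 - ρ ^ 2) * v + ρ ^ 2 * d ^ 2) := by ring
      _ ≤ d ^ 2 * hρ ^ 2 * ((1 - ρ ^ 2) + ρ ^ 2 * z ^ 2) := this
      _ = _ := by ring
  have b7 := mul_le_mul_of_nonneg_left hI1 (sq_nonneg d)
  have b8 : (1 - ρ ^ 2) ^ 2 * (W * (W - Hb)) = ((1 - ρ ^ 2) * (W - Hb)) * ((1 - ρ ^ 2) * W) := by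
    ring
  rw [b8] at b4
  have b9 : d ^ 2 * (2 * hρ ^ 2 * ((1 - ρ ^ 2) + ρ ^ 2 * z ^ 2))
      = 2 * (d ^ 2 * (hρ ^ 2 * ((1 - ρ ^ 2) + ρ ^ 2 * z ^ 2))) := by ring
  have b10 : d ^ 2 * ((1 - ρ ^ 2) ^ 2 * Real.log 2)
      = 2 * ((1 - ρ ^ 2) ^ 2 * (Real.log 2 / 2 * d ^ 2)) := by ring
  rw [b9, b10] at b7
  linarith

theorem alg_plane {lm hh al v t z w : ℝ} (hLh : 0 ≤ lm * hh) (hal : 0 ≤ al)
    (hv0 : 0 ≤ v) (hv1 : v ≤ 1) (hzt : z < t)
    (hw2 : w ^ 2 = 1 / 3)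
    (hI2 : hh ≤ lm * (1 - z ^ 2) * hh + al * z)
    (hI3 : hh ≤ lm * (2 / 3) * hh + al * w)
    (hpar : t ^ 2 * v ^ 2 ≤ v / 3) :
    hh * v ≤ lm * (hh * (v - t ^ 2 * v ^ 2)) + al * (t * v) := by
  rcases le_or_gt t w with htw | htw
  · have hwz : 0 < w - z := by linarith
    have hφ : hh ≤ lm * (1 - t ^ 2) * hh + al * t := by
      have p1 := mul_le_mul_of_nonneg_left hI2 (by linarith : 0 ≤ w - t)
      have hI3' : hh ≤ lm * (1 - w ^ 2) * hh + al * w := by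
        rw [hw2]; norm_num at hI3 ⊢; linarith
      have p2 := mul_le_mul_of_nonneg_left hI3' (by linarith : 0 ≤ t - z)
      have p3 : 0 ≤ lm * hh * ((w - z) * ((w - t) * (t - z))) :=
        mul_nonneg hLh (mul_nonneg hwz.le (mul_nonneg (by linarith) (by linarith)))
      have p4 : (w - z) * hh ≤ (w - z) * (lm * (1 - t ^ 2) * hh + al * t) := by
        have e : (w - z) * (lm * (1 - t ^ 2) * hh + al * t)
            = (w - t) * (lm * (1 - z ^ 2) * hh + al * z)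
              + (t - z) * (lm * (1 - w ^ 2) * hh + al * w)
              + lm * hh * ((w - z) * ((w - t) * (t - z))) := by ring
        rw [e]
        linarith
      exact le_of_mul_le_mul_left p4 hwz
    have q1 := mul_le_mul_of_nonneg_left hφ hv0
    have q2 : 0 ≤ lm * hh * (t ^ 2 * v * (1 - v)) :=
      mul_nonneg hLh (mul_nonneg (mul_nonneg (sq_nonneg t) hv0) (by linarith))
    have e : lm * (hh * (v - t ^ 2 * v ^ 2)) + al * (t * v)
        = v * (lm * (1 - t ^ 2) * hh + al * t) + lm * hh * (t ^ 2 * v * (1 - v)) := by ring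
    rw [e]
    linarith
  · have q1 := mul_le_mul_of_nonneg_left hI3 hv0
    have q2 := mul_le_mul_of_nonneg_left hpar hLh
    have q3 : al * (w * v) ≤ al * (t * v) :=
      mul_le_mul_of_nonneg_left (mul_le_mul_of_nonneg_right htw.le hv0) hal
    have e : lm * (hh * (v - t ^ 2 * v ^ 2)) + al * (t * v)
        = lm * hh * v - lm * hh * (t ^ 2 * v ^ 2) + al * (t * v) := by ring
    have e1 : v * (lm * (2 / 3) * hh + al * w) = lm * hh * v - lm * hh * (v / 3) + al * (w * v) := by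
      ring
    rw [e]
    rw [e1] at q1
    linarith

theorem plane_avg {n : ℕ} {ρ : ℝ} (h0 : 0 < ρ) (h1 : ρ < 1) {f₁ f₂ : (Fin n → Bool) → ℝ}
    (hf₁ : ∀ x, |f₁ x| ≤ 1) (hf₂ : ∀ x, |f₂ x| ≤ 1) (hal : 0 ≤ al ρ) :
    lam ρ * ((Hc ρ f₁ + Hc ρ f₂) / 2) + al ρ * |(mean f₁ - mean f₂) / 2|
      ≤ (∑ y, hr ρ (T ρ f₁ y) (T ρ f₂ y)) / 2 ^ n := by
  have hT1 : ∀ y, |T ρ f₁ y| ≤ 1 := abs_T_le h0.le h1.le hf₁
  have hT2 : ∀ y, |T ρ f₂ y| ≤ 1 := abs_T_le h0.le h1.le hf₂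
  have s1 : (∑ y, (lam ρ * hb (T ρ f₁ y) (T ρ f₂ y) + al ρ * (|T ρ f₁ y - T ρ f₂ y| / 2))) / 2 ^ n
      ≤ (∑ y, hr ρ (T ρ f₁ y) (T ρ f₂ y)) / 2 ^ n :=
    div_le_div_of_nonneg_right (Finset.sum_le_sum fun y _ =>
      plane h0 h1 (hT1 y) (hT2 y)) (by positivity)
  have s2 : (∑ y, (lam ρ * hb (T ρ f₁ y) (T ρ f₂ y) + al ρ * (|T ρ f₁ y - T ρ f₂ y| / 2))) / 2 ^ n
      = lam ρ * ((Hc ρ f₁ + Hc ρ f₂) / 2) + al ρ * mean (fun y => |(T ρ f₁ y - T ρ f₂ y) / 2|) := by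
    unfold hb Hc mean
    rw [Finset.sum_add_distrib, ← Finset.mul_sum, ← Finset.mul_sum, ← Finset.sum_div,
      Finset.sum_add_distrib]
    have : ∀ y, |(T ρ f₁ y - T ρ f₂ y) / 2| = |T ρ f₁ y - T ρ f₂ y| / 2 := by
      intro y; rw [abs_div, abs_of_pos (by norm_num : (0:ℝ) < 2)]
    simp only [this]
    ring
  have s3 : |(mean f₁ - mean f₂) / 2| ≤ mean (fun y => |(T ρ f₁ y - T ρ f₂ y) / 2|) := by
    have hdm : (mean f₁ - mean f₂) / 2 = mean (fun y => (T ρ f₁ y - T ρ f₂ y) / 2) := by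
      have : mean (fun y => (T ρ f₁ y - T ρ f₂ y) / 2) = (mean (T ρ f₁) - mean (T ρ f₂)) / 2 := by
        unfold mean
        rw [← Finset.sum_div, Finset.sum_sub_distrib]; ring
      rw [this, mean_T, mean_T]
    rw [hdm, abs_le]
    constructor
    · rw [← mean_neg]
      exact mean_le_mean fun x => neg_abs_le _
    · exact mean_le_mean fun x => le_abs_self _
  have s4 := mul_le_mul_of_nonneg_left s3 hal
  rw [s2] at s1
  linarith

theorem pair_high {n : ℕ} {ρ : ℝ} (h0 : 9 / 10 ≤ ρ) (h1 : ρ < 1) {f₁ f₂ : (Fin n → Bool) → ℝ}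
    (hf₁ : ∀ x, f₁ x = 1 ∨ f₁ x = -1) (hf₂ : ∀ x, f₂ x = 1 ∨ f₂ x = -1)
    (ih₁ : h ρ * (1 - mean f₁ ^ 2) ≤ Hc ρ f₁) (ih₂ : h ρ * (1 - mean f₂ ^ 2) ≤ Hc ρ f₂)
    (hpar : 3 * ((mean f₁ - mean f₂) / 2) ^ 2 ≤ 1 - ((mean f₁ + mean f₂) / 2) ^ 2) :
    h ρ * (1 - ((mean f₁ + mean f₂) / 2) ^ 2)
      ≤ (∑ y, hr ρ (T ρ f₁ y) (T ρ f₂ y)) / 2 ^ n := by
  have hρ0 : 0 < ρ := by linarith
  obtain ⟨E, W, Hb, hE, hHb, h1E, hQ, hJ, hK, hHW, hW0, hA⟩ :=
    pair_facts hρ0.le h1.le hf₁ hf₂ (m := (mean f₁ + mean f₂) / 2) (d := (mean f₁ - mean f₂) / 2)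
      (by ring) (by ring)
  clear hA hJ
  obtain ⟨z, hz0, hz1, hI1, hI2, hI3, hal⟩ := scalar_high h0 h1
  have hf₁' : ∀ x, |f₁ x| ≤ 1 := fun x => by rcases hf₁ x with h | h <;> rw [h] <;> norm_num
  have hf₂' : ∀ x, |f₂ x| ≤ 1 := fun x => by rcases hf₂ x with h | h <;> rw [h] <;> norm_num
  have hplane := plane_avg hρ0 h1 hf₁' hf₂' hal
  have hh : 0 ≤ h ρ := h_nonneg (by rw [abs_of_pos hρ0]; exact h1.le)
  have hH : h ρ * ((1 - ((mean f₁ + mean f₂) / 2) ^ 2) - ((mean f₁ - mean f₂) / 2) ^ 2) ≤ Hb := by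
    rw [hHb]
    have e : h ρ * ((1 - ((mean f₁ + mean f₂) / 2) ^ 2) - ((mean f₁ - mean f₂) / 2) ^ 2)
        = (h ρ * (1 - mean f₁ ^ 2) + h ρ * (1 - mean f₂ ^ 2)) / 2 := by ring
    rw [e]
    linarith
  rw [← hHb] at hplane
  rw [← hE] at hplane ⊢
  clear hE hHb ih₁ ih₂
  generalize hv : 1 - ((mean f₁ + mean f₂) / 2) ^ 2 = v at *
  generalize hd : (mean f₁ - mean f₂) / 2 = d at *
  have hv0 : 0 ≤ v := by nlinarith only [sq_nonneg d, hpar]
  have hv1 : v ≤ 1 := by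
    have := sq_nonneg ((mean f₁ + mean f₂) / 2)
    linarith
  have hE2 : ρ ^ 2 * Hb + (1 - ρ ^ 2) * W ≤ E := by linarith
  have hg : 0 < g ρ := g_pos (by rw [abs_of_pos hρ0]; exact h1)
  have hg2 : 0 < g (ρ ^ 2) := g_pos (by rw [abs_of_pos (by positivity)]; nlinarith only [hρ0, h1])
  have hlam : 0 < lam ρ := by unfold lam; positivity
  rcases le_or_gt |d| (z * v) with hcase | hcase
  · have hdz : d ^ 2 ≤ z ^ 2 := by
      have : |d| ≤ z := hcase.trans (by nlinarith only [hz0, hv1])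
      calc d ^ 2 = |d| ^ 2 := (sq_abs d).symm
        _ ≤ z ^ 2 := pow_le_pow_left₀ (abs_nonneg d) this 2
    exact alg_CS hρ0.le h1 hv1 hE2 hH hHW hW0 hK hI1 hdz
  · have hvpos : 0 < v := by
      rcases hv0.lt_or_eq with hlt | heq
      · exact hlt
      · exfalso
        rw [← heq] at hcase hpar
        have : d = 0 := by nlinarith only [sq_nonneg d, hpar]
        rw [this] at hcase
        simp at hcase
    have hE3 : lam ρ * (h ρ * (v - d ^ 2)) + al ρ * |d| ≤ E := by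
      have := mul_le_mul_of_nonneg_left hH hlam.le
      linarith
    refine le_trans ?_ hE3
    have htv : |d| = (|d| / v) * v := by field_simp
    have hd2 : d ^ 2 = (|d| / v) ^ 2 * v ^ 2 := by rw [← sq_abs d]; field_simp
    have hzt : z < |d| / v := by rw [lt_div_iff₀ hvpos]; exact hcase
    have hs3 : Real.sqrt 3 ^ 2 = 3 := Real.sq_sqrt (by norm_num)
    have hs3p : 0 < Real.sqrt 3 := Real.sqrt_pos.mpr (by norm_num)
    have hw2 : (1 / Real.sqrt 3) ^ 2 = 1 / 3 := by rw [div_pow, hs3]; norm_num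
    have := alg_plane (mul_nonneg hlam.le hh) hal hv0 hv1 hzt hw2 hI2 hI3
      (by rw [← hd2]; linarith)
    rw [← hd2, ← htv] at this
    exact this

theorem main_high {ρ : ℝ} (h0 : 9 / 10 ≤ ρ) (h1 : ρ < 1) (n : ℕ) (f : (Fin n → Bool) → ℝ)
    (hf : ∀ x, f x = 1 ∨ f x = -1) : h ρ * (1 - mean f ^ 2) ≤ Hc ρ f := by
  refine induct (by linarith) h1.le (fun m => h ρ * (1 - m ^ 2)) ?_ ?_ ?_ ?_ n f hf
  · norm_num
  · norm_num
  · norm_num
  · intro n f₁ f₂ hf₁ hf₂ ih₁ ih₂ hpar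
    exact pair_high h0 h1 hf₁ hf₂ ih₁ ih₂ hpar

theorem T_zero {n : ℕ} (f : (Fin n → Bool) → ℝ) (y : Fin n → Bool) : T 0 f y = mean f := by
  unfold T mean
  have : ∀ x : Fin n → Bool, ∏ i, ker 0 (x i) (y i) = (1 / 2) ^ n := by
    intro x
    have : ∀ i : Fin n, ker 0 (x i) (y i) = 1 / 2 := by
      intro i; unfold ker; split_ifs <;> norm_num
    simp only [this, Finset.prod_const, Finset.card_univ, Fintype.card_fin]
  simp only [this]
  rw [← Finset.mul_sum, one_div, inv_pow]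
  ring

/-- The core inequality (nats). -/
theorem core : Core := by
  intro n f hf ρ h0 h1
  have hmabs : |mean f| ≤ 1 :=
    abs_mean_le fun x => by rcases hf x with h | h <;> rw [h] <;> norm_num
  have hm2 : mean f ^ 2 ≤ 1 := mean_sq_le_one hf
  have hln : 0 < Real.log 2 := Real.log_pos (by norm_num)
  have hln1 : Real.log 2 < 1 := by
    have := Real.log_two_lt_d9; linarith
  rcases h0.eq_or_lt with hz | hpos
  · -- ρ = 0
    rw [← hz]
    have : Hc 0 f = h (mean f) := by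
      unfold Hc
      simp only [T_zero]
      rw [Finset.sum_const, Finset.card_univ, Fintype.card_fun, Fintype.card_bool, Fintype.card_fin,
        nsmul_eq_mul]
      push_cast
      field_simp
    rw [this, psi_zero]; linarith
  · have hψ : ρ ^ 2 / 2 ≤ psi ρ := half_sq_le_psi (by rw [abs_of_pos hpos]; exact h1)
    have hhm : h (mean f) ≤ Real.log 2 - mean f ^ 2 / 2 := h_le hmabs
    rcases le_or_gt ρ (9 / 10) with hlow | hhigh
    · have hm := main_low hpos hlow n f hf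
      unfold H1 at hm
      rw [B_def] at hm
      have hB : h ρ = Real.log 2 - psi ρ := rfl
      rw [hB] at hm
      -- h(m) - Hc ≤ ρ² h(m) - (1-m²)(ρ² log 2 - ψ(ρ)) ≤ ψ(ρ)
      have k1 : ρ ^ 2 * h (mean f) ≤ ρ ^ 2 * (Real.log 2 - mean f ^ 2 / 2) :=
        mul_le_mul_of_nonneg_left hhm (sq_nonneg ρ)
      have k2 : mean f ^ 2 * (ρ ^ 2 / 2) ≤ mean f ^ 2 * psi ρ :=
        mul_le_mul_of_nonneg_left hψ (sq_nonneg _)
      nlinarith [k1, k2, mul_nonneg (sq_nonneg ρ) (sq_nonneg (mean f))]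
    · rcases h1.eq_or_lt with he | hlt
      · have := Hc_nonneg h0 h1 hf
        rw [he, psi_one]
        rw [he] at this
        nlinarith [sq_nonneg (mean f)]
      · have hm := main_high hhigh.le hlt n f hf
        have hB : h ρ = Real.log 2 - psi ρ := rfl
        have hh2 : h ρ ≤ 1 / 2 := by
          rw [hB]
          have := Real.log_two_lt_d9
          nlinarith
        have k3 : mean f ^ 2 * h ρ ≤ mean f ^ 2 * (1 / 2) :=
          mul_le_mul_of_nonneg_left hh2 (sq_nonneg _)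
        nlinarith [hm, k3, hhm]

end Vale.P322
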