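import Vale.Agent.P322.PairLow

/-! # P322: the pair inequality for two Boolean functions -/

namespace Vale.P322

open Finset

theorem hr_comm (ρ x y : ℝ) : hr ρ x y = hr ρ y x := by
  unfold hr
  rw [add_comm (h ((1 + ρ) / 2 * x + (1 - ρ) / 2 * y))]
  congr 2
  · congr 1; ring
  · congr 1; ring

theorem hr_neg (ρ x y : ℝ) : hr ρ (-x) (-y) = hr ρ x y := by
  unfold hr
  have e1 : (1 + ρ) / 2 * -x + (1 - ρ) / 2 * -y = -((1 + ρ) / 2 * x + (1 - ρ) / 2 * y) := by ring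
  have e2 : (1 - ρ) / 2 * -x + (1 + ρ) / 2 * -y = -((1 - ρ) / 2 * x + (1 + ρ) / 2 * y) := by ring
  rw [e1, e2, h_neg, h_neg]

theorem hr_nonneg {ρ x y : ℝ} (h0 : 0 ≤ ρ) (h1 : ρ ≤ 1) (hx : |x| ≤ 1) (hy : |y| ≤ 1) :
    0 ≤ hr ρ x y := by
  unfold hr
  have a := abs_le.mp hx
  have b := abs_le.mp hy
  have e1 : |(1 + ρ) / 2 * x + (1 - ρ) / 2 * y| ≤ 1 := by
    rw [abs_le]; constructor <;> nlinarith [a.1, a.2, b.1, b.2]
  have e2 : |(1 - ρ) / 2 * x + (1 + ρ) / 2 * y| ≤ 1 := by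
    rw [abs_le]; constructor <;> nlinarith [a.1, a.2, b.1, b.2]
  have := h_nonneg e1
  have := h_nonneg e2
  linarith

/-- Data of a pair of Boolean functions and its images. -/
theorem pair_facts {n : ℕ} {ρ : ℝ} (h0 : 0 ≤ ρ) (h1 : ρ ≤ 1) {f₁ f₂ : (Fin n → Bool) → ℝ}
    (hf₁ : ∀ x, f₁ x = 1 ∨ f₁ x = -1) (hf₂ : ∀ x, f₂ x = 1 ∨ f₂ x = -1)
    {m d : ℝ} (hm : mean f₁ = m + d) (hd : mean f₂ = m - d) :
    ∃ E W Hb : ℝ, E = (∑ y, hr ρ (T ρ f₁ y) (T ρ f₂ y)) / 2 ^ n ∧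
      Hb = (Hc ρ f₁ + Hc ρ f₂) / 2 ∧
      ρ ^ 2 * Hb + (1 - ρ ^ 2) * W
        + (hr ρ (m + d) (m - d) - ρ ^ 2 * hb (m + d) (m - d) - (1 - ρ ^ 2) * h m) ≤ E ∧
      0 ≤ hr ρ (m + d) (m - d) - ρ ^ 2 * hb (m + d) (m - d) - (1 - ρ ^ 2) * h m ∧
      ρ ^ 2 * (|d| * Real.log 2) + (1 - ρ ^ 2) * h m ≤ W ∧
      Real.log 2 / 2 * d ^ 2 ≤ W * (W - Hb) ∧ Hb ≤ W ∧ 0 ≤ W ∧
      (0 ≤ m → m < 1 → (h m - W) * (d ^ 2 + 2 * (1 + m) ^ 2 * Real.log (2 / (1 + m)))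
        ≤ (hb (m + d) (m - d) - Hb) * (2 * (1 + m) ^ 2 * Real.log (2 / (1 + m)))) := by
  have hf₁' : ∀ x, |f₁ x| ≤ 1 := fun x => by rcases hf₁ x with h | h <;> rw [h] <;> norm_num
  have hf₂' : ∀ x, |f₂ x| ≤ 1 := fun x => by rcases hf₂ x with h | h <;> rw [h] <;> norm_num
  have hT1 : ∀ y, |T ρ f₁ y| ≤ 1 := abs_T_le h0 h1 hf₁'
  have hT2 : ∀ y, |T ρ f₂ y| ≤ 1 := abs_T_le h0 h1 hf₂'
  have ea : m + d = ∑ y, (1 / 2 ^ n : ℝ) * T ρ f₁ y := by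
    rw [sum_w, ← hm, ← mean_T ρ f₁]; rfl
  have eb : m - d = ∑ y, (1 / 2 ^ n : ℝ) * T ρ f₂ y := by
    rw [sum_w, ← hd, ← mean_T ρ f₂]; rfl
  have hw : ∀ y ∈ (Finset.univ : Finset (Fin n → Bool)), 0 ≤ (fun _ => (1 / 2 ^ n : ℝ)) y :=
    fun _ _ => by positivity
  have hmabs : |m + d| ≤ 1 := by rw [← hm]; exact abs_mean_le hf₁'
  have hdabs : |m - d| ≤ 1 := by rw [← hd]; exact abs_mean_le hf₂'
  have eHb : (∑ y, hb (T ρ f₁ y) (T ρ f₂ y)) / 2 ^ n = (Hc ρ f₁ + Hc ρ f₂) / 2 := by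
    unfold hb Hc
    rw [← Finset.sum_div, Finset.sum_add_distrib]
    ring
  have emid : (m + d + (m - d)) / 2 = m := by ring
  refine ⟨_, (∑ y, h ((T ρ f₁ y + T ρ f₂ y) / 2)) / 2 ^ n, _, rfl, rfl, ?_, ?_, ?_, ?_, ?_, ?_, ?_⟩
  · have := E_hr_ge (Finset.univ : Finset (Fin n → Bool)) (fun _ => (1 / 2 ^ n : ℝ))
      (T ρ f₁) (T ρ f₂) h0 h1 hw sum_w_one (fun y _ => hT1 y) (fun y _ => hT2 y) ea eb
    rw [sum_w, sum_w, sum_w, eHb, emid] at this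
    exact this
  · have := hr_ge h0 h1 hmabs hdabs
    rw [emid] at this
    linarith
  · have hg : ∀ x, |(f₁ x + f₂ x) / 2| ≤ 1 := by
      intro x
      rw [abs_le]
      have a := abs_le.mp (hf₁' x)
      have b := abs_le.mp (hf₂' x)
      constructor <;> linarith [a.1, a.2, b.1, b.2]
    have hs := sdpi h0 h1 n (fun x => (f₁ x + f₂ x) / 2) hg
    rw [mean_avg, hm, hd, emid] at hs
    have hHc : Hc ρ (fun x => (f₁ x + f₂ x) / 2) = (∑ y, h ((T ρ f₁ y + T ρ f₂ y) / 2)) / 2 ^ n := by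
      unfold Hc
      simp only [T_avg]
    rw [hHc] at hs
    have hlow : |d| * Real.log 2 ≤ mean (fun x => h ((f₁ x + f₂ x) / 2)) := by
      have hpt : ∀ x, h ((f₁ x + f₂ x) / 2) = |(f₁ x - f₂ x) / 2| * Real.log 2 := by
        intro x
        rcases hf₁ x with a | a <;> rcases hf₂ x with b | b <;> rw [a, b] <;>
          norm_num [h_one, h_zero, h_neg]
      have hsum : mean (fun x => h ((f₁ x + f₂ x) / 2))
          = mean (fun x => |(f₁ x - f₂ x) / 2|) * Real.log 2 := by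
        unfold mean
        simp only [hpt]
        rw [← Finset.sum_mul]; ring
      rw [hsum]
      apply mul_le_mul_of_nonneg_right _ (Real.log_nonneg (by norm_num))
      have hdm : d = mean (fun x => (f₁ x - f₂ x) / 2) := by
        have : mean (fun x => (f₁ x - f₂ x) / 2) = (mean f₁ - mean f₂) / 2 := by
          unfold mean
          rw [← Finset.sum_div, Finset.sum_sub_distrib]; ring
        rw [this, hm, hd]; ring
      rw [abs_le]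
      constructor
      · have h1' : -(mean fun x => |(f₁ x - f₂ x) / 2|) ≤ mean (fun x => (f₁ x - f₂ x) / 2) := by
          rw [← mean_neg]
          exact mean_le_mean fun x => neg_abs_le _
        rw [hdm]; exact h1'
      · rw [hdm]
        exact mean_le_mean fun x => le_abs_self _
    have := mul_le_mul_of_nonneg_left hlow (sq_nonneg ρ)
    linarith
  · have := E_CS (Finset.univ : Finset (Fin n → Bool)) (fun _ => (1 / 2 ^ n : ℝ))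
      (T ρ f₁) (T ρ f₂) hw sum_w_one (fun y _ => hT1 y) (fun y _ => hT2 y) ea eb
    rw [sum_w, sum_w, eHb] at this
    exact this
  · rw [← eHb]
    refine div_le_div_of_nonneg_right (Finset.sum_le_sum fun y _ => ?_) (by positivity)
    have hc := concaveOn_h.2 (Set.mem_Icc.mpr (abs_le.mp (hT1 y))) (Set.mem_Icc.mpr (abs_le.mp (hT2 y)))
      (show (0:ℝ) ≤ 1 / 2 by norm_num) (show (0:ℝ) ≤ 1 / 2 by norm_num) (by norm_num)
    simp only [smul_eq_mul] at hc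
    have e : 1 / 2 * T ρ f₁ y + 1 / 2 * T ρ f₂ y = (T ρ f₁ y + T ρ f₂ y) / 2 := by ring
    rw [e] at hc
    unfold hb
    linarith
  · refine div_nonneg (Finset.sum_nonneg fun y _ => ?_) (by positivity)
    apply h_nonneg
    have a := abs_le.mp (hT1 y)
    have b := abs_le.mp (hT2 y)
    rw [abs_le]
    constructor <;> linarith [a.1, a.2, b.1, b.2]
  · intro hm0 hm1
    have := E_gamma (Finset.univ : Finset (Fin n → Bool)) (fun _ => (1 / 2 ^ n : ℝ))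
      (T ρ f₁) (T ρ f₂) hw sum_w_one (fun y _ => hT1 y) (fun y _ => hT2 y) ea eb hm0 hm1
    rw [sum_w, sum_w, eHb] at this
    exact this

theorem H1_neg (ρ m : ℝ) : H1 ρ (-m) = H1 ρ m := by
  unfold H1; rw [h_neg]; ring

theorem pair_low_pos {n : ℕ} {ρ : ℝ} (h0 : 0 < ρ) (h1 : ρ ≤ 9 / 10) {f₁ f₂ : (Fin n → Bool) → ℝ}
    (hf₁ : ∀ x, f₁ x = 1 ∨ f₁ x = -1) (hf₂ : ∀ x, f₂ x = 1 ∨ f₂ x = -1)
    (ih₁ : H1 ρ (mean f₁) ≤ Hc ρ f₁) (ih₂ : H1 ρ (mean f₂) ≤ Hc ρ f₂)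
    {m d : ℝ} (hm : mean f₁ = m + d) (hd : mean f₂ = m - d) (hm0 : 0 ≤ m) (hd0 : 0 ≤ d)
    (hpar : 3 * d ^ 2 ≤ 1 - m ^ 2) :
    H1 ρ m ≤ (∑ y, hr ρ (T ρ f₁ y) (T ρ f₂ y)) / 2 ^ n := by
  obtain ⟨E, W, Hb, hE, hHb, h1E, hQ, hJ, hK, hHW, hW0, hA⟩ :=
    pair_facts h0.le (by linarith : ρ ≤ 1) hf₁ hf₂ hm hd
  rw [← hE]
  have hf₁' : ∀ x, |f₁ x| ≤ 1 := fun x => by rcases hf₁ x with h | h <;> rw [h] <;> norm_num
  have hmd : m + d ≤ 1 := by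
    rw [← hm]; exact (abs_le.mp (abs_mean_le hf₁')).2
  have hH : Hbar ρ m d ≤ Hb := by
    rw [Hbar_eq, hHb, ← hm, ← hd]; linarith
  have hE2 : ρ ^ 2 * Hb + (1 - ρ ^ 2) * W ≤ E := by linarith
  rcases hd0.eq_or_lt with hd' | hd'
  · -- d = 0
    have e : Hbar ρ m d = H1 ρ m := by
      rw [Hbar_eq, ← hd']; simp
    have hρ : ρ ^ 2 ≤ 1 := by nlinarith
    nlinarith [mul_le_mul_of_nonneg_left hHW (by nlinarith : 0 ≤ 1 - ρ ^ 2)]
  · have hm1 : m < 1 := by linarith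
    rcases scalar_low h0 h1 hm0 hm1 hd' hmd hpar with hc | hc | hc
    · refine alg_J h0.le (by linarith) (by rw [abs_of_nonneg hm0]; exact hm1) ?_ h1E hH ?_ hc
      · rw [abs_of_nonneg hm0, abs_of_pos hd']; exact hmd
      · rw [abs_of_pos hd'] at hJ; exact hJ
    · exact alg_A h0.le (by linarith) hm0 hm1 hE2 hH (hA hm0 hm1) hc
    · exact alg_K h0.le (by linarith) hE2 hH hW0 hHW hd'.ne' hK hc

end Vale.P322
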