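import Vale.Agent.P322.Psi

/-! # P322, module M2 (base): psi_split and the perspective Jensen inequality -/

namespace Vale.P322

open Finset

theorem psi_persp {p r : ℝ} (hp : 0 ≤ p) (hr : |r| ≤ p) :
    p * psi (r / p) = ((p + r) * Real.log (p + r) + (p - r) * Real.log (p - r)) / 2
      - p * Real.log p := by
  rcases hp.eq_or_lt with h0 | h0
  · have : r = 0 := by
      rw [← h0] at hr
      exact abs_nonpos_iff.1 hr
    rw [this, ← h0]
    simp
  · have aux : ∀ s : ℝ, (1 + s / p) * Real.log (1 + s / p)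
        = ((p + s) * Real.log (p + s) - (p + s) * Real.log p) / p := by
      intro s
      have e : 1 + s / p = (p + s) / p := by field_simp
      rw [e]
      by_cases hs : p + s = 0
      · rw [hs]; simp
      · rw [Real.log_div hs h0.ne']
        field_simp
    unfold psi
    have a1 := aux r
    have a2 := aux (-r)
    rw [neg_div, ← sub_eq_add_neg, ← sub_eq_add_neg] at a2
    rw [a1, a2]
    field_simp
    ring

theorem psi_split {m d : ℝ} (hmd : |m| + |d| ≤ 1) :
    (psi (m + d) + psi (m - d)) / 2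
      = psi m + (1 + m) / 2 * psi (d / (1 + m)) + (1 - m) / 2 * psi (d / (1 - m)) := by
  have h1 : |d| ≤ 1 + m := by
    have := neg_abs_le m
    linarith
  have h2 : |d| ≤ 1 - m := by
    have := le_abs_self m
    linarith
  have e1 := psi_persp (le_trans (abs_nonneg d) h1) h1
  have e2 := psi_persp (le_trans (abs_nonneg d) h2) h2
  have e3 : psi m + (1 + m) / 2 * psi (d / (1 + m)) + (1 - m) / 2 * psi (d / (1 - m))
      = psi m + ((1 + m) * psi (d / (1 + m))) / 2 + ((1 - m) * psi (d / (1 - m))) / 2 := by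
    ring
  rw [e3, e1, e2]
  unfold psi
  have f1 : 1 + (m + d) = 1 + m + d := by ring
  have f2 : 1 - (m + d) = 1 - m - d := by ring
  have f3 : 1 + (m - d) = 1 + m - d := by ring
  have f4 : 1 - (m - d) = 1 - m + d := by ring
  rw [f1, f2, f3, f4]
  ring

theorem perspective_jensen {ι : Type*} (s : Finset ι) (w p r : ι → ℝ) {q : ℝ → ℝ}
    (hq : ConvexOn ℝ (Set.Icc (-1) 1) q) (hw : ∀ i ∈ s, 0 ≤ w i) (hp : ∀ i ∈ s, 0 ≤ p i)
    (hr : ∀ i ∈ s, |r i| ≤ p i) :
    (∑ i ∈ s, w i * p i) * q ((∑ i ∈ s, w i * r i) / (∑ i ∈ s, w i * p i))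
      ≤ ∑ i ∈ s, w i * (p i * q (r i / p i)) := by
  have hnn : ∀ i ∈ s, 0 ≤ w i * p i := fun i hi => mul_nonneg (hw i hi) (hp i hi)
  have hP0 : 0 ≤ ∑ i ∈ s, w i * p i := Finset.sum_nonneg hnn
  rcases hP0.eq_or_lt with hP | hP
  · rw [← hP, zero_mul]
    have hz : ∀ i ∈ s, w i * p i = 0 := (Finset.sum_eq_zero_iff_of_nonneg hnn).1 hP.symm
    apply le_of_eq
    symm
    apply Finset.sum_eq_zero
    intro i hi
    rw [← mul_assoc, hz i hi, zero_mul]
  · have hmem : ∀ i ∈ s, r i / p i ∈ Set.Icc (-1 : ℝ) 1 := by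
      intro i hi
      rw [Set.mem_Icc, ← abs_le]
      rcases (hp i hi).eq_or_lt with h0 | h0
      · rw [← h0, div_zero, abs_zero]; norm_num
      · rw [abs_div, abs_of_pos h0, div_le_one h0]
        exact hr i hi
    have hj := hq.map_sum_le (t := s) (w := fun i => w i * p i / ∑ j ∈ s, w j * p j)
      (p := fun i => r i / p i) (fun i hi => div_nonneg (hnn i hi) hP0)
      (by rw [← Finset.sum_div, div_self hP.ne']) hmem
    simp only [smul_eq_mul] at hj
    have e1 : ∑ i ∈ s, w i * p i / (∑ j ∈ s, w j * p j) * (r i / p i)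
        = (∑ i ∈ s, w i * r i) / (∑ i ∈ s, w i * p i) := by
      rw [Finset.sum_div]
      apply Finset.sum_congr rfl
      intro i hi
      rcases (hp i hi).eq_or_lt with h0 | h0
      · have : r i = 0 := by
          have := hr i hi
          rw [← h0] at this
          exact abs_nonpos_iff.1 this
        rw [this]; simp
      · have := h0.ne'
        field_simp
    rw [e1] at hj
    calc (∑ i ∈ s, w i * p i) * q ((∑ i ∈ s, w i * r i) / (∑ i ∈ s, w i * p i))
        ≤ (∑ i ∈ s, w i * p i) *
            ∑ i ∈ s, w i * p i / (∑ j ∈ s, w j * p j) * q (r i / p i) :=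
          mul_le_mul_of_nonneg_left hj hP0
      _ = ∑ i ∈ s, w i * (p i * q (r i / p i)) := by
          rw [Finset.mul_sum]
          apply Finset.sum_congr rfl
          intro i _
          have := hP.ne'
          field_simp

end Vale.P322
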