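import Vale.Agent.P322.Defs
import Vale.Agent.P322.Psi
import Vale.Agent.P322.TwoPoint

/-!
# P322: module M5, the scalar inequalities for certificate A
-/

namespace Vale.P322

namespace ScalarA

open Real



lemma neg_log_ge {p x0 : ℝ} (hp : 0 < p) (hx : 0 < x0) :
    - log x0 + 1 - p / x0 ≤ - log p := by
  have h := log_le_sub_one_of_pos (div_pos hp hx)
  rw [log_div hp.ne' hx.ne'] at h
  linarith

lemma mul_neg_log_le {q y0 : ℝ} (hq : 0 < q) (hy : 0 < y0) :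
    - (q * log q) ≤ - (q * log y0) + y0 - q := by
  have h := log_le_sub_one_of_pos (div_pos hy hq)
  rw [log_div hy.ne' hq.ne'] at h
  have h2 := mul_le_mul_of_nonneg_left h hq.le
  have h3 : q * (y0 / q - 1) = y0 - q := by field_simp
  rw [h3] at h2
  nlinarith

/-- `-(1-p) log (1-p) ≤ p - p²/2` for `0 ≤ p < 1`. -/
lemma log_ge_half {x : ℝ} (hx : 0 < x) (hx1 : x ≤ 1) : (x - 1 / x) / 2 ≤ log x := by
  have hmono : AntitoneOn (fun x : ℝ => log x - (x - 1 / x) / 2) (Set.Ioi 0) := by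
    apply antitoneOn_of_deriv_nonpos (convex_Ioi 0)
    · apply ContinuousOn.sub
      · exact Real.continuousOn_log.mono (fun y hy => (ne_of_gt hy))
      · apply ContinuousOn.div_const
        apply ContinuousOn.sub continuousOn_id
        exact ContinuousOn.div continuousOn_const continuousOn_id (fun y hy => (ne_of_gt hy))
    · intro y hy
      rw [interior_Ioi] at hy
      have hy' : (y : ℝ) ≠ 0 := ne_of_gt hy
      apply DifferentiableAt.differentiableWithinAt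
      apply DifferentiableAt.sub (Real.differentiableAt_log hy')
      apply DifferentiableAt.div_const
      apply DifferentiableAt.sub differentiableAt_id
      exact DifferentiableAt.div (differentiableAt_const _) differentiableAt_id hy'
    · intro y hy
      rw [interior_Ioi] at hy
      have hy' : (y : ℝ) ≠ 0 := ne_of_gt hy
      have h1 : HasDerivAt (fun x : ℝ => log x - (x - 1 / x) / 2)
          (y⁻¹ - (1 - (0 * y - 1 * 1) / y ^ 2) / 2) y := by
        apply HasDerivAt.sub (Real.hasDerivAt_log hy')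
        apply HasDerivAt.div_const
        apply HasDerivAt.sub (hasDerivAt_id y)
        exact HasDerivAt.div (hasDerivAt_const y 1) (hasDerivAt_id y) hy'
      rw [h1.deriv]
      have : y⁻¹ - (1 - (0 * y - 1 * 1) / y ^ 2) / 2 = - ((y - 1) ^ 2 / (2 * y ^ 2)) := by
        field_simp
        ring
      rw [this]
      have : 0 ≤ (y - 1) ^ 2 / (2 * y ^ 2) := by positivity
      linarith
  have := hmono (Set.mem_Ioi.mpr hx) (Set.mem_Ioi.mpr one_pos) hx1
  simp at this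
  simp
  linarith

lemma mul_neg_log_le' {p : ℝ} (h0 : 0 ≤ p) (h1 : p < 1) :
    - ((1 - p) * log (1 - p)) ≤ p - p ^ 2 / 2 := by
  have h := log_ge_half (x := 1 - p) (by linarith) (by linarith)
  have hq : 0 < 1 - p := by linarith
  have h2 := mul_le_mul_of_nonneg_left h hq.le
  have h3 : (1 - p) * (((1 - p) - 1 / (1 - p)) / 2) = ((1 - p) ^ 2 - 1) / 2 := by field_simp
  rw [h3] at h2
  nlinarith



lemma psi_le_quartic {x : ℝ} (hx : |x| ≤ 1) : psi x ≤ x^2/2 + (log 2 - 1/2) * x^4 := by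
  have := psi_upper one_pos le_rfl hx
  rw [psi_one] at this
  norm_num at this
  norm_num
  linarith

lemma hb_lower {m d τ : ℝ} (hm0 : 0 ≤ m) (hm1 : m < 1) (hd0 : 0 ≤ d) (hτ0 : 0 ≤ τ) (hτ : τ ≤ 1/2)
    (ht : d ≤ τ * (1 - m^2)) :
    h m - (1 - m^2) * (τ^2/2 + (log 2 - 1/2) * τ^4 * (1 + 3 * m^2)) ≤ hb (m + d) (m - d) := by
  have hp : 0 < 1 + m := by linarith
  have hq : 0 < 1 - m := by linarith
  have hd1 : d ≤ (τ * (1 - m)) * (1 + m) := by nlinarith
  have hd2 : d ≤ (τ * (1 + m)) * (1 - m) := by nlinarith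
  have hx1 : d / (1 + m) ≤ τ * (1 - m) := by rw [div_le_iff₀ hp]; exact hd1
  have hx2 : d / (1 - m) ≤ τ * (1 + m) := by rw [div_le_iff₀ hq]; exact hd2
  have hx1' : 0 ≤ d / (1 + m) := by positivity
  have hx2' : 0 ≤ d / (1 - m) := by positivity
  have hκ : 0 ≤ log 2 - 1/2 := by
    have := log_two_gt_d9
    norm_num at *
    linarith
  have hmd : |m| + |d| ≤ 1 := by
    rw [abs_of_nonneg hm0, abs_of_nonneg hd0]
    nlinarith [mul_nonneg hτ0 hp.le, mul_nonneg hτ0 hq.le]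
  have hs := psi_split hmd
  have b1 : psi (d / (1 + m)) ≤ (τ * (1 - m))^2/2 + (log 2 - 1/2) * (τ * (1 - m))^4 := by
    refine (psi_le_quartic ?_).trans ?_
    · rw [abs_of_nonneg hx1']; nlinarith
    · gcongr
  have b2 : psi (d / (1 - m)) ≤ (τ * (1 + m))^2/2 + (log 2 - 1/2) * (τ * (1 + m))^4 := by
    refine (psi_le_quartic ?_).trans ?_
    · rw [abs_of_nonneg hx2']; nlinarith
    · gcongr
  have c1 := mul_le_mul_of_nonneg_left b1 (by linarith : (0:ℝ) ≤ (1 + m)/2)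
  have c2 := mul_le_mul_of_nonneg_left b2 (by linarith : (0:ℝ) ≤ (1 - m)/2)
  have e : (1 + m)/2 * ((τ * (1 - m))^2/2 + (log 2 - 1/2) * (τ * (1 - m))^4)
      + (1 - m)/2 * ((τ * (1 + m))^2/2 + (log 2 - 1/2) * (τ * (1 + m))^4)
      = (1 - m^2) * (τ^2/2 + (log 2 - 1/2) * τ^4 * (1 + 3 * m^2)) := by ring
  unfold hb h
  linarith

/-- `h` and `log (2/(1+m))` in terms of `p = (1-m)/2`. -/
lemma h_eq {p : ℝ} (h0 : 0 < p) (h1 : p < 1) :
    h (1 - 2 * p) = - (p * log p) - ((1 - p) * log (1 - p)) := by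
  unfold h psi
  have e1 : 1 + (1 - 2 * p) = 2 * (1 - p) := by ring
  have e2 : 1 - (1 - 2 * p) = 2 * p := by ring
  rw [e1, e2, log_mul two_ne_zero (by linarith : (1 - p) ≠ 0).symm.symm, log_mul two_ne_zero h0.ne']
  ring

lemma log_eq {p : ℝ} (h1 : p < 1) :
    log (2 / (1 + (1 - 2 * p))) = - log (1 - p) := by
  have e1 : 2 / (1 + (1 - 2 * p)) = (1 - p)⁻¹ := by
    have : 1 - p ≠ 0 := by linarith
    rw [show 1 + (1 - 2 * p) = 2 * (1 - p) by ring]
    field_simp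
  rw [e1, log_inv]



lemma B_le_series {ρ : ℝ} (h0 : 0 < ρ) (h1 : ρ ^ 2 ≤ 1) :
    B ρ ≤ ρ^2 * (log 2 - 1/2 - ρ^2/12 - (ρ^2)^2/30 - (ρ^2)^3/56 - (ρ^2)^4/90) := by
  have hρ : |ρ| ≤ 1 := by
    rw [abs_of_pos h0]; nlinarith
  have := psi_lower hρ
  unfold B h
  nlinarith

lemma B_le_small {ρ : ℝ} (h0 : 0 < ρ) (h1 : ρ ^ 2 ≤ 1/2) :
    B ρ ≤ ρ^2 * (1 - ρ^2) * (0.19315 + 0.1747 * ρ^2) := by
  have hs0 : 0 < ρ^2 := by positivity
  have h := B_le_series h0 (by linarith : ρ^2 ≤ 1)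
  have h2 := log_two_lt_d9
  set s := ρ^2 with hs
  refine h.trans ?_
  rw [mul_assoc]
  apply mul_le_mul_of_nonneg_left _ hs0.le
  have k1 : 0 ≤ s * (1/2 - s) := mul_nonneg hs0.le (by linarith)
  have k2 : 0 ≤ s * (1/2 - s)^2 := mul_nonneg hs0.le (by positivity)
  have k3 : 0 ≤ s^2 * (1/2 - s) := mul_nonneg (by positivity) (by linarith)
  have k4 : 0 ≤ s^3 * (1/2 - s) := mul_nonneg (by positivity) (by linarith)
  have k5 : 0 ≤ s^2 * (1/2 - s)^2 := mul_nonneg (by positivity) (by positivity)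
  have k6 : 0 ≤ s * (1/2 - s)^3 := mul_nonneg hs0.le (pow_nonneg (by linarith) 3)
  have k7 : 0 ≤ s^4 := by positivity
  norm_num at *
  nlinarith [k1, k2, k3, k4, k5, k6, k7]

lemma B_le_mid1 {ρ : ℝ} (h0 : 0 < ρ) (h1 : 1/2 ≤ ρ ^ 2) (h2 : ρ ^ 2 ≤ 16/25) :
    B ρ ≤ ρ^2 * (1 - ρ^2) * 0.3324 := by
  have hs0 : 0 < ρ^2 := by positivity
  have h := B_le_series h0 (by linarith : ρ^2 ≤ 1)
  have h3 := log_two_lt_d9
  set s := ρ^2 with hs
  refine h.trans ?_
  rw [mul_assoc]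
  apply mul_le_mul_of_nonneg_left _ hs0.le
  have k1 : 0 ≤ (s - 1/2) * (16/25 - s) := mul_nonneg (by linarith) (by linarith)
  have k2 : 0 ≤ (s - 1/2)^2 * (16/25 - s) := mul_nonneg (by positivity) (by linarith)
  have k3 : 0 ≤ (s - 1/2) * (16/25 - s)^2 := mul_nonneg (by linarith) (by positivity)
  have k4 : 0 ≤ (16/25 - s)^3 := pow_nonneg (by linarith) 3
  have k5 : 0 ≤ (s - 1/2)^3 := pow_nonneg (by linarith) 3
  have k6 : 0 ≤ (s - 1/2)^4 := by positivity
  norm_num at *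
  nlinarith [k1, k2, k3, k4, k5, k6]

lemma B_le_mid2 {ρ : ℝ} (h0 : 0 < ρ) (h1 : 1/2 ≤ ρ ^ 2) (h2 : ρ ^ 2 ≤ 1) :
    B ρ ≤ ρ^2 * 0.14023 := by
  have hs0 : 0 < ρ^2 := by positivity
  have h := B_le_series h0 (by linarith : ρ^2 ≤ 1)
  have h3 := log_two_lt_d9
  set s := ρ^2 with hs
  refine h.trans ?_
  apply mul_le_mul_of_nonneg_left _ hs0.le
  have k1 : (1/2:ℝ)^2 ≤ s^2 := by gcongr
  have k2 : (1/2:ℝ)^3 ≤ s^3 := by gcongr
  have k3 : (1/2:ℝ)^4 ≤ s^4 := by gcongr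
  norm_num at *
  linarith

lemma B_le_mid3 {ρ : ℝ} (h0 : 0 < ρ) (h1 : 16/25 ≤ ρ ^ 2) (h2 : ρ ^ 2 ≤ 1) :
    B ρ ≤ ρ^2 * 0.1197 := by
  have hs0 : 0 < ρ^2 := by positivity
  have h := B_le_series h0 (by linarith : ρ^2 ≤ 1)
  have h3 := log_two_lt_d9
  set s := ρ^2 with hs
  refine h.trans ?_
  apply mul_le_mul_of_nonneg_left _ hs0.le
  have k1 : (16/25:ℝ)^2 ≤ s^2 := by gcongr
  have k2 : (16/25:ℝ)^3 ≤ s^3 := by gcongr
  have k3 : (16/25:ℝ)^4 ≤ s^4 := by gcongr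
  norm_num at *
  linarith

/-- Gibbs inequality with node `9/10`. -/
lemma h_le_gibbs {ρ : ℝ} (h0 : 0 < ρ) (h1 : ρ < 1) :
    h ρ ≤ - ((1 + ρ)/2 * log (19/20)) - (1 - ρ)/2 * log (1/20) := by
  have hp : 0 < (1 + ρ)/2 := by linarith
  have hq : 0 < (1 - ρ)/2 := by linarith
  have k1 := mul_neg_log_le hp (show (0:ℝ) < 19/20 by norm_num)
  have k2 := mul_neg_log_le hq (show (0:ℝ) < 1/20 by norm_num)
  have e := h_eq (p := (1 - ρ)/2) hq (by linarith)
  rw [show 1 - 2 * ((1 - ρ)/2) = ρ by ring, show 1 - (1 - ρ)/2 = (1 + ρ)/2 by ring] at e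
  rw [e]
  linarith




lemma log20_ge : (2.9957 : ℝ) ≤ - log (1/20) := by
  have h : log ((1:ℝ)/20) = - (2 * log 2 + log 5) := by
    rw [show (1:ℝ)/20 = (2^2 * 5)⁻¹ by norm_num, log_inv, log_mul (by norm_num) (by norm_num),
      log_pow]
    norm_num
  rw [h]
  have := log_two_gt_d9
  have := log_five_gt_d9
  norm_num at *
  linarith

lemma fin3 {p : ℝ} (h0 : 0 < p) (h1 : p ≤ 1/20) :
    0.4343 * (8 * (1 - p)^2 * (- log (1 - p)) + 0.81 * 0.09 * (4 * p * (1 - p))^2)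
      + 0.1197 * (4 * p * (1 - p))
    ≤ - (p * log p) - ((1 - p) * log (1 - p))
      - 4 * p * (1 - p) * (0.045 + (log 2 - 1/2) * 0.0081 * (4 * (1 - 3 * p * (1 - p)))) := by
  have ha := neg_log_ge h0 (show (0:ℝ) < 1/20 by norm_num)
  have hl := log20_ge
  have hQ := mul_neg_log_le' h0.le (by linarith : p < 1)
  have h2 := log_two_lt_d9
  have h2' := log_two_gt_d9
  set a := log p with ha_def
  set Q := (1 - p) * log (1 - p) with hQ_def
  have e1 : 8 * (1 - p)^2 * (- log (1 - p)) = - (8 * (1 - p) * Q) := by rw [hQ_def]; ring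
  rw [e1]
  have ha' : 3.9957 - 20 * p ≤ - a := by
    have : p / (1/20) = 20 * p := by ring
    rw [this] at ha
    linarith
  have k1 : 0 ≤ p * (- a - (3.9957 - 20 * p)) := mul_nonneg h0.le (by linarith)
  have k2 : 0 ≤ (0.4343 * 8 * (1 - p) - 1) * (p - p^2/2 + Q) := by
    apply mul_nonneg
    · norm_num at *; linarith
    · linarith
  have k3 : 0 ≤ (p * (1 - p) * (1 - 3 * p * (1 - p))) * (0.69314719 - log 2) := by
    apply mul_nonneg
    · apply mul_nonneg (mul_nonneg h0.le (by linarith))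
      nlinarith
    · norm_num at *; linarith
  have k4 : 0 ≤ p * (1/20 - p) := mul_nonneg h0.le (by linarith)
  have k5 : 0 ≤ p * (1/20 - p)^2 := mul_nonneg h0.le (by positivity)
  have k6 : 0 ≤ p^2 * (1/20 - p) := mul_nonneg (by positivity) (by linarith)
  have k7 : 0 ≤ p^3 * (1/20 - p) := mul_nonneg (by positivity) (by linarith)
  have k8 : 0 ≤ p^2 * (1/20 - p)^2 := mul_nonneg (by positivity) (by positivity)
  have k9 : 0 ≤ p * (1/20 - p)^3 := mul_nonneg (by positivity) (pow_nonneg (by linarith) 3)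
  have k10 : 0 < p^5 := by positivity
  have k11 : 0 < p^4 := by positivity
  norm_num at *
  nlinarith [k1, k2, k3, k4, k5, k6, k7, k8, k9, k10, k11]



lemma log10_ge : (2.3025 : ℝ) ≤ - log (1/10) := by
  have h : log ((1:ℝ)/10) = - (log 2 + log 5) := by
    rw [show (1:ℝ)/10 = (2 * 5)⁻¹ by norm_num, log_inv, log_mul (by norm_num) (by norm_num)]
  rw [h]
  have := log_two_gt_d9
  have := log_five_gt_d9
  norm_num at *
  linarith

lemma fin2 {p : ℝ} (h0 : 0 < p) (h1 : p ≤ 1/10) :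
    0.3324 * (8 * (1 - p)^2 * (- log (1 - p)) + 0.64 * 0.09 * (4 * p * (1 - p))^2)
      + 0.14023 * (4 * p * (1 - p))
    ≤ - (p * log p) - ((1 - p) * log (1 - p))
      - 4 * p * (1 - p) * (0.045 + (log 2 - 1/2) * 0.0081 * (4 * (1 - 3 * p * (1 - p)))) := by
  have ha := neg_log_ge h0 (show (0:ℝ) < 1/10 by norm_num)
  have hl := log10_ge
  have hQ := mul_neg_log_le' h0.le (by linarith : p < 1)
  have h2 := log_two_lt_d9
  have h2' := log_two_gt_d9
  set a := log p with ha_def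
  set Q := (1 - p) * log (1 - p) with hQ_def
  have e1 : 8 * (1 - p)^2 * (- log (1 - p)) = - (8 * (1 - p) * Q) := by rw [hQ_def]; ring
  rw [e1]
  have ha' : 3.3025 - 10 * p ≤ - a := by
    have : p / (1/10) = 10 * p := by ring
    rw [this] at ha
    linarith
  have k1 : 0 ≤ p * (- a - (3.3025 - 10 * p)) := mul_nonneg h0.le (by linarith)
  have k2 : 0 ≤ (0.3324 * 8 * (1 - p) - 1) * (p - p^2/2 + Q) := by
    apply mul_nonneg
    · norm_num at *; linarith
    · linarith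
  have k3 : 0 ≤ (p * (1 - p) * (1 - 3 * p * (1 - p))) * (0.69314719 - log 2) := by
    apply mul_nonneg
    · apply mul_nonneg (mul_nonneg h0.le (by linarith))
      nlinarith
    · norm_num at *; linarith
  have k4 : 0 ≤ p * (1/10 - p) := mul_nonneg h0.le (by linarith)
  have k5 : 0 ≤ p * (1/10 - p)^2 := mul_nonneg h0.le (by positivity)
  have k6 : 0 ≤ p^2 * (1/10 - p) := mul_nonneg (by positivity) (by linarith)
  have k7 : 0 ≤ p^3 * (1/10 - p) := mul_nonneg (by positivity) (by linarith)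
  have k8 : 0 ≤ p^2 * (1/10 - p)^2 := mul_nonneg (by positivity) (by positivity)
  have k9 : 0 ≤ p * (1/10 - p)^3 := mul_nonneg (by positivity) (pow_nonneg (by linarith) 3)
  have k10 : 0 < p^5 := by positivity
  have k11 : 0 < p^4 := by positivity
  norm_num at *
  nlinarith [k1, k2, k3, k4, k5, k6, k7, k8, k9, k10, k11]

/-- the first piece `p ≤ 1/10` for A1 -/
lemma fin1a {p : ℝ} (h0 : 0 < p) (h1 : p ≤ 3/20) :
    0.2805 * (8 * (1 - p)^2 * (- log (1 - p)) + 2 * p * (1 - p) + 1.3448 * (p * (1 - p))^2)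
    ≤ - (p * log p) - ((1 - p) * log (1 - p))
      - 4 * p * (1 - p) * (0.08405 + (log 2 - 1/2) * 0.02825761 * (4 * (1 - 3 * p * (1 - p)))) := by
  have ha := neg_log_ge h0 (show (0:ℝ) < 1/10 by norm_num)
  have hl := log10_ge
  have hQ := mul_neg_log_le' h0.le (by linarith : p < 1)
  have h2 := log_two_lt_d9
  have h2' := log_two_gt_d9
  set a := log p with ha_def
  set Q := (1 - p) * log (1 - p) with hQ_def
  have e1 : 8 * (1 - p)^2 * (- log (1 - p)) = - (8 * (1 - p) * Q) := by rw [hQ_def]; ring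
  rw [e1]
  have ha' : 3.3025 - 10 * p ≤ - a := by
    have : p / (1/10) = 10 * p := by ring
    rw [this] at ha
    linarith
  have k1 : 0 ≤ p * (- a - (3.3025 - 10 * p)) := mul_nonneg h0.le (by linarith)
  have k2 : 0 ≤ (0.2805 * 8 * (1 - p) - 1) * (p - p^2/2 + Q) := by
    apply mul_nonneg
    · norm_num at *; linarith
    · linarith
  have k3 : 0 ≤ (p * (1 - p) * (1 - 3 * p * (1 - p))) * (0.69314719 - log 2) := by
    apply mul_nonneg
    · apply mul_nonneg (mul_nonneg h0.le (by linarith))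
      nlinarith
    · norm_num at *; linarith
  have k4 : 0 ≤ p * (3/20 - p) := mul_nonneg h0.le (by linarith)
  have k5 : 0 ≤ p * (3/20 - p)^2 := mul_nonneg h0.le (by positivity)
  have k6 : 0 ≤ p^2 * (3/20 - p) := mul_nonneg (by positivity) (by linarith)
  have k7 : 0 ≤ p^3 * (3/20 - p) := mul_nonneg (by positivity) (by linarith)
  have k8 : 0 ≤ p^2 * (3/20 - p)^2 := mul_nonneg (by positivity) (by positivity)
  have k9 : 0 ≤ p * (3/20 - p)^3 := mul_nonneg (by positivity) (pow_nonneg (by linarith) 3)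
  have k10 : 0 < p^5 := by positivity
  have k11 : 0 < p^4 := by positivity
  norm_num at *
  nlinarith [k1, k2, k3, k4, k5, k6, k7, k8, k9, k10, k11]



lemma neg_log_1_5 : (1.60943 : ℝ) ≤ - log (1/5) := by
  have h : log ((1:ℝ)/5) = - log 5 := by
    rw [show (1:ℝ)/5 = (5)⁻¹ by norm_num, log_inv]
  rw [h]
  have := log_five_gt_d9
  norm_num at *
  linarith

lemma neg_log_4_5 : - log (4/5) ≤ (0.22315:ℝ) := by
  have h : log ((4:ℝ)/5) = 2 * log 2 - log 5 := by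
    rw [show (4:ℝ)/5 = 2^2 / 5 by norm_num, log_div (by norm_num) (by norm_num), log_pow]
    norm_num
  rw [h]
  have := log_five_lt_d9
  have := log_two_gt_d9
  norm_num at *
  linarith

lemma neg_log_3_10 : (1.20397 : ℝ) ≤ - log (3/10) := by
  have h : log ((3:ℝ)/10) = log 3 - (log 2 + log 5) := by
    rw [log_div (by norm_num) (by norm_num), show (10:ℝ) = 2 * 5 by norm_num,
      log_mul (by norm_num) (by norm_num)]
  rw [h]
  have := log_five_gt_d9
  have := log_two_gt_d9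
  have := log_three_lt_d9
  norm_num at *
  linarith

lemma neg_log_45_64 : - log (45/64) ≤ (0.352221:ℝ) := by
  have h : log ((45:ℝ)/64) = 2 * log 3 + log 5 - 6 * log 2 := by
    rw [show (45:ℝ)/64 = (3^2 * 5) / 2^6 by norm_num, log_div (by norm_num) (by norm_num),
      log_mul (by norm_num) (by norm_num), log_pow, log_pow]
    norm_num
  rw [h]
  have := log_five_gt_d9
  have := log_two_lt_d9
  have := log_three_gt_d9
  norm_num at *
  linarith

lemma neg_log_2_5 : (0.91629 : ℝ) ≤ - log (2/5) := by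
  have h : log ((2:ℝ)/5) = log 2 - log 5 := by
    rw [log_div (by norm_num) (by norm_num)]
  rw [h]
  have := log_five_gt_d9
  have := log_two_lt_d9
  norm_num at *
  linarith

lemma neg_log_3_5 : - log (3/5) ≤ (0.51083:ℝ) := by
  have h : log ((3:ℝ)/5) = log 3 - log 5 := by
    rw [log_div (by norm_num) (by norm_num)]
  rw [h]
  have := log_five_lt_d9
  have := log_three_gt_d9
  norm_num at *
  linarith

lemma fin1b {p : ℝ} (h0 : 3/20 ≤ p) (h1 : p ≤ 1/4) :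
    0.2805 * (8 * (1 - p)^2 * (- log (1 - p)) + 2 * p * (1 - p) + 1.3448 * (p * (1 - p))^2)
    ≤ - (p * log p) - ((1 - p) * log (1 - p))
      - 4 * p * (1 - p) * (0.08405 + (log 2 - 1/2) * 0.02825761 * (4 * (1 - 3 * p * (1 - p)))) := by
  have hp : 0 < p := by linarith
  have hq : 0 < 1 - p := by linarith
  have ha := neg_log_ge hp (show (0:ℝ) < 1/5 by norm_num)
  have hQ := mul_neg_log_le hq (show (0:ℝ) < 4/5 by norm_num)
  have hl := neg_log_1_5
  have hl' := neg_log_4_5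
  have h2 := log_two_lt_d9
  have h2' := log_two_gt_d9
  set a := log p with ha_def
  set Q := (1 - p) * log (1 - p) with hQ_def
  have e1 : 8 * (1 - p)^2 * (- log (1 - p)) = - (8 * (1 - p) * Q) := by rw [hQ_def]; ring
  rw [e1]
  have ha' : 2.60943 - 5 * p ≤ - a := by
    have : p / (1/5) = 5 * p := by ring
    rw [this] at ha
    linarith
  have hQ' : - Q ≤ (1 - p) * 0.22315 + 4/5 - (1 - p) := by
    have := mul_le_mul_of_nonneg_left hl' hq.le
    linarith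
  have k1 : 0 ≤ p * (- a - (2.60943 - 5 * p)) := mul_nonneg hp.le (by linarith)
  have k2 : 0 ≤ (0.2805 * 8 * (1 - p) - 1) * ((1 - p) * 0.22315 + 4/5 - (1 - p) + Q) := by
    apply mul_nonneg
    · norm_num at *; linarith
    · linarith
  have k3 : 0 ≤ (p * (1 - p) * (1 - 3 * p * (1 - p))) * (0.69314719 - log 2) := by
    apply mul_nonneg
    · apply mul_nonneg (mul_nonneg hp.le (by linarith))
      nlinarith
    · norm_num at *; linarith
  have u0 : 0 ≤ p - 3/20 := by linarith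
  have w0 : 0 ≤ 1/4 - p := by linarith
  have k40 : 0 ≤ (p - 3/20)^4 := by positivity
  have k31 : 0 ≤ (p - 3/20)^3 * (1/4 - p) := by positivity
  have k22 : 0 ≤ (p - 3/20)^2 * (1/4 - p)^2 := by positivity
  have k13 : 0 ≤ (p - 3/20) * (1/4 - p)^3 := by positivity
  have k04 : 0 ≤ (1/4 - p)^4 := by positivity
  clear hl hl' ha hQ ha' hQ' ha_def hQ_def
  norm_num at *
  nlinarith [k1, k2, k3, k40, k31, k22, k13, k04]

lemma fin1c {p : ℝ} (h0 : 1/4 ≤ p) (h1 : p ≤ 9/25) :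
    0.2805 * (8 * (1 - p)^2 * (- log (1 - p)) + 2 * p * (1 - p) + 1.3448 * (p * (1 - p))^2)
    ≤ - (p * log p) - ((1 - p) * log (1 - p))
      - 4 * p * (1 - p) * (0.08405 + (log 2 - 1/2) * 0.02825761 * (4 * (1 - 3 * p * (1 - p)))) := by
  have hp : 0 < p := by linarith
  have hq : 0 < 1 - p := by linarith
  have ha := neg_log_ge hp (show (0:ℝ) < 3/10 by norm_num)
  have hQ := mul_neg_log_le hq (show (0:ℝ) < 45/64 by norm_num)
  have hl := neg_log_3_10
  have hl' := neg_log_45_64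
  have h2 := log_two_lt_d9
  have h2' := log_two_gt_d9
  set a := log p with ha_def
  set Q := (1 - p) * log (1 - p) with hQ_def
  have e1 : 8 * (1 - p)^2 * (- log (1 - p)) = - (8 * (1 - p) * Q) := by rw [hQ_def]; ring
  rw [e1]
  have ha' : 2.20397 - (10/3) * p ≤ - a := by
    have : p / (3/10) = (10/3) * p := by ring
    rw [this] at ha
    linarith
  have hQ' : - Q ≤ (1 - p) * 0.352221 + 45/64 - (1 - p) := by
    have := mul_le_mul_of_nonneg_left hl' hq.le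
    linarith
  have k1 : 0 ≤ p * (- a - (2.20397 - (10/3) * p)) := mul_nonneg hp.le (by linarith)
  have k2 : 0 ≤ (0.2805 * 8 * (1 - p) - 1) * ((1 - p) * 0.352221 + 45/64 - (1 - p) + Q) := by
    apply mul_nonneg
    · norm_num at *; linarith
    · linarith
  have k3 : 0 ≤ (p * (1 - p) * (1 - 3 * p * (1 - p))) * (0.69314719 - log 2) := by
    apply mul_nonneg
    · apply mul_nonneg (mul_nonneg hp.le (by linarith))
      nlinarith
    · norm_num at *; linarith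
  have u0 : 0 ≤ p - 1/4 := by linarith
  have w0 : 0 ≤ 9/25 - p := by linarith
  have k40 : 0 ≤ (p - 1/4)^4 := by positivity
  have k31 : 0 ≤ (p - 1/4)^3 * (9/25 - p) := by positivity
  have k22 : 0 ≤ (p - 1/4)^2 * (9/25 - p)^2 := by positivity
  have k13 : 0 ≤ (p - 1/4) * (9/25 - p)^3 := by positivity
  have k04 : 0 ≤ (9/25 - p)^4 := by positivity
  clear hl hl' ha hQ ha' hQ' ha_def hQ_def
  norm_num at *
  nlinarith [k1, k2, k3, k40, k31, k22, k13, k04]

lemma fin1d {p : ℝ} (h0 : 7/20 ≤ p) (h1 : p ≤ 1/2) :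
    0.2805 * (8 * (1 - p)^2 * (- log (1 - p)) + 2 * p * (1 - p) + 1.3448 * (p * (1 - p))^2)
    ≤ - (p * log p) - ((1 - p) * log (1 - p))
      - 4 * p * (1 - p) * (0.08405 + (log 2 - 1/2) * 0.02825761 * (4 * (1 - 3 * p * (1 - p)))) := by
  have hp : 0 < p := by linarith
  have hq : 0 < 1 - p := by linarith
  have ha := neg_log_ge hp (show (0:ℝ) < 2/5 by norm_num)
  have hQ := mul_neg_log_le hq (show (0:ℝ) < 3/5 by norm_num)
  have hl := neg_log_2_5
  have hl' := neg_log_3_5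
  have h2 := log_two_lt_d9
  have h2' := log_two_gt_d9
  set a := log p with ha_def
  set Q := (1 - p) * log (1 - p) with hQ_def
  have e1 : 8 * (1 - p)^2 * (- log (1 - p)) = - (8 * (1 - p) * Q) := by rw [hQ_def]; ring
  rw [e1]
  have ha' : 1.91629 - (5/2) * p ≤ - a := by
    have : p / (2/5) = (5/2) * p := by ring
    rw [this] at ha
    linarith
  have hQ' : - Q ≤ (1 - p) * 0.51083 + 3/5 - (1 - p) := by
    have := mul_le_mul_of_nonneg_left hl' hq.le
    linarith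
  have k1 : 0 ≤ p * (- a - (1.91629 - (5/2) * p)) := mul_nonneg hp.le (by linarith)
  have k2 : 0 ≤ (0.2805 * 8 * (1 - p) - 1) * ((1 - p) * 0.51083 + 3/5 - (1 - p) + Q) := by
    apply mul_nonneg
    · norm_num at *; linarith
    · linarith
  have k3 : 0 ≤ (p * (1 - p) * (1 - 3 * p * (1 - p))) * (0.69314719 - log 2) := by
    apply mul_nonneg
    · apply mul_nonneg (mul_nonneg hp.le (by linarith))
      nlinarith
    · norm_num at *; linarith
  have u0 : 0 ≤ p - 7/20 := by linarith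
  have w0 : 0 ≤ 1/2 - p := by linarith
  have k40 : 0 ≤ (p - 7/20)^4 := by positivity
  have k31 : 0 ≤ (p - 7/20)^3 * (1/2 - p) := by positivity
  have k22 : 0 ≤ (p - 7/20)^2 * (1/2 - p)^2 := by positivity
  have k13 : 0 ≤ (p - 7/20) * (1/2 - p)^3 := by positivity
  have k04 : 0 ≤ (1/2 - p)^4 := by positivity
  clear hl hl' ha hQ ha' hQ' ha_def hQ_def
  norm_num at *
  nlinarith [k1, k2, k3, k40, k31, k22, k13, k04]



lemma neg_log_19_20 : - log (19/20) ≤ (0.051294:ℝ) := by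
  have t := Real.abs_log_sub_add_sum_range_le (show |(1/20:ℝ)| < 1 by
    rw [abs_of_pos] <;> norm_num) 4
  rw [show (1:ℝ) - 1/20 = 19/20 by norm_num, abs_of_pos (show (0:ℝ) < 1/20 by norm_num)] at t
  have t2 := (abs_le.mp t).1
  norm_num [Finset.sum_range_succ] at t2 ⊢
  linarith

lemma neg_log_1_20' : - log (1/20) ≤ (2.99574:ℝ) := by
  have h : log ((1:ℝ)/20) = - (2 * log 2 + log 5) := by
    rw [show (1:ℝ)/20 = (2^2 * 5)⁻¹ by norm_num, log_inv, log_mul (by norm_num) (by norm_num),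
      log_pow]
    norm_num
  rw [h]
  have := log_two_lt_d9
  have := log_five_lt_d9
  norm_num at *
  linarith

lemma B_le_high {ρ : ℝ} (h0 : 0 < ρ) (h1 : 16/25 ≤ ρ ^ 2) (h2 : ρ ^ 2 ≤ 81/100) :
    B ρ ≤ ρ^2 * (1 - ρ^2) * 0.4343 := by
  have hρ1 : 4/5 ≤ ρ := by nlinarith
  have hρ2 : ρ ≤ 9/10 := by nlinarith
  have g := h_le_gibbs h0 (by linarith : ρ < 1)
  have e1 := neg_log_19_20
  have e2 := neg_log_1_20'
  have e3 := log_two_gt_d9
  have f1 := mul_le_mul_of_nonneg_left e1 (by linarith : (0:ℝ) ≤ (1 + ρ)/2)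
  have f2 := mul_le_mul_of_nonneg_left e2 (by linarith : (0:ℝ) ≤ (1 - ρ)/2)
  have f3 : (1 - ρ^2) * 0.6931471 ≤ (1 - ρ^2) * log 2 := by
    apply mul_le_mul_of_nonneg_left _ (by linarith)
    norm_num at *; linarith
  unfold B
  have u0 : 0 ≤ ρ - 4/5 := by linarith
  have w0 : 0 ≤ 9/10 - ρ := by linarith
  have k40 : 0 ≤ (ρ - 4/5)^4 := by positivity
  have k31 : 0 ≤ (ρ - 4/5)^3 * (9/10 - ρ) := by positivity
  have k22 : 0 ≤ (ρ - 4/5)^2 * (9/10 - ρ)^2 := by positivity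
  have k13 : 0 ≤ (ρ - 4/5) * (9/10 - ρ)^3 := by positivity
  have k04 : 0 ≤ (9/10 - ρ)^4 := by positivity
  norm_num at *
  nlinarith [k40, k31, k22, k13, k04]

/-- reduction for the ranges A2 and A3 -/
lemma certA_of {ρ p d τ b1 b2 s1 : ℝ} (h0 : 0 < ρ) (h1 : ρ^2 < 1) (hs : ρ^2 ≤ s1)
    (hp0 : 0 < p) (hp1 : p ≤ 1/2) (hd0 : 0 ≤ d) (hτ0 : 0 ≤ τ) (hτ : τ ≤ 1/2)
    (ht : d ≤ τ * (1 - (1 - 2 * p)^2)) (hb1 : 0 ≤ b1)
    (hB1 : B ρ ≤ ρ^2 * (1 - ρ^2) * b1) (hB2 : B ρ ≤ ρ^2 * b2)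
    (hfin : b1 * (8 * (1 - p)^2 * (- log (1 - p)) + s1 * τ^2 * (4 * p * (1 - p))^2)
      + b2 * (4 * p * (1 - p))
      ≤ - (p * log p) - ((1 - p) * log (1 - p))
      - 4 * p * (1 - p) * (τ^2/2 + (log 2 - 1/2) * τ^4 * (4 * (1 - 3 * p * (1 - p))))) :
    CertA ρ (1 - 2 * p) d := by
  unfold CertA
  have hs0 : 0 < ρ^2 := by positivity
  have hv : 1 - (1 - 2 * p)^2 = 4 * p * (1 - p) := by ring
  have hlow := hb_lower (m := 1 - 2 * p) (d := d) (τ := τ) (by linarith) (by linarith) hd0 hτ0 hτ ht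
  rw [h_eq hp0 (by linarith), hv, show 1 + 3 * (1 - 2 * p)^2 = 4 * (1 - 3 * p * (1 - p)) by ring]
    at hlow
  rw [log_eq (by linarith : p < 1), hv,
    show 2 * (1 + (1 - 2 * p))^2 * (- log (1 - p)) = 8 * (1 - p)^2 * (- log (1 - p)) by ring]
  rw [hv] at ht
  set v := 4 * p * (1 - p) with hvdef
  have hv0 : 0 < v := by rw [hvdef]; apply mul_pos <;> linarith
  set C := 8 * (1 - p)^2 * (- log (1 - p)) with hC
  have hC0 : 0 ≤ C := by
    rw [hC]
    apply mul_nonneg (by positivity)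
    have := log_nonpos (by linarith : 0 ≤ 1 - p) (by linarith)
    linarith
  have hd2 : d^2 ≤ τ^2 * v^2 := by
    have : d^2 ≤ (τ * v)^2 := by gcongr
    nlinarith
  have hd3 : ρ^2 * d^2 ≤ s1 * τ^2 * v^2 := by
    calc ρ^2 * d^2 ≤ s1 * (τ^2 * v^2) := by
          apply mul_le_mul hs hd2 (by positivity) (by linarith)
      _ = s1 * τ^2 * v^2 := by ring
  have hX0 : 0 ≤ C + ρ^2 * d^2 := by positivity
  have s1' : B ρ * (C + ρ^2 * d^2) ≤ ρ^2 * (1 - ρ^2) * b1 * (C + s1 * τ^2 * v^2) := by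
    calc B ρ * (C + ρ^2 * d^2) ≤ (ρ^2 * (1 - ρ^2) * b1) * (C + ρ^2 * d^2) :=
          mul_le_mul_of_nonneg_right hB1 hX0
      _ ≤ (ρ^2 * (1 - ρ^2) * b1) * (C + s1 * τ^2 * v^2) := by
          apply mul_le_mul_of_nonneg_left (by linarith)
          apply mul_nonneg (mul_nonneg hs0.le (by linarith)) hb1
  have s2' : B ρ * ((1 - ρ^2) * v) ≤ ρ^2 * b2 * ((1 - ρ^2) * v) :=
    mul_le_mul_of_nonneg_right hB2 (mul_nonneg (by linarith) hv0.le)
  have key := hfin.trans hlow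
  have key2 := mul_le_mul_of_nonneg_left key (mul_nonneg hs0.le (by linarith : (0:ℝ) ≤ 1 - ρ^2))
  calc B ρ * (C + (1 - ρ^2) * v + ρ^2 * d^2)
      = B ρ * (C + ρ^2 * d^2) + B ρ * ((1 - ρ^2) * v) := by ring
    _ ≤ ρ^2 * (1 - ρ^2) * b1 * (C + s1 * τ^2 * v^2) + ρ^2 * b2 * ((1 - ρ^2) * v) := by
        linarith
    _ = ρ^2 * (1 - ρ^2) * (b1 * (C + s1 * τ^2 * v^2) + b2 * v) := by ring
    _ ≤ _ := key2


lemma C_ge {p : ℝ} (hp0 : 0 < p) (hp1 : p ≤ 1/2) :
    6/5 * (4 * p * (1 - p)) ≤ 8 * (1 - p)^2 * (- log (1 - p)) := by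
  have hq0 : 0 < 1 - p := by linarith
  have k := Real.le_log_one_add_of_nonneg (x := p / (1 - p)) (by positivity)
  have e1 : 1 + p / (1 - p) = (1 - p)⁻¹ := by field_simp; ring
  rw [e1, log_inv] at k
  have e2 : 2 * (p / (1 - p)) / (p / (1 - p) + 2) = 2 * p / (2 - p) := by
    have : 2 - p ≠ 0 := by linarith
    have : p / (1 - p) + 2 = (2 - p) / (1 - p) := by field_simp; ring
    rw [this]
    field_simp
  rw [e2] at k
  have k2 : 2 * p ≤ (2 - p) * (- log (1 - p)) := by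
    rw [div_le_iff₀ (by linarith)] at k
    linarith
  have k3 : 0 ≤ - log (1 - p) := by
    have := log_nonpos hq0.le (by linarith)
    linarith
  have k4 : p ≤ - log (1 - p) := by nlinarith
  -- `8 q² l ≥ 4.8 p q` : enough `q l ≥ 0.6 p`
  have k5 : 3/5 * p ≤ (1 - p) * (- log (1 - p)) := by
    have a1 : 0 ≤ (1 - p) * ((2 - p) * (- log (1 - p)) - 2 * p) :=
      mul_nonneg hq0.le (by linarith)
    have a2 : 3/5 * p * (2 - p) ≤ (1 - p) * (- log (1 - p)) * (2 - p) := by nlinarith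
    exact le_of_mul_le_mul_right a2 (by linarith)
  have k6 := mul_le_mul_of_nonneg_left k5 (by linarith : (0:ℝ) ≤ 8 * (1 - p))
  calc 6/5 * (4 * p * (1 - p)) = 8 * (1 - p) * (3/5 * p) := by ring
    _ ≤ 8 * (1 - p) * ((1 - p) * (- log (1 - p))) := k6
    _ = _ := by ring

lemma mono_s {s C v D : ℝ} (hs0 : 0 < s) (hs1 : s ≤ 1/2) (_hv : 0 ≤ v) (hD : 0 ≤ D) (hDv : D ≤ v)
    (hC : 6/5 * v ≤ C) :
    (0.19315 + 0.1747 * s) * (C + (1 - s) * v + s * D) ≤ 0.2805 * (C + v/2 + D/2) := by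
  have k1 : 0 ≤ (1/2 - s) * (C - 6/5 * v) := mul_nonneg (by linarith) (by linarith)
  have k2 : 0 ≤ (1/2 - s) * (v - D) := mul_nonneg (by linarith) (by linarith)
  have k3 : 0 ≤ (1/2 - s) * D := mul_nonneg (by linarith) (by positivity)
  have k4 : 0 ≤ (1/2 - s) * s * (v - D) :=
    mul_nonneg (mul_nonneg (by linarith) hs0.le) (by linarith)
  have k5 : 0 ≤ (1/2 - s)^2 * (v - D) :=
    mul_nonneg (by positivity) (by linarith)
  norm_num
  nlinarith [k1, k2, k3, k4, k5]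

/-- reduction for the range A1 -/
lemma certA_of_small {ρ p d : ℝ} (h0 : 0 < ρ) (h1 : ρ^2 ≤ 1/2)
    (hp0 : 0 < p) (hp1 : p ≤ 1/2) (hd0 : 0 ≤ d)
    (ht : d ≤ 41/100 * (1 - (1 - 2 * p)^2))
    (hfin : 0.2805 * (8 * (1 - p)^2 * (- log (1 - p)) + 2 * p * (1 - p) + 1.3448 * (p * (1 - p))^2)
      ≤ - (p * log p) - ((1 - p) * log (1 - p))
      - 4 * p * (1 - p) * (0.08405 + (log 2 - 1/2) * 0.02825761 * (4 * (1 - 3 * p * (1 - p))))) :
    CertA ρ (1 - 2 * p) d := by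
  unfold CertA
  have hs0 : 0 < ρ^2 := by positivity
  have hv : 1 - (1 - 2 * p)^2 = 4 * p * (1 - p) := by ring
  have hlow := hb_lower (m := 1 - 2 * p) (d := d) (τ := 41/100) (by linarith) (by linarith) hd0
    (by norm_num) (by norm_num) ht
  rw [h_eq hp0 (by linarith), hv, show 1 + 3 * (1 - 2 * p)^2 = 4 * (1 - 3 * p * (1 - p)) by ring]
    at hlow
  rw [log_eq (by linarith : p < 1), hv,
    show 2 * (1 + (1 - 2 * p))^2 * (- log (1 - p)) = 8 * (1 - p)^2 * (- log (1 - p)) by ring]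
  rw [hv] at ht
  have hCv := C_ge hp0 hp1
  set v := 4 * p * (1 - p) with hvdef
  have hv0 : 0 < v := by rw [hvdef]; apply mul_pos <;> linarith
  set C := 8 * (1 - p)^2 * (- log (1 - p)) with hC
  have hd2 : d^2 ≤ (41/100)^2 * v^2 := by
    have : d^2 ≤ (41/100 * v)^2 := by gcongr
    nlinarith
  have hv1 : v ≤ 1 := by rw [hvdef]; nlinarith [sq_nonneg (1 - 2 * p)]
  have hd3 : d^2 ≤ v := by nlinarith
  have hB := B_le_small h0 h1
  have hX0 : 0 ≤ C + (1 - ρ^2) * v + ρ^2 * d^2 := by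
    have x1 : 0 ≤ (1 - ρ^2) * v := mul_nonneg (by linarith) hv0.le
    have x2 : 0 ≤ ρ^2 * d^2 := by positivity
    linarith
  have mono := mono_s (s := ρ^2) hs0 h1 hv0.le (by positivity) hd3 hCv
  have e3 : C + v/2 + d^2/2 ≤ C + 2 * p * (1 - p) + 1.3448 * (p * (1 - p))^2 := by
    have x1 : v/2 = 2 * p * (1 - p) := by rw [hvdef]; ring
    rw [x1]
    have x2 : (41/100)^2 * v^2 / 2 = 1.3448 * (p * (1 - p))^2 := by rw [hvdef]; ring
    linarith
  have key : (0.19315 + 0.1747 * ρ^2) * (C + (1 - ρ^2) * v + ρ^2 * d^2)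
      ≤ hb (1 - 2 * p + d) (1 - 2 * p - d) := by
    refine mono.trans ?_
    refine (mul_le_mul_of_nonneg_left e3 (by norm_num)).trans ?_
    refine hfin.trans ?_
    refine le_trans (le_of_eq ?_) hlow
    ring
  calc B ρ * (C + (1 - ρ^2) * v + ρ^2 * d^2)
      ≤ (ρ^2 * (1 - ρ^2) * (0.19315 + 0.1747 * ρ^2)) * (C + (1 - ρ^2) * v + ρ^2 * d^2) :=
        mul_le_mul_of_nonneg_right hB hX0
    _ = ρ^2 * (1 - ρ^2) * ((0.19315 + 0.1747 * ρ^2) * (C + (1 - ρ^2) * v + ρ^2 * d^2)) := by ring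
    _ ≤ _ := mul_le_mul_of_nonneg_left key (mul_nonneg hs0.le (by linarith))


end ScalarA

open ScalarA in
theorem scalar_A1 {ρ m d : ℝ} (h0 : 0 < ρ) (h1 : ρ ^ 2 ≤ 1 / 2) (hm0 : 0 ≤ m) (hm1 : m < 1)
    (hd0 : 0 ≤ d) (ht : d ≤ 41 / 100 * (1 - m ^ 2)) :
    CertA ρ m d := by
  obtain ⟨p, rfl⟩ : ∃ p : ℝ, m = 1 - 2 * p := ⟨(1 - m) / 2, by ring⟩
  have hp0 : 0 < p := by linarith
  have hp1 : p ≤ 1/2 := by linarith
  apply certA_of_small h0 h1 hp0 hp1 hd0 ht
  rcases le_total p (3/20) with h | h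
  · exact fin1a hp0 h
  rcases le_total p (1/4) with h' | h'
  · exact fin1b h h'
  rcases le_total p (9/25) with h'' | h''
  · exact fin1c h' h''
  · exact fin1d (by linarith) hp1

open ScalarA in
theorem scalar_A2 {ρ m d : ℝ} (h0 : 0 < ρ) (h1 : 1 / 2 ≤ ρ ^ 2) (h2 : ρ ^ 2 ≤ 16 / 25)
    (hm0 : 4 / 5 ≤ m) (hm1 : m < 1) (hd0 : 0 ≤ d) (ht : d ≤ 3 / 10 * (1 - m ^ 2)) :
    CertA ρ m d := by
  obtain ⟨p, rfl⟩ : ∃ p : ℝ, m = 1 - 2 * p := ⟨(1 - m) / 2, by ring⟩
  have hp0 : 0 < p := by linarith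
  have hp1 : p ≤ 1/10 := by linarith
  apply certA_of (τ := 3/10) (b1 := 0.3324) (b2 := 0.14023) (s1 := 16/25) h0 (by linarith) h2 hp0
    (by linarith) hd0 (by norm_num) (by norm_num) ht (by norm_num) (B_le_mid1 h0 h1 h2)
    (B_le_mid2 h0 h1 (by linarith))
  refine le_trans (le_of_eq ?_) ((fin2 hp0 hp1).trans (le_of_eq ?_))
  · ring
  · ring

open ScalarA in
theorem scalar_A3 {ρ m d : ℝ} (h0 : 0 < ρ) (h1 : 16 / 25 ≤ ρ ^ 2) (h2 : ρ ^ 2 ≤ 81 / 100)
    (hm0 : 9 / 10 ≤ m) (hm1 : m < 1) (hd0 : 0 ≤ d) (ht : d ≤ 3 / 10 * (1 - m ^ 2)) :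
    CertA ρ m d := by
  obtain ⟨p, rfl⟩ : ∃ p : ℝ, m = 1 - 2 * p := ⟨(1 - m) / 2, by ring⟩
  have hp0 : 0 < p := by linarith
  have hp1 : p ≤ 1/20 := by linarith
  apply certA_of (τ := 3/10) (b1 := 0.4343) (b2 := 0.1197) (s1 := 81/100) h0 (by linarith) h2 hp0
    (by linarith) hd0 (by norm_num) (by norm_num) ht (by norm_num) (B_le_high h0 h1 h2)
    (B_le_mid3 h0 h1 (by linarith))
  refine le_trans (le_of_eq ?_) ((fin3 hp0 hp1).trans (le_of_eq ?_))
  · ring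
  · ring

end Vale.P322
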