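import Vale.Agent.P322.Psi

/-!
# P322, module M4: the scalar inequalities of certificate J
-/

namespace Vale.P322


theorem polyJ1 {l s : ℝ} (hs0 : 0 ≤ s) (hs1 : s ≤ 1 / 2) (l2 : l < 0.6931471808) :
    (l - 1 / 2 - s / 12 - s ^ 2 / 30) * ((1 - s) + s * (1 / 3))
      ≤ (1 - s) * (41 / 100 * l - (41 / 100) ^ 2 / 2) := by
  have a1 : 0 ≤ s * (1 / 2 - s) := mul_nonneg hs0 (by linarith)
  have a2 : 0 ≤ s ^ 2 * (1 / 2 - s) := mul_nonneg (by positivity) (by linarith)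
  have a3 : 0 ≤ (0.6931471808 - l) * (59 / 100 - 77 / 300 * s) :=
    mul_nonneg (by linarith) (by linarith)
  nlinarith

theorem polyJ2a {l s P : ℝ} (hs0 : 1 / 2 ≤ s) (hs1 : s ≤ 81 / 100) (l2 : l < 0.6931471808)
    (hP : P = l - 1 / 2 - s / 12 - s ^ 2 / 30 - s ^ 3 / 56 - s ^ 4 / 90) :
    P * ((1 - s) + s * (9 / 100)) ≤ (1 - s) * (3 / 10 * l - (3 / 10) ^ 2 / 2) := by
  have a3 : 0 ≤ (0.6931471808 - l) * (70 / 100 - 61 / 100 * s) :=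
    mul_nonneg (by linarith) (by linarith)
  have key : (0.6931471808 - 1 / 2 - s / 12 - s ^ 2 / 30 - s ^ 3 / 56 - s ^ 4 / 90) *
      ((1 - s) + s * (9 / 100)) ≤ (1 - s) * (3 / 10 * 0.6931471808 - (3 / 10) ^ 2 / 2) := by
    obtain ⟨u, hu⟩ : ∃ u, u = s - 1 / 2 := ⟨_, rfl⟩
    have hs : s = u + 1 / 2 := by linarith
    have hu0 : 0 ≤ u := by linarith
    have hu1 : u ≤ 31 / 100 := by linarith
    rw [hs]
    have b1 : 0 ≤ u * (31 / 100 - u) := mul_nonneg hu0 (by linarith)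
    have b2 : 0 ≤ u ^ 2 * (31 / 100 - u) := mul_nonneg (by positivity) (by linarith)
    have b3 : 0 ≤ u ^ 3 * (31 / 100 - u) := mul_nonneg (by positivity) (by linarith)
    have b4 : 0 ≤ u ^ 4 * (31 / 100 - u) := mul_nonneg (by positivity) (by linarith)
    have b5 : 0 ≤ u ^ 5 := by positivity
    nlinarith
  rw [hP]
  nlinarith

theorem polyJ2b {l s P : ℝ} (hs0 : 1 / 2 ≤ s) (hs1 : s ≤ 81 / 100) (l2 : l < 0.6931471808)
    (hP : P = l - 1 / 2 - s / 12 - s ^ 2 / 30 - s ^ 3 / 56 - s ^ 4 / 90) :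
    P * ((1 - s) + s * (3364 / 10000)) ≤ (1 - s) * (58 / 100 * l - (58 / 100) ^ 2 / 2) := by
  have key : (0.6931471808 - 1 / 2 - s / 12 - s ^ 2 / 30 - s ^ 3 / 56 - s ^ 4 / 90) *
      ((1 - s) + s * (3364 / 10000)) ≤ (1 - s) * (58 / 100 * 0.6931471808 - (58 / 100) ^ 2 / 2)
 := by
    obtain ⟨u, hu⟩ : ∃ u, u = s - 1 / 2 := ⟨_, rfl⟩
    have hs : s = u + 1 / 2 := by linarith
    have hu0 : 0 ≤ u := by linarith
    have hu1 : u ≤ 31 / 100 := by linarith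
    rw [hs]
    have b1 : 0 ≤ u * (31 / 100 - u) := mul_nonneg hu0 (by linarith)
    have b2 : 0 ≤ u ^ 2 * (31 / 100 - u) := mul_nonneg (by positivity) (by linarith)
    have b3 : 0 ≤ u ^ 3 * (31 / 100 - u) := mul_nonneg (by positivity) (by linarith)
    have b4 : 0 ≤ u ^ 4 * (31 / 100 - u) := mul_nonneg (by positivity) (by linarith)
    have b5 : 0 ≤ u ^ 5 := by positivity
    nlinarith
  have a3 : 0 ≤ (0.6931471808 - l) * (42 / 100 - 836 / 10000 * s) :=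
    mul_nonneg (by linarith) (by linarith)
  rw [hP]
  nlinarith

theorem polyJ2c {l s P t : ℝ} (hs0 : 1 / 2 ≤ s) (hs1 : s ≤ 81 / 100) (hP0 : 0 ≤ P)
    (ht0 : 3 / 10 ≤ t) (ht1 : t ≤ 58 / 100)
    (e1 : P * ((1 - s) + s * (9 / 100)) ≤ (1 - s) * (3 / 10 * l - (3 / 10) ^ 2 / 2))
    (e2 : P * ((1 - s) + s * (3364 / 10000)) ≤ (1 - s) * (58 / 100 * l - (58 / 100) ^ 2 / 2)) :
    P * ((1 - s) + s * t ^ 2) ≤ (1 - s) * (t * l - t ^ 2 / 2) := by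
  have h5 : 0 ≤ (t - 3 / 10) * (58 / 100 - t) * (P * s + (1 - s) / 2) := by
    refine mul_nonneg (mul_nonneg (by linarith) (by linarith)) ?_
    have : 0 ≤ P * s := mul_nonneg hP0 (by linarith)
    linarith
  have h6 : 0 ≤ (t - 3 / 10) *
      ((1 - s) * (58 / 100 * l - (58 / 100) ^ 2 / 2) - P * ((1 - s) + s * (3364 / 10000))) :=
    mul_nonneg (by linarith) (by linarith)
  have h7 : 0 ≤ (58 / 100 - t) *
      ((1 - s) * (3 / 10 * l - (3 / 10) ^ 2 / 2) - P * ((1 - s) + s * (9 / 100))) :=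
    mul_nonneg (by linarith) (by linarith)
  have e : 28 / 100 * ((1 - s) * (t * l - t ^ 2 / 2) - P * ((1 - s) + s * t ^ 2))
      = (t - 3 / 10) *
          ((1 - s) * (58 / 100 * l - (58 / 100) ^ 2 / 2) - P * ((1 - s) + s * (3364 / 10000)))
        + (58 / 100 - t) *
          ((1 - s) * (3 / 10 * l - (3 / 10) ^ 2 / 2) - P * ((1 - s) + s * (9 / 100)))
        + 28 / 100 * ((t - 3 / 10) * (58 / 100 - t) * (P * s + (1 - s) / 2)) := by ring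
  linarith

theorem tl_mono {l t t0 : ℝ} (l1 : 0.6931471803 < l) (h0 : t0 ≤ t) (h1 : t ≤ 2 / 3)
    (h2 : t0 ≤ 7 / 10) : t0 * l - t0 ^ 2 / 2 ≤ t * l - t ^ 2 / 2 := by
  have : 0 ≤ (t - t0) * (l - (t + t0) / 2) := mul_nonneg (by linarith) (by linarith)
  nlinarith

/-- The reduced form of certificate J. -/
theorem certJ_of_reduced
    (psi_lower : ∀ {x : ℝ}, |x| ≤ 1 →
      x ^ 2 / 2 + x ^ 4 / 12 + x ^ 6 / 30 + x ^ 8 / 56 + x ^ 10 / 90 ≤ psi x)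
    {ρ m d t v P : ℝ} (h0 : 0 < ρ) (h1 : ρ ^ 2 ≤ 81 / 100) (hv : v = 1 - m ^ 2) (hv0 : 0 < v)
    (hd : d = t * v)
    (hP : P = Real.log 2 - 1 / 2 - ρ ^ 2 / 12 - (ρ ^ 2) ^ 2 / 30 - (ρ ^ 2) ^ 3 / 56
      - (ρ ^ 2) ^ 4 / 90)
    (hred : (1 - ρ ^ 2) * (t ^ 2 / 2) + P * ((1 - ρ ^ 2) + ρ ^ 2 * (t ^ 2 * v))
      ≤ (1 - ρ ^ 2) * (t * Real.log 2)) :
    CertJ ρ m d := by
  have hρ1 : |ρ| ≤ 1 := by
    rw [abs_of_pos h0]
    nlinarith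
  have hB : B ρ ≤ ρ ^ 2 * P := by
    have := psi_lower hρ1
    unfold B h
    rw [hP]
    nlinarith
  have hs : 0 < ρ ^ 2 := by positivity
  have hβ : 0 < 1 - ρ ^ 2 := by linarith
  unfold CertJ
  rw [← hv, hd]
  have e1 : (t * v) ^ 2 / (2 * v) = t ^ 2 * v / 2 := by
    field_simp
  rw [e1]
  have h2 : B ρ * ((1 - ρ ^ 2) * v + ρ ^ 2 * (t * v) ^ 2)
      ≤ ρ ^ 2 * P * ((1 - ρ ^ 2) * v + ρ ^ 2 * (t * v) ^ 2) :=
    mul_le_mul_of_nonneg_right hB (by positivity)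
  have h3 := mul_le_mul_of_nonneg_left hred (mul_pos hs hv0).le
  nlinarith

/-- consequences of the constraints -/
theorem constraints {m d t v : ℝ} (hv : v = 1 - m ^ 2) (hv0 : 0 < v) (hd : d = t * v)
    (hm0 : 0 ≤ m) (hd0 : 0 < d) (hmd : m + d ≤ 1) (hpar : 3 * d ^ 2 ≤ v) :
    0 < t ∧ t ≤ 2 / 3 ∧ t ^ 2 * v ≤ 1 / 3 ∧ t ^ 2 * v ≤ t ^ 2 := by
  have ht : 0 < t := by
    rw [hd] at hd0
    by_contra hcon
    push Not at hcon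
    nlinarith
  have hm1 : m < 1 := by nlinarith
  have h1 : t * (1 + m) ≤ 1 := by
    have h2 : t * (1 + m) * (1 - m) ≤ 1 * (1 - m) := by
      rw [hd, hv] at hmd
      nlinarith
    exact le_of_mul_le_mul_right h2 (by linarith)
  have h3 : 3 * (t ^ 2 * v) ≤ 1 := by
    have h4 : 3 * (t ^ 2 * v) * v ≤ 1 * v := by
      rw [hd] at hpar
      nlinarith
    exact le_of_mul_le_mul_right h4 hv0
  refine ⟨ht, ?_, by linarith, ?_⟩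
  · by_contra hcon
    push Not at hcon
    -- u = t (1+m)
    have hu : t ≤ t * (1 + m) := by nlinarith
    obtain ⟨u, hu'⟩ : ∃ u, u = t * (1 + m) := ⟨_, rfl⟩
    have h5 : t ^ 2 * v = u * (2 * t - u) := by
      rw [hv, hu']
      ring
    rw [h5] at h3
    rw [← hu'] at h1 hu
    nlinarith [mul_nonneg (sub_nonneg.2 h1) (sub_nonneg.2 hu)]
  · have : v ≤ 1 := by
      rw [hv]
      nlinarith [sq_nonneg m]
    nlinarith [sq_nonneg t]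

section
variable (psi_lower : ∀ {x : ℝ}, |x| ≤ 1 →
      x ^ 2 / 2 + x ^ 4 / 12 + x ^ 6 / 30 + x ^ 8 / 56 + x ^ 10 / 90 ≤ psi x)
include psi_lower

theorem scalar_J1' {ρ m d : ℝ} (h0 : 0 < ρ) (h1 : ρ ^ 2 ≤ 1 / 2) (hm0 : 0 ≤ m) (hd0 : 0 < d)
    (hmd : m + d ≤ 1) (hpar : 3 * d ^ 2 ≤ 1 - m ^ 2) (ht : 41 / 100 * (1 - m ^ 2) ≤ d) :
    CertJ ρ m d := by
  obtain ⟨v, hv⟩ : ∃ v, v = 1 - m ^ 2 := ⟨_, rfl⟩
  rw [← hv] at hpar ht
  have hv0 : 0 < v := by nlinarith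
  obtain ⟨t, ht'⟩ : ∃ t, t = d / v := ⟨_, rfl⟩
  have hd : d = t * v := by rw [ht']; field_simp
  obtain ⟨ht0, ht1, hw1, hw2⟩ := constraints hv hv0 hd hm0 hd0 hmd hpar
  have ht2 : 41 / 100 ≤ t := by
    rw [hd] at ht
    exact le_of_mul_le_mul_right ht hv0
  refine certJ_of_reduced psi_lower h0 (by linarith) hv hv0 hd rfl ?_
  obtain ⟨s, hs⟩ : ∃ s, s = ρ ^ 2 := ⟨_, rfl⟩
  have hs0 : 0 < s := by rw [hs]; positivity
  rw [← hs] at h1 ⊢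
  obtain ⟨w, hw⟩ : ∃ w, w = t ^ 2 * v := ⟨_, rfl⟩
  rw [← hw] at hw1 hw2 ⊢
  have hw0 : 0 ≤ w := by rw [hw]; positivity
  have l1 := Real.log_two_gt_d9
  have l2 := Real.log_two_lt_d9
  obtain ⟨l, hl⟩ : ∃ l, l = Real.log 2 := ⟨_, rfl⟩
  rw [← hl] at l1 l2 ⊢
  -- lower bound of the right side
  have h2 : 41 / 100 * l - (41 / 100) ^ 2 / 2 ≤ t * l - t ^ 2 / 2 :=
    tl_mono l1 ht2 ht1 (by norm_num)
  -- upper bound of `P`
  have hP : l - 1 / 2 - s / 12 - s ^ 2 / 30 - s ^ 3 / 56 - s ^ 4 / 90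
      ≤ l - 1 / 2 - s / 12 - s ^ 2 / 30 := by
    have : 0 ≤ s ^ 3 / 56 + s ^ 4 / 90 := by positivity
    linarith
  have hP0 : 0 ≤ l - 1 / 2 - s / 12 - s ^ 2 / 30 := by
    have a1 : 0 ≤ s * (1 / 2 - s) := mul_nonneg hs0.le (by linarith)
    nlinarith
  have h3 : (l - 1 / 2 - s / 12 - s ^ 2 / 30 - s ^ 3 / 56 - s ^ 4 / 90) * ((1 - s) + s * w)
      ≤ (l - 1 / 2 - s / 12 - s ^ 2 / 30) * ((1 - s) + s * (1 / 3)) := by
    have h4 : (1 - s) + s * w ≤ (1 - s) + s * (1 / 3) :=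
      add_le_add le_rfl (mul_le_mul_of_nonneg_left hw1 hs0.le)
    have h5 : 0 ≤ (1 - s) + s * w := add_nonneg (by linarith) (mul_nonneg hs0.le hw0)
    exact mul_le_mul hP h4 h5 hP0
  have h6 := polyJ1 hs0.le h1 l2
  have h7 := mul_le_mul_of_nonneg_left h2 (show (0 : ℝ) ≤ 1 - s by linarith)
  have e : (1 - s) * (t * l - t ^ 2 / 2) = (1 - s) * (t * l) - (1 - s) * (t ^ 2 / 2) := by ring
  linarith

theorem scalar_J2' {ρ m d : ℝ} (h0 : 0 < ρ) (h1 : 1 / 2 ≤ ρ ^ 2) (h2 : ρ ^ 2 ≤ 81 / 100)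
    (hm0 : 0 ≤ m) (hd0 : 0 < d)
    (hmd : m + d ≤ 1) (hpar : 3 * d ^ 2 ≤ 1 - m ^ 2) (ht : 3 / 10 * (1 - m ^ 2) ≤ d) :
    CertJ ρ m d := by
  obtain ⟨v, hv⟩ : ∃ v, v = 1 - m ^ 2 := ⟨_, rfl⟩
  rw [← hv] at hpar ht
  have hv0 : 0 < v := by nlinarith
  obtain ⟨t, ht'⟩ : ∃ t, t = d / v := ⟨_, rfl⟩
  have hd : d = t * v := by rw [ht']; field_simp
  obtain ⟨ht0, ht1, hw1, hw2⟩ := constraints hv hv0 hd hm0 hd0 hmd hpar
  have ht2 : 3 / 10 ≤ t := by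
    rw [hd] at ht
    exact le_of_mul_le_mul_right ht hv0
  refine certJ_of_reduced psi_lower h0 h2 hv hv0 hd rfl ?_
  obtain ⟨s, hs⟩ : ∃ s, s = ρ ^ 2 := ⟨_, rfl⟩
  have hs0 : 0 < s := by rw [hs]; positivity
  rw [← hs] at h1 h2 ⊢
  obtain ⟨w, hw⟩ : ∃ w, w = t ^ 2 * v := ⟨_, rfl⟩
  rw [← hw] at hw1 hw2 ⊢
  have hw0 : 0 ≤ w := by rw [hw]; positivity
  have l1 := Real.log_two_gt_d9
  have l2 := Real.log_two_lt_d9
  obtain ⟨l, hl⟩ : ∃ l, l = Real.log 2 := ⟨_, rfl⟩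
  rw [← hl] at l1 l2 ⊢
  obtain ⟨P, hP⟩ : ∃ P, P = l - 1 / 2 - s / 12 - s ^ 2 / 30 - s ^ 3 / 56 - s ^ 4 / 90 := ⟨_, rfl⟩
  rw [← hP]
  have hP0 : 0 ≤ P := by
    have a1 : s ^ 2 ≤ (81 / 100) ^ 2 := by
      have := pow_le_pow_left₀ hs0.le h2 2
      simpa using this
    have a2 : s ^ 3 ≤ (81 / 100) ^ 3 := by
      have := pow_le_pow_left₀ hs0.le h2 3
      simpa using this
    have a3 : s ^ 4 ≤ (81 / 100) ^ 4 := by
      have := pow_le_pow_left₀ hs0.le h2 4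
      simpa using this
    rw [hP]
    norm_num at a1 a2 a3 ⊢
    linarith
  -- the two endpoint inequalities
  have e1 := polyJ2a h1 h2 l2 hP
  have e2 := polyJ2b h1 h2 l2 hP
  have hs1 : 0 ≤ 1 - s := by linarith
  rcases le_total t (58 / 100) with hc | hc
  · have h3 : P * ((1 - s) + s * w) ≤ P * ((1 - s) + s * t ^ 2) := by
      refine mul_le_mul_of_nonneg_left ?_ hP0
      exact add_le_add le_rfl (mul_le_mul_of_nonneg_left hw2 hs0.le)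
    have h4 : P * ((1 - s) + s * t ^ 2) ≤ (1 - s) * (t * l - t ^ 2 / 2) :=
      polyJ2c h1 h2 hP0 ht2 hc e1 e2
    have e : (1 - s) * (t * l - t ^ 2 / 2) = (1 - s) * (t * l) - (1 - s) * (t ^ 2 / 2) := by ring
    linarith
  · have h3 : P * ((1 - s) + s * w) ≤ P * ((1 - s) + s * (3364 / 10000)) := by
      refine mul_le_mul_of_nonneg_left ?_ hP0
      exact add_le_add le_rfl (mul_le_mul_of_nonneg_left (by linarith) hs0.le)
    have h4 : 58 / 100 * l - (58 / 100) ^ 2 / 2 ≤ t * l - t ^ 2 / 2 :=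
      tl_mono l1 hc ht1 (by norm_num)
    have h5 := mul_le_mul_of_nonneg_left h4 hs1
    have e : (1 - s) * (t * l - t ^ 2 / 2) = (1 - s) * (t * l) - (1 - s) * (t ^ 2 / 2) := by ring
    linarith

end

theorem scalar_J1 {ρ m d : ℝ} (h0 : 0 < ρ) (h1 : ρ ^ 2 ≤ 1 / 2) (hm0 : 0 ≤ m) (hd0 : 0 < d)
    (hmd : m + d ≤ 1) (hpar : 3 * d ^ 2 ≤ 1 - m ^ 2) (ht : 41 / 100 * (1 - m ^ 2) ≤ d) :
    CertJ ρ m d :=
  scalar_J1' (fun hx => psi_lower hx) h0 h1 hm0 hd0 hmd hpar ht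

theorem scalar_J2 {ρ m d : ℝ} (h0 : 0 < ρ) (h1 : 1 / 2 ≤ ρ ^ 2) (h2 : ρ ^ 2 ≤ 81 / 100)
    (hm0 : 0 ≤ m) (hd0 : 0 < d)
    (hmd : m + d ≤ 1) (hpar : 3 * d ^ 2 ≤ 1 - m ^ 2) (ht : 3 / 10 * (1 - m ^ 2) ≤ d) :
    CertJ ρ m d :=
  scalar_J2' (fun hx => psi_lower hx) h0 h1 h2 hm0 hd0 hmd hpar ht

end Vale.P322
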