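import Vale.Agent.P322.Psi
import Vale.Agent.P322.TwoPoint

/-!
# P322: the scalar certificate K
-/

namespace Vale.P322

/-! ### numerical bounds -/

theorem log_five_gt : (160941 : ℝ) / 100000 < Real.log 5 := by
  have h1 := Real.abs_log_sub_add_sum_range_le (x := (1 / 5 : ℝ)) (by norm_num) 6
  have h2 : |(1 / 5 : ℝ)| = 1 / 5 := abs_of_pos (by norm_num)
  rw [h2] at h1
  have h3 := (abs_le.mp h1).2
  simp only [Finset.sum_range_succ, Finset.sum_range_zero] at h3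
  have h4 : Real.log (1 - 1 / 5) = 2 * Real.log 2 - Real.log 5 := by
    rw [show (1 - 1 / 5 : ℝ) = 2 ^ 2 / 5 by norm_num, Real.log_div (by norm_num) (by norm_num),
      Real.log_pow]
    norm_num
  rw [h4] at h3
  have h5 := Real.log_two_gt_d9
  norm_num at h3
  linarith

theorem psi_three_fifths : psi (3 / 5) ≤ 1927785 / 10000000 := by
  have e : psi (3 / 5) = 13 / 5 * Real.log 2 - Real.log 5 := by
    unfold psi
    rw [show (1 + 3 / 5 : ℝ) = 2 ^ 3 / 5 by norm_num, show (1 - 3 / 5 : ℝ) = 2 / 5 by norm_num,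
      Real.log_div (by norm_num) (by norm_num), Real.log_div (by norm_num) (by norm_num),
      Real.log_pow]
    push_cast
    ring
  have h1 := Real.log_two_lt_d9
  have h2 := log_five_gt
  rw [e]
  linarith

theorem psi_quartic {x : ℝ} (hx : |x| ≤ 3 / 5) : psi x ≤ x ^ 2 / 2 + 493 / 5000 * x ^ 4 := by
  have h1 := psi_upper (x0 := 3 / 5) (by norm_num) (by norm_num) hx
  have h2 : (psi (3 / 5) - (3 / 5) ^ 2 / 2) / (3 / 5) ^ 4 ≤ 493 / 5000 := by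
    rw [div_le_iff₀ (by norm_num)]
    have := psi_three_fifths
    norm_num
    linarith
  have h3 := mul_le_mul_of_nonneg_right h2 (by positivity : 0 ≤ x ^ 4)
  linarith

/-- Jensen–Shannon gap. -/
theorem JS_bound {m d : ℝ} (hm0 : 0 ≤ m) (hm1 : m < 1) (hd0 : 0 ≤ d)
    (ht : d ≤ 3 / 10 * (1 - m ^ 2)) :
    0 ≤ h m - hb (m + d) (m - d) ∧
    (1 - m ^ 2) * (h m - hb (m + d) (m - d))
      ≤ d ^ 2 * (1071 / 2000 - 213 / 8000 * (1 - m ^ 2)) := by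
  have hv : 0 < 1 - m ^ 2 := by nlinarith
  have hp : 0 < 1 + m := by linarith
  have hq : 0 < 1 - m := by linarith
  have hmd : |m| + |d| ≤ 1 := by
    rw [abs_of_nonneg hm0, abs_of_nonneg hd0]
    nlinarith
  have hs := psi_split hmd
  have e : h m - hb (m + d) (m - d) =
      (1 + m) / 2 * psi (d / (1 + m)) + (1 - m) / 2 * psi (d / (1 - m)) := by
    unfold hb h
    linarith
  have hx1 : |d / (1 + m)| ≤ 3 / 5 := by
    rw [abs_of_nonneg (div_nonneg hd0 hp.le), div_le_iff₀ hp]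
    nlinarith
  have hx2 : |d / (1 - m)| ≤ 3 / 5 := by
    rw [abs_of_nonneg (div_nonneg hd0 hq.le), div_le_iff₀ hq]
    nlinarith
  refine ⟨?_, ?_⟩
  · rw [e]
    have h1 : 0 ≤ psi (d / (1 + m)) := psi_nonneg (le_trans hx1 (by norm_num))
    have h2 : 0 ≤ psi (d / (1 - m)) := psi_nonneg (le_trans hx2 (by norm_num))
    positivity
  · rw [e]
    have h1 := mul_le_mul_of_nonneg_left (psi_quartic hx1) (by positivity : 0 ≤ (1 + m) / 2)
    have h2 := mul_le_mul_of_nonneg_left (psi_quartic hx2) (by linarith : 0 ≤ (1 - m) / 2)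
    have h3 := mul_le_mul_of_nonneg_left (add_le_add h1 h2) hv.le
    refine le_trans h3 ?_
    have h4 : (1 - m ^ 2) *
        ((1 + m) / 2 * ((d / (1 + m)) ^ 2 / 2 + 493 / 5000 * (d / (1 + m)) ^ 4) +
        (1 - m) / 2 * ((d / (1 - m)) ^ 2 / 2 + 493 / 5000 * (d / (1 - m)) ^ 4)) =
        d ^ 2 * (1 / 2 + 493 / 5000 * (d ^ 2 / (1 - m ^ 2) ^ 2) * (1 + 3 * m ^ 2)) := by
      have e1 : 1 - m ^ 2 = (1 + m) * (1 - m) := by ring
      rw [e1]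
      field_simp
      ring
    rw [h4]
    have h5 : d ^ 2 / (1 - m ^ 2) ^ 2 ≤ 9 / 100 := by
      rw [div_le_iff₀ (by positivity)]
      nlinarith
    have h6 : 0 ≤ d ^ 2 / (1 - m ^ 2) ^ 2 := by positivity
    refine mul_le_mul_of_nonneg_left ?_ (sq_nonneg d)
    nlinarith [mul_le_mul_of_nonneg_right h5 (by positivity : (0 : ℝ) ≤ 1 + 3 * m ^ 2)]

/-- reduction of the certificate to a one-variable inequality -/
theorem certK_of {ρ m d s1 a1 b1 : ℝ} (hρ : ρ ^ 2 < 1) (hρ1 : |ρ| ≤ 1) (hs : ρ ^ 2 ≤ s1)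
    (ha : 1 - ρ ^ 2 ≤ a1) (hm0 : 0 ≤ m) (hm1 : m < 1) (hd0 : 0 ≤ d)
    (ht : d ≤ 3 / 10 * (1 - m ^ 2)) (hB1 : B ρ ≤ 31 / 400) (hB2 : B ρ ≤ b1 * (1 - ρ ^ 2))
    (hQ0 : 0 ≤ 1071 / 2000 + (b1 - 213 / 8000) * (1 - m ^ 2))
    (hP : (1071 / 2000 + (b1 - 213 / 8000) * (1 - m ^ 2)) *
      (a1 * h m + 31 / 400 * (1 - m ^ 2) + 9 / 100 * s1 * (1 - m ^ 2) *
        (1071 / 2000 + (b1 - 213 / 8000) * (1 - m ^ 2))) ≤ Real.log 2 / 2 * (1 - m ^ 2)) :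
    CertK ρ m d := by
  have hv : 0 < 1 - m ^ 2 := by nlinarith
  obtain ⟨hJ0, hJ1⟩ := JS_bound hm0 hm1 hd0 ht
  have hB0 := B_nonneg hρ1
  have hh : 0 ≤ h m := h_nonneg (by rw [abs_of_nonneg hm0]; exact hm1.le)
  unfold CertK
  set v := 1 - m ^ 2 with hv'
  set a := 1 - ρ ^ 2 with ha'
  have ha0 : 0 < a := by linarith
  set Q := 1071 / 2000 + (b1 - 213 / 8000) * v with hQ
  set J := h m - hb (m + d) (m - d) with hJ
  have eDel : Del ρ m d = a * J + B ρ * d ^ 2 := rfl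
  have eH : a * Hbar ρ m d + Del ρ m d = a ^ 2 * h m + a * B ρ * v + ρ ^ 2 * Del ρ m d := by
    have e1 : ρ ^ 2 = 1 - a := by rw [ha']; ring
    have e2 : hb (m + d) (m - d) = h m - J := by rw [hJ]; ring
    have e3 : Hbar ρ m d = a * hb (m + d) (m - d) + B ρ * (v - d ^ 2) := rfl
    rw [e3, eDel, e2, e1]
    ring
  rw [eH]
  set X := Del ρ m d with hX
  have hX0 : 0 ≤ X := by rw [eDel]; positivity
  have hXv : v * X ≤ a * d ^ 2 * Q := by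
    have h1 := mul_le_mul_of_nonneg_left hJ1 ha0.le
    have h2 := mul_le_mul_of_nonneg_right hB2 (by positivity : 0 ≤ d ^ 2 * v)
    rw [eDel, hQ]
    linear_combination h1 + h2
  have hd2 : d ^ 2 ≤ 9 / 100 * v ^ 2 := by
    have h1 := mul_le_mul ht ht hd0 (by positivity)
    linear_combination h1
  have hX1 : X ≤ 9 / 100 * a * v * Q := by
    have h1 : v * X ≤ v * (9 / 100 * a * v * Q) := by
      have h2 := mul_le_mul_of_nonneg_right hd2 (mul_nonneg ha0.le hQ0)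
      linear_combination hXv + h2
    exact le_of_mul_le_mul_left h1 hv
  have hW : a ^ 2 * h m + a * B ρ * v + ρ ^ 2 * X ≤
      a * (a1 * h m + 31 / 400 * v + 9 / 100 * s1 * v * Q) := by
    have h1 : a ^ 2 * h m ≤ a * (a1 * h m) := by
      have := mul_le_mul_of_nonneg_right ha (mul_nonneg ha0.le hh)
      linear_combination this
    have h2 : a * B ρ * v ≤ a * (31 / 400 * v) := by
      have := mul_le_mul_of_nonneg_right hB1 (mul_nonneg ha0.le hv.le)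
      linear_combination this
    have h3 : ρ ^ 2 * X ≤ a * (9 / 100 * s1 * v * Q) := by
      have h4 : 0 ≤ 9 / 100 * a * v * Q := le_trans hX0 hX1
      calc ρ ^ 2 * X ≤ ρ ^ 2 * (9 / 100 * a * v * Q) :=
            mul_le_mul_of_nonneg_left hX1 (sq_nonneg ρ)
        _ ≤ s1 * (9 / 100 * a * v * Q) := mul_le_mul_of_nonneg_right hs h4
        _ = a * (9 / 100 * s1 * v * Q) := by ring
    linarith
  have hfin : v * (X * (a ^ 2 * h m + a * B ρ * v + ρ ^ 2 * X)) ≤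
      v * (a ^ 2 * (Real.log 2 / 2 * d ^ 2)) := by
    have hW0 : 0 ≤ a ^ 2 * h m + a * B ρ * v + ρ ^ 2 * X := by positivity
    calc v * (X * (a ^ 2 * h m + a * B ρ * v + ρ ^ 2 * X))
        = (v * X) * (a ^ 2 * h m + a * B ρ * v + ρ ^ 2 * X) := by ring
      _ ≤ (a * d ^ 2 * Q) * (a ^ 2 * h m + a * B ρ * v + ρ ^ 2 * X) :=
          mul_le_mul_of_nonneg_right hXv hW0
      _ ≤ (a * d ^ 2 * Q) * (a * (a1 * h m + 31 / 400 * v + 9 / 100 * s1 * v * Q)) :=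
          mul_le_mul_of_nonneg_left hW (by positivity)
      _ = a ^ 2 * d ^ 2 * (Q * (a1 * h m + 31 / 400 * v + 9 / 100 * s1 * v * Q)) := by ring
      _ ≤ a ^ 2 * d ^ 2 * (Real.log 2 / 2 * v) :=
          mul_le_mul_of_nonneg_left hP (by positivity)
      _ = v * (a ^ 2 * (Real.log 2 / 2 * d ^ 2)) := by ring
  exact le_of_mul_le_mul_left hfin hv

/-! ### bounds for `B` -/

theorem B_upper {ρ : ℝ} (h1 : |ρ| ≤ 1) : B ρ ≤ 1931472 / 10000000 * ρ ^ 2 -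
    ((ρ ^ 2) ^ 2 / 12 + (ρ ^ 2) ^ 3 / 30 + (ρ ^ 2) ^ 4 / 56 + (ρ ^ 2) ^ 5 / 90) := by
  have h2 := psi_lower h1
  have h3 := Real.log_two_lt_d9
  have h4 : B ρ = ρ ^ 2 * Real.log 2 - psi ρ := by
    unfold B h
    ring
  rw [h4]
  nlinarith [sq_nonneg ρ]

theorem poly_B1 {s : ℝ} (hs : 0 ≤ s) : 1931472 / 10000000 * s -
    (s ^ 2 / 12 + s ^ 3 / 30 + s ^ 4 / 56 + s ^ 5 / 90) ≤ 31 / 400 := by
  nlinarith [sq_nonneg (s - 67 / 100), mul_nonneg hs (sq_nonneg (s - 67 / 100)),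
    mul_nonneg (pow_nonneg hs 2) (sq_nonneg (s - 67 / 100)),
    mul_nonneg (pow_nonneg hs 3) (sq_nonneg (s - 67 / 100))]

theorem poly_B2 {s : ℝ} (hs : 0 ≤ s) (h1 : s ≤ 16 / 25) : 1931472 / 10000000 * s -
    (s ^ 2 / 12 + s ^ 3 / 30 + s ^ 4 / 56 + s ^ 5 / 90) ≤ 43 / 200 * (1 - s) := by
  nlinarith [sq_nonneg (s - 16 / 25), mul_nonneg hs (sq_nonneg (s - 16 / 25)),
    mul_nonneg (pow_nonneg hs 2) (sq_nonneg (s - 16 / 25)),
    mul_nonneg (pow_nonneg hs 3) (sq_nonneg (s - 16 / 25))]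

theorem poly_B3 {s : ℝ} (hs : 0 ≤ s) (h1 : s ≤ 18 / 25) : 1931472 / 10000000 * s -
    (s ^ 2 / 12 + s ^ 3 / 30 + s ^ 4 / 56 + s ^ 5 / 90) ≤ 69 / 250 * (1 - s) := by
  nlinarith [sq_nonneg (s - 18 / 25), mul_nonneg hs (sq_nonneg (s - 18 / 25)),
    mul_nonneg (pow_nonneg hs 2) (sq_nonneg (s - 18 / 25)),
    mul_nonneg (pow_nonneg hs 3) (sq_nonneg (s - 18 / 25))]

theorem poly_B4 {s : ℝ} (hs : 0 ≤ s) (h1 : s ≤ 81 / 100) : 1931472 / 10000000 * s -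
    (s ^ 2 / 12 + s ^ 3 / 30 + s ^ 4 / 56 + s ^ 5 / 90) ≤ 193 / 500 * (1 - s) := by
  nlinarith [sq_nonneg (s - 81 / 100), mul_nonneg hs (sq_nonneg (s - 81 / 100)),
    mul_nonneg (pow_nonneg hs 2) (sq_nonneg (s - 81 / 100)),
    mul_nonneg (pow_nonneg hs 3) (sq_nonneg (s - 81 / 100))]

/-! ### the one-variable inequality -/

theorem h_upper {m : ℝ} (hm : |m| ≤ 1) : h m ≤ 69315 / 100000 -
    (m ^ 2 / 2 + (m ^ 2) ^ 2 / 12 + (m ^ 2) ^ 3 / 30 + (m ^ 2) ^ 4 / 56 + (m ^ 2) ^ 5 / 90) := by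
  have h2 := psi_lower hm
  have h3 := Real.log_two_lt_d9
  unfold h
  nlinarith

theorem step_poly {m a1 s1 b1 : ℝ} (hm : |m| ≤ 1) (ha1 : 0 ≤ a1)
    (hQ0 : 0 ≤ 1071 / 2000 + (b1 - 213 / 8000) * (1 - m ^ 2))
    (hv : 0 ≤ 1 - m ^ 2)
    (hP : (1071 / 2000 + (b1 - 213 / 8000) * (1 - m ^ 2)) *
      (a1 * (69315 / 100000 - (m ^ 2 / 2 + (m ^ 2) ^ 2 / 12 + (m ^ 2) ^ 3 / 30
        + (m ^ 2) ^ 4 / 56 + (m ^ 2) ^ 5 / 90)) + 31 / 400 * (1 - m ^ 2)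
        + 9 / 100 * s1 * (1 - m ^ 2) *
        (1071 / 2000 + (b1 - 213 / 8000) * (1 - m ^ 2))) ≤ 34657 / 100000 * (1 - m ^ 2)) :
    (1071 / 2000 + (b1 - 213 / 8000) * (1 - m ^ 2)) *
      (a1 * h m + 31 / 400 * (1 - m ^ 2) + 9 / 100 * s1 * (1 - m ^ 2) *
        (1071 / 2000 + (b1 - 213 / 8000) * (1 - m ^ 2))) ≤ Real.log 2 / 2 * (1 - m ^ 2) := by
  have h1 := mul_le_mul_of_nonneg_left (mul_le_mul_of_nonneg_left (h_upper hm) ha1) hQ0
  have h2 := Real.log_two_gt_d9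
  have h3 : 34657 / 100000 * (1 - m ^ 2) ≤ Real.log 2 / 2 * (1 - m ^ 2) :=
    mul_le_mul_of_nonneg_right (by linarith) hv
  refine le_trans ?_ (le_trans hP h3)
  nlinarith

theorem scalar_K2 {ρ m d : ℝ} (h0 : 0 < ρ) (h1 : 1 / 2 ≤ ρ ^ 2) (h2 : ρ ^ 2 ≤ 16 / 25)
    (hm0 : 0 ≤ m) (hm1 : m ≤ 4 / 5) (hd0 : 0 ≤ d) (ht : d ≤ 3 / 10 * (1 - m ^ 2)) :
    CertK ρ m d := by
  have hρ1 : |ρ| ≤ 1 := by
    rw [abs_of_pos h0]
    nlinarith
  have hu : 0 ≤ m ^ 2 := sq_nonneg m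
  have hu1 : 0 ≤ 16 / 25 - m ^ 2 := by nlinarith
  have hv : 0 ≤ 1 - m ^ 2 := by linarith
  have hm : |m| ≤ 1 := by rw [abs_of_nonneg hm0]; linarith
  have hQ0 : (0 : ℝ) ≤ 1071 / 2000 + (43 / 200 - 213 / 8000) * (1 - m ^ 2) := by
    nlinarith
  refine certK_of (s1 := 16 / 25) (a1 := 1 / 2) (b1 := 43 / 200) (by linarith) hρ1 h2
    (by linarith) hm0 (by linarith) hd0 ht (le_trans (B_upper hρ1) (poly_B1 (sq_nonneg ρ)))
    (le_trans (B_upper hρ1) (poly_B2 (sq_nonneg ρ) h2)) hQ0 ?_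
  refine step_poly hm (by norm_num) hQ0 hv ?_
  generalize m ^ 2 = u at *
  nlinarith [pow_nonneg hu1 6, mul_nonneg hu (pow_nonneg hu1 5),
    mul_nonneg (pow_nonneg hu 2) (pow_nonneg hu1 4),
    mul_nonneg (pow_nonneg hu 3) (pow_nonneg hu1 3),
    mul_nonneg (pow_nonneg hu 4) (pow_nonneg hu1 2), mul_nonneg (pow_nonneg hu 5) hu1,
    pow_nonneg hu 6]

theorem scalar_K3 {ρ m d : ℝ} (h0 : 0 < ρ) (h1 : 16 / 25 ≤ ρ ^ 2) (h2 : ρ ^ 2 ≤ 81 / 100)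
    (hm0 : 0 ≤ m) (hm1 : m ≤ 9 / 10) (hd0 : 0 ≤ d) (ht : d ≤ 3 / 10 * (1 - m ^ 2)) :
    CertK ρ m d := by
  have hρ1 : |ρ| ≤ 1 := by
    rw [abs_of_pos h0]
    nlinarith
  have hu : 0 ≤ m ^ 2 := sq_nonneg m
  have hu1 : 0 ≤ 81 / 100 - m ^ 2 := by nlinarith
  have hv : 0 ≤ 1 - m ^ 2 := by linarith
  have hm : |m| ≤ 1 := by rw [abs_of_nonneg hm0]; linarith
  rcases le_total (ρ ^ 2) (18 / 25) with h3 | h3
  · have hQ0 : (0 : ℝ) ≤ 1071 / 2000 + (69 / 250 - 213 / 8000) * (1 - m ^ 2) := by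
      nlinarith
    refine certK_of (s1 := 18 / 25) (a1 := 9 / 25) (b1 := 69 / 250) (by linarith) hρ1 h3
      (by linarith) hm0 (by linarith) hd0 ht (le_trans (B_upper hρ1) (poly_B1 (sq_nonneg ρ)))
      (le_trans (B_upper hρ1) (poly_B3 (sq_nonneg ρ) h3)) hQ0 ?_
    refine step_poly hm (by norm_num) hQ0 hv ?_
    generalize m ^ 2 = u at *
    nlinarith [pow_nonneg hu1 6, mul_nonneg hu (pow_nonneg hu1 5),
      mul_nonneg (pow_nonneg hu 2) (pow_nonneg hu1 4),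
      mul_nonneg (pow_nonneg hu 3) (pow_nonneg hu1 3),
      mul_nonneg (pow_nonneg hu 4) (pow_nonneg hu1 2), mul_nonneg (pow_nonneg hu 5) hu1,
      pow_nonneg hu 6]
  · have hQ0 : (0 : ℝ) ≤ 1071 / 2000 + (193 / 500 - 213 / 8000) * (1 - m ^ 2) := by
      nlinarith
    refine certK_of (s1 := 81 / 100) (a1 := 7 / 25) (b1 := 193 / 500) (by linarith) hρ1 h2
      (by linarith) hm0 (by linarith) hd0 ht (le_trans (B_upper hρ1) (poly_B1 (sq_nonneg ρ)))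
      (le_trans (B_upper hρ1) (poly_B4 (sq_nonneg ρ) h2)) hQ0 ?_
    refine step_poly hm (by norm_num) hQ0 hv ?_
    generalize m ^ 2 = u at *
    nlinarith [pow_nonneg hu1 6, mul_nonneg hu (pow_nonneg hu1 5),
      mul_nonneg (pow_nonneg hu 2) (pow_nonneg hu1 4),
      mul_nonneg (pow_nonneg hu 3) (pow_nonneg hu1 3),
      mul_nonneg (pow_nonneg hu 4) (pow_nonneg hu1 2), mul_nonneg (pow_nonneg hu 5) hu1,
      pow_nonneg hu 6]

end Vale.P322
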