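import Vale.Agent.P322.Sdpi
import Vale.Agent.P322.ScalarJ
import Vale.Agent.P322.ScalarA
import Vale.Agent.P322.ScalarK

/-! # P322: pair inequality in the regime `ρ ≤ 9/10` -/

namespace Vale.P322

open Finset

theorem scalar_low {ρ m d : ℝ} (h0 : 0 < ρ) (h1 : ρ ≤ 9 / 10) (hm0 : 0 ≤ m) (hm1 : m < 1)
    (hd0 : 0 < d) (hmd : m + d ≤ 1) (hpar : 3 * d ^ 2 ≤ 1 - m ^ 2) :
    CertJ ρ m d ∨ CertA ρ m d ∨ CertK ρ m d := by
  have hs : ρ ^ 2 ≤ 81 / 100 := by nlinarith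
  rcases le_total (ρ ^ 2) (1 / 2) with hA | hA
  · rcases le_total (41 / 100 * (1 - m ^ 2)) d with ht | ht
    · exact Or.inl (scalar_J1 h0 hA hm0 hd0 hmd hpar ht)
    · exact Or.inr (Or.inl (scalar_A1 h0 hA hm0 hm1 hd0.le ht))
  · rcases le_total (3 / 10 * (1 - m ^ 2)) d with ht | ht
    · exact Or.inl (scalar_J2 h0 hA hs hm0 hd0 hmd hpar ht)
    · rcases le_total (ρ ^ 2) (16 / 25) with hB | hB
      · rcases le_total m (4 / 5) with hm | hm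
        · exact Or.inr (Or.inr (scalar_K2 h0 hA hB hm0 hm hd0.le ht))
        · exact Or.inr (Or.inl (scalar_A2 h0 hA hB hm hm1 hd0.le ht))
      · rcases le_total m (9 / 10) with hm | hm
        · exact Or.inr (Or.inr (scalar_K3 h0 hB hs hm0 hm hd0.le ht))
        · exact Or.inr (Or.inl (scalar_A3 h0 hB hs hm hm1 hd0.le ht))

theorem Hbar_eq (ρ m d : ℝ) : Hbar ρ m d = (H1 ρ (m + d) + H1 ρ (m - d)) / 2 := by
  unfold Hbar H1 hb; ring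

theorem Del_eq (ρ m d : ℝ) : H1 ρ m = Hbar ρ m d + Del ρ m d := by
  unfold Hbar H1 Del hb; ring

/-- `E ≥ ρ²Hb+βW+Q`, `W ≥ ρ² d log 2+β h m`, CertJ. -/
theorem alg_J {ρ m d E W Hb : ℝ} (h0 : 0 ≤ ρ) (h1 : ρ ≤ 1) (hm : |m| < 1) (hmd : |m| + |d| ≤ 1)
    (hE : ρ ^ 2 * Hb + (1 - ρ ^ 2) * W
      + (hr ρ (m + d) (m - d) - ρ ^ 2 * hb (m + d) (m - d) - (1 - ρ ^ 2) * h m) ≤ E)
    (hH : Hbar ρ m d ≤ Hb)
    (hW : ρ ^ 2 * (d * Real.log 2) + (1 - ρ ^ 2) * h m ≤ W)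
    (hc : CertJ ρ m d) : H1 ρ m ≤ E := by
  have h4 := hr_lower_four h0 h1 hm hmd
  unfold CertJ at hc
  have hρ2 : 0 ≤ ρ ^ 2 := sq_nonneg _
  have hβ : 0 ≤ 1 - ρ ^ 2 := by nlinarith
  have k1 := mul_le_mul_of_nonneg_left hH hρ2
  have k2 := mul_le_mul_of_nonneg_left hW hβ
  unfold Hbar at k1
  unfold H1
  nlinarith [k1, k2, h4, hE, hc]

theorem alg_A {ρ m d E W Hb : ℝ} (h0 : 0 ≤ ρ) (h1 : ρ ≤ 1) (hm0 : 0 ≤ m) (hm1 : m < 1)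
    (hE : ρ ^ 2 * Hb + (1 - ρ ^ 2) * W ≤ E)
    (hH : Hbar ρ m d ≤ Hb)
    (hW : (h m - W) * (d ^ 2 + 2 * (1 + m) ^ 2 * Real.log (2 / (1 + m)))
      ≤ (hb (m + d) (m - d) - Hb) * (2 * (1 + m) ^ 2 * Real.log (2 / (1 + m))))
    (hc : CertA ρ m d) : H1 ρ m ≤ E := by
  unfold CertA at hc
  set C := 2 * (1 + m) ^ 2 * Real.log (2 / (1 + m)) with hC
  have hCpos : 0 < C := by
    have : 0 < Real.log (2 / (1 + m)) := by
      apply Real.log_pos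
      rw [lt_div_iff₀ (by linarith)]
      linarith
    positivity
  have hρ2 : 0 ≤ ρ ^ 2 := sq_nonneg _
  have hβ : 0 ≤ 1 - ρ ^ 2 := by nlinarith
  have hDC : 0 < d ^ 2 + C := by positivity
  -- multiply the goal by `d²+C`
  have key : 0 ≤ (d ^ 2 + C) * (E - H1 ρ m) := by
    have a1 : (d ^ 2 + C) * (ρ ^ 2 * Hb + (1 - ρ ^ 2) * W) ≤ (d ^ 2 + C) * E :=
      mul_le_mul_of_nonneg_left hE hDC.le
    have a2 := mul_le_mul_of_nonneg_left hW hβ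
    have a3 : 0 ≤ (Hb - Hbar ρ m d) * ((d ^ 2 + C) * ρ ^ 2 + (1 - ρ ^ 2) * C) :=
      mul_nonneg (by linarith) (by positivity)
    have a4 := mul_le_mul_of_nonneg_left hc (sq_nonneg d)
    unfold Hbar at a3
    unfold H1
    nlinarith [a1, a2, a3, a4]
  have := nonneg_of_mul_nonneg_right key hDC
  linarith

theorem alg_K {ρ m d E W Hb : ℝ} (h0 : 0 ≤ ρ) (h1 : ρ < 1)
    (hE : ρ ^ 2 * Hb + (1 - ρ ^ 2) * W ≤ E)
    (hH : Hbar ρ m d ≤ Hb) (hW0 : 0 ≤ W) (hWH : Hb ≤ W) (hd : d ≠ 0)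
    (hW : Real.log 2 / 2 * d ^ 2 ≤ W * (W - Hb))
    (hc : CertK ρ m d) : H1 ρ m ≤ E := by
  unfold CertK at hc
  have hβ : 0 < 1 - ρ ^ 2 := by nlinarith
  have hρ2 : 0 ≤ ρ ^ 2 := sq_nonneg _
  rw [Del_eq ρ m d]
  by_contra hcon
  push Not at hcon
  -- β (W - Hb) < Del, β W < β Hbar + Del
  have b1 : (1 - ρ ^ 2) * (W - Hb) < Del ρ m d := by nlinarith
  have b2 : (1 - ρ ^ 2) * W < (1 - ρ ^ 2) * Hbar ρ m d + Del ρ m d := by nlinarith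
  have hl : 0 < Real.log 2 / 2 * d ^ 2 := by
    have := Real.log_pos (show (1:ℝ) < 2 by norm_num)
    positivity
  have hW1 : 0 < W := by
    rcases hW0.lt_or_eq with h | h
    · exact h
    · rw [← h] at hW; linarith
  have b3 : ((1 - ρ ^ 2) * (W - Hb)) * ((1 - ρ ^ 2) * W)
      < Del ρ m d * ((1 - ρ ^ 2) * Hbar ρ m d + Del ρ m d) := by
    have c1 : 0 ≤ (1 - ρ ^ 2) * (W - Hb) := mul_nonneg hβ.le (by linarith)
    have c2 : 0 < (1 - ρ ^ 2) * W := mul_pos hβ hW1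
    exact mul_lt_mul' b1.le b2 c2.le (lt_of_le_of_lt c1 b1)
  have b4 : (1 - ρ ^ 2) ^ 2 * (Real.log 2 / 2 * d ^ 2) ≤ (1 - ρ ^ 2) ^ 2 * (W * (W - Hb)) :=
    mul_le_mul_of_nonneg_left hW (sq_nonneg _)
  nlinarith [b3, b4, hc]

end Vale.P322
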