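import Vale.Agent.P322.Defs

/-! # P322, module M1: one-variable calculus -/

namespace Vale.P322

open Set

theorem psi_neg (t : ℝ) : psi (-t) = psi t := by
  unfold psi
  rw [sub_neg_eq_add, ← sub_eq_add_neg]
  ring

theorem psi_zero : psi 0 = 0 := by simp [psi]

theorem psi_one : psi 1 = Real.log 2 := by
  unfold psi
  norm_num

theorem h_neg (t : ℝ) : h (-t) = h t := by
  unfold h
  rw [psi_neg]

theorem h_zero : h 0 = Real.log 2 := by
  unfold h
  rw [psi_zero, sub_zero]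

theorem h_one : h 1 = 0 := by
  unfold h
  rw [psi_one, sub_self]

theorem L_neg (t : ℝ) : L (-t) = - L t := by
  unfold L
  rw [sub_neg_eq_add, ← sub_eq_add_neg]
  ring

theorem L_zero : L 0 = 0 := by simp [L]

theorem g_eq {t : ℝ} : g t = h t + t * L t := by
  unfold g h L psi
  ring

theorem continuous_psi : Continuous psi := by
  have h1 : Continuous (fun t : ℝ => (1 + t) * Real.log (1 + t)) :=
    Real.continuous_mul_log.comp (continuous_const.add continuous_id)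
  have h2 : Continuous (fun t : ℝ => (1 - t) * Real.log (1 - t)) :=
    Real.continuous_mul_log.comp (continuous_const.sub continuous_id)
  unfold psi
  exact (h1.add h2).div_const 2

theorem continuous_h : Continuous h := by
  unfold h
  exact continuous_const.sub continuous_psi

theorem hasDerivAt_psi {t : ℝ} (ht : |t| < 1) : HasDerivAt psi (L t) t := by
  obtain ⟨h1, h2⟩ := abs_lt.1 ht
  have ha : HasDerivAt (fun t : ℝ => 1 + t) 1 t := by
    simpa using (hasDerivAt_id t).const_add 1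
  have hb : HasDerivAt (fun t : ℝ => 1 - t) (-1) t := by
    simpa using (hasDerivAt_id t).const_sub 1
  have h3 : HasDerivAt (fun t : ℝ => (1 + t) * Real.log (1 + t))
      ((Real.log (1 + t) + 1) * 1) t :=
    (Real.hasDerivAt_mul_log (x := 1 + t) (by linarith)).comp t ha
  have h4 : HasDerivAt (fun t : ℝ => (1 - t) * Real.log (1 - t))
      ((Real.log (1 - t) + 1) * (-1)) t :=
    (Real.hasDerivAt_mul_log (x := 1 - t) (by linarith)).comp t hb
  have h5 := (h3.add h4).div_const 2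
  have e : L t = ((Real.log (1 + t) + 1) * 1 + (Real.log (1 - t) + 1) * (-1)) / 2 := by
    unfold L; ring
  rw [e]
  exact h5

theorem hasDerivAt_h {t : ℝ} (ht : |t| < 1) : HasDerivAt h (- L t) t :=
  (hasDerivAt_psi ht).const_sub _

theorem hasDerivAt_L {t : ℝ} (ht : |t| < 1) : HasDerivAt L (1 / (1 - t ^ 2)) t := by
  obtain ⟨h1, h2⟩ := abs_lt.1 ht
  have ha : HasDerivAt (fun t : ℝ => 1 + t) 1 t := by
    simpa using (hasDerivAt_id t).const_add 1
  have hb : HasDerivAt (fun t : ℝ => 1 - t) (-1) t := by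
    simpa using (hasDerivAt_id t).const_sub 1
  have n1 : (1 : ℝ) + t ≠ 0 := by linarith
  have n2 : (1 : ℝ) - t ≠ 0 := by linarith
  have h5 := ((ha.log n1).sub (hb.log n2)).div_const 2
  have n3 : (1 : ℝ) - t ^ 2 ≠ 0 := by
    have : (1 : ℝ) - t ^ 2 = (1 + t) * (1 - t) := by ring
    rw [this]; exact mul_ne_zero n1 n2
  have e : 1 / (1 - t ^ 2) = (1 / (1 + t) - (-1) / (1 - t)) / 2 := by
    field_simp
    ring
  rw [e]
  exact h5

theorem hasDerivAt_g {t : ℝ} (ht : |t| < 1) : HasDerivAt g (t / (1 - t ^ 2)) t := by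
  obtain ⟨h1, h2⟩ := abs_lt.1 ht
  have ha : HasDerivAt (fun t : ℝ => 1 + t) 1 t := by
    simpa using (hasDerivAt_id t).const_add 1
  have hb : HasDerivAt (fun t : ℝ => 1 - t) (-1) t := by
    simpa using (hasDerivAt_id t).const_sub 1
  have n1 : (1 : ℝ) + t ≠ 0 := by linarith
  have n2 : (1 : ℝ) - t ≠ 0 := by linarith
  have h5 := (((ha.log n1).add (hb.log n2)).div_const 2).const_sub (Real.log 2)
  have n3 : (1 : ℝ) - t ^ 2 ≠ 0 := by
    have : (1 : ℝ) - t ^ 2 = (1 + t) * (1 - t) := by ring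
    rw [this]; exact mul_ne_zero n1 n2
  have e : t / (1 - t ^ 2) = -((1 / (1 + t) + (-1) / (1 - t)) / 2) := by
    field_simp
    ring
  rw [e]
  exact h5

/-- convexity on `[-1,1]` from the second derivative on the open interval -/
theorem convexOn_Icc_of_deriv2 {f f' f'' : ℝ → ℝ} (hf : ContinuousOn f (Icc (-1) 1))
    (h1 : ∀ x : ℝ, |x| < 1 → HasDerivAt f (f' x) x)
    (h2 : ∀ x : ℝ, |x| < 1 → HasDerivAt f' (f'' x) x)
    (h3 : ∀ x : ℝ, |x| < 1 → 0 ≤ f'' x) : ConvexOn ℝ (Icc (-1) 1) f := by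
  have key : ∀ x ∈ interior (Icc (-1 : ℝ) 1), |x| < 1 := by
    intro x hx
    rw [interior_Icc] at hx
    exact abs_lt.2 hx
  refine convexOn_of_hasDerivWithinAt2_nonneg (convex_Icc (-1 : ℝ) 1) hf
    (fun x hx => (h1 x (key x hx)).hasDerivWithinAt)
    (fun x hx => (h2 x (key x hx)).hasDerivWithinAt) (fun x hx => h3 x (key x hx))

/-- an even convex function on `[-1,1]` vanishing at `0` is nonnegative -/
theorem nonneg_of_even_convex {f : ℝ → ℝ} (hc : ConvexOn ℝ (Icc (-1) 1) f)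
    (he : ∀ x, f (-x) = f x) (h0 : f 0 = 0) {x : ℝ} (hx : |x| ≤ 1) : 0 ≤ f x := by
  obtain ⟨h1, h2⟩ := abs_le.1 hx
  have h3 := hc.2 (show x ∈ Icc (-1 : ℝ) 1 from ⟨h1, h2⟩)
    (show -x ∈ Icc (-1 : ℝ) 1 from ⟨by linarith, by linarith⟩)
    (show (0 : ℝ) ≤ 1 / 2 by norm_num) (show (0 : ℝ) ≤ 1 / 2 by norm_num) (by norm_num)
  simp only [smul_eq_mul] at h3
  have e : (1 / 2 : ℝ) * x + 1 / 2 * -x = 0 := by ring
  rw [e, h0, he] at h3
  linarith

theorem one_sub_sq_pos {x : ℝ} (hx : |x| < 1) : 0 < 1 - x ^ 2 := by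
  obtain ⟨h1, h2⟩ := abs_lt.1 hx
  nlinarith

theorem convexOn_psi : ConvexOn ℝ (Set.Icc (-1) 1) psi :=
  convexOn_Icc_of_deriv2 continuous_psi.continuousOn (fun _ hx => hasDerivAt_psi hx)
    (fun _ hx => hasDerivAt_L hx) (fun _ hx => (one_div_pos.2 (one_sub_sq_pos hx)).le)

theorem concaveOn_h : ConcaveOn ℝ (Set.Icc (-1) 1) h := by
  have h1 := convexOn_psi.neg
  have h2 := h1.add_const (Real.log 2)
  refine h2.congr ?_
  intro x _
  simp only [Pi.neg_apply, h, Pi.add_apply]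
  ring

theorem convexOn_psi_sub_sq :
    ConvexOn ℝ (Set.Icc (-1) 1) (fun t => psi t - t ^ 2 / 2) := by
  refine convexOn_Icc_of_deriv2 (f' := fun t => L t - t) (f'' := fun t => 1 / (1 - t ^ 2) - 1)
    ?_ ?_ ?_ ?_
  · exact (continuous_psi.sub (by fun_prop)).continuousOn
  · intro x hx
    have h1 : HasDerivAt (fun t : ℝ => t ^ 2 / 2) x x := by
      have := (hasDerivAt_pow 2 x).div_const 2
      refine this.congr_deriv ?_
      push_cast
      ring
    exact (hasDerivAt_psi hx).sub h1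
  · intro x hx
    exact (hasDerivAt_L hx).sub (hasDerivAt_id x)
  · intro x hx
    have := one_sub_sq_pos hx
    rw [sub_nonneg, le_div_iff₀ this]
    nlinarith [sq_nonneg x]

theorem half_sq_le_psi {t : ℝ} (ht : |t| ≤ 1) : t ^ 2 / 2 ≤ psi t := by
  have := nonneg_of_even_convex convexOn_psi_sub_sq
    (by intro x; simp only [psi_neg, neg_sq]) (by simp [psi_zero]) ht
  linarith

theorem psi_nonneg {t : ℝ} (ht : |t| ≤ 1) : 0 ≤ psi t := by
  have := half_sq_le_psi ht
  nlinarith [sq_nonneg t]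

theorem convexOn_q {ρ : ℝ} (h0 : 0 ≤ ρ) (h1 : ρ ≤ 1) :
    ConvexOn ℝ (Set.Icc (-1) 1) (fun t => ρ ^ 2 * psi t - psi (ρ * t)) := by
  have hab : ∀ x : ℝ, |x| < 1 → |ρ * x| < 1 := by
    intro x hx
    rw [abs_mul, abs_of_nonneg h0]
    nlinarith [abs_nonneg x]
  refine convexOn_Icc_of_deriv2 (f' := fun t => ρ ^ 2 * L t - L (ρ * t) * ρ)
    (f'' := fun t => ρ ^ 2 * (1 / (1 - t ^ 2)) - (1 / (1 - (ρ * t) ^ 2)) * ρ * ρ)
    ?_ ?_ ?_ ?_
  · exact ((continuous_const.mul continuous_psi).sub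
      (continuous_psi.comp (continuous_const.mul continuous_id))).continuousOn
  · intro x hx
    have h2 : HasDerivAt (fun t : ℝ => ρ * t) ρ x := by
      simpa using (hasDerivAt_id x).const_mul ρ
    have h3 : HasDerivAt (fun t : ℝ => psi (ρ * t)) (L (ρ * x) * ρ) x :=
      (hasDerivAt_psi (hab x hx)).comp x h2
    exact ((hasDerivAt_psi hx).const_mul (ρ ^ 2)).sub h3
  · intro x hx
    have h2 : HasDerivAt (fun t : ℝ => ρ * t) ρ x := by
      simpa using (hasDerivAt_id x).const_mul ρ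
    have h3 : HasDerivAt (fun t : ℝ => L (ρ * t)) ((1 / (1 - (ρ * x) ^ 2)) * ρ) x :=
      (hasDerivAt_L (hab x hx)).comp x h2
    exact ((hasDerivAt_L hx).const_mul (ρ ^ 2)).sub (h3.mul_const ρ)
  · intro x hx
    have p1 := one_sub_sq_pos hx
    have p2 := one_sub_sq_pos (hab x hx)
    have h4 : 1 / (1 - (ρ * x) ^ 2) ≤ 1 / (1 - x ^ 2) := by
      apply one_div_le_one_div_of_le p1
      have : (ρ * x) ^ 2 ≤ x ^ 2 := by
        rw [mul_pow]
        have : ρ ^ 2 ≤ 1 := by nlinarith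
        nlinarith [sq_nonneg x]
      linarith
    have h5 : ρ ^ 2 * (1 / (1 - (ρ * x) ^ 2)) ≤ ρ ^ 2 * (1 / (1 - x ^ 2)) :=
      mul_le_mul_of_nonneg_left h4 (sq_nonneg ρ)
    nlinarith [h5]

theorem psi_mul_le {ρ t : ℝ} (h0 : 0 ≤ ρ) (h1 : ρ ≤ 1) (ht : |t| ≤ 1) :
    psi (ρ * t) ≤ ρ ^ 2 * psi t := by
  have := nonneg_of_even_convex (convexOn_q h0 h1)
    (by intro x; simp only [psi_neg, mul_neg]) (by simp [psi_zero]) ht
  linarith

theorem psi_le_sq {t : ℝ} (ht : |t| ≤ 1) : psi t ≤ Real.log 2 * t ^ 2 := by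
  have h1 := psi_mul_le (ρ := |t|) (t := 1) (abs_nonneg t) ht (by simp)
  rw [mul_one, sq_abs, psi_one] at h1
  rcases abs_choice t with h2 | h2
  · rw [h2] at h1; linarith
  · rw [h2, psi_neg] at h1; linarith

theorem log_two_pos : 0 < Real.log 2 := Real.log_pos (by norm_num)

theorem h_ge {t : ℝ} (ht : |t| ≤ 1) : (1 - t ^ 2) * Real.log 2 ≤ h t := by
  have := psi_le_sq ht
  unfold h
  linarith

theorem h_nonneg {t : ℝ} (ht : |t| ≤ 1) : 0 ≤ h t := by
  have h1 := h_ge ht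
  have h2 : t ^ 2 ≤ 1 := by
    rw [← sq_abs]
    nlinarith [abs_nonneg t]
  have h3 : 0 ≤ (1 - t ^ 2) * Real.log 2 := mul_nonneg (by linarith) log_two_pos.le
  linarith

theorem h_le {t : ℝ} (ht : |t| ≤ 1) : h t ≤ Real.log 2 - t ^ 2 / 2 := by
  have := half_sq_le_psi ht
  unfold h
  linarith

theorem B_nonneg {ρ : ℝ} (h : |ρ| ≤ 1) : 0 ≤ B ρ := by
  have := h_ge h
  unfold B
  linarith

theorem L_pos {t : ℝ} (h0 : 0 < t) (h1 : t < 1) : 0 < L t := by
  unfold L
  have := Real.log_lt_log (show (0 : ℝ) < 1 - t by linarith) (show 1 - t < 1 + t by linarith)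
  linarith

theorem g_pos {t : ℝ} (h1 : |t| < 1) : 0 < g t := by
  obtain ⟨h2, h3⟩ := abs_lt.1 h1
  unfold g
  rw [← Real.log_mul (by linarith) (by linarith)]
  have h4 : Real.log ((1 + t) * (1 - t)) ≤ 0 := by
    apply Real.log_nonpos
    · nlinarith
    · nlinarith [sq_nonneg t]
  have := log_two_pos
  linarith

theorem psi_lower {x : ℝ} (hx : |x| ≤ 1) :
    x ^ 2 / 2 + x ^ 4 / 12 + x ^ 6 / 30 + x ^ 8 / 56 + x ^ 10 / 90 ≤ psi x := by
  have hc : ConvexOn ℝ (Icc (-1) 1)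
      (fun x => psi x - (x ^ 2 / 2 + x ^ 4 / 12 + x ^ 6 / 30 + x ^ 8 / 56 + x ^ 10 / 90)) := by
    refine convexOn_Icc_of_deriv2
      (f' := fun x => L x - (x + x ^ 3 / 3 + x ^ 5 / 5 + x ^ 7 / 7 + x ^ 9 / 9))
      (f'' := fun x => 1 / (1 - x ^ 2) - (1 + x ^ 2 + x ^ 4 + x ^ 6 + x ^ 8)) ?_ ?_ ?_ ?_
    · exact (continuous_psi.sub (by fun_prop)).continuousOn
    · intro x hx
      have h1 : HasDerivAt (fun x : ℝ => x ^ 2 / 2 + x ^ 4 / 12 + x ^ 6 / 30 + x ^ 8 / 56
          + x ^ 10 / 90) (x + x ^ 3 / 3 + x ^ 5 / 5 + x ^ 7 / 7 + x ^ 9 / 9) x := by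
        have := ((((((hasDerivAt_pow 2 x).div_const 2).add ((hasDerivAt_pow 4 x).div_const 12)).add
          ((hasDerivAt_pow 6 x).div_const 30)).add ((hasDerivAt_pow 8 x).div_const 56)).add
          ((hasDerivAt_pow 10 x).div_const 90))
        refine this.congr_deriv ?_
        push_cast
        ring
      exact (hasDerivAt_psi hx).sub h1
    · intro x hx
      have h1 : HasDerivAt (fun x : ℝ => x + x ^ 3 / 3 + x ^ 5 / 5 + x ^ 7 / 7 + x ^ 9 / 9)
          (1 + x ^ 2 + x ^ 4 + x ^ 6 + x ^ 8) x := by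
        have := ((((((hasDerivAt_id x)).add ((hasDerivAt_pow 3 x).div_const 3)).add
          ((hasDerivAt_pow 5 x).div_const 5)).add ((hasDerivAt_pow 7 x).div_const 7)).add
          ((hasDerivAt_pow 9 x).div_const 9))
        refine this.congr_deriv ?_
        push_cast
        ring
      exact (hasDerivAt_L hx).sub h1
    · intro x hx
      have p := one_sub_sq_pos hx
      rw [sub_nonneg, le_div_iff₀ p]
      have : (0 : ℝ) ≤ x ^ 10 := by positivity
      nlinarith [this]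
  have := nonneg_of_even_convex hc
    (by intro x; simp only [psi_neg]; ring) (by simp [psi_zero]) hx
  linarith

end Vale.P322
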