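import Vale.Agent.P322.ScalarK

/-!
# P322: the scalar certificate A for `ρ² ∈ [16/25, 81/100]`
-/

namespace Vale.P322

open Finset

theorem hasSum_psi {x : ℝ} (hx : |x| < 1) :
    HasSum (fun k : ℕ => (x ^ 2) ^ (k + 1) / ((2 * k + 1) * (2 * k + 2))) (psi x) := by
  have h1 := Real.hasSum_log_sub_log_of_abs_lt_one hx
  have hx2 : |x ^ 2| < 1 := by
    rw [abs_pow]
    have := abs_nonneg x
    nlinarith
  have h2 := Real.hasSum_pow_div_log_of_abs_lt_one hx2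
  have h3 := (h1.mul_left (x / 2)).sub (h2.mul_left (1 / 2))
  obtain ⟨ha, hb⟩ := abs_lt.mp hx
  have e : x / 2 * (Real.log (1 + x) - Real.log (1 - x)) - 1 / 2 * -Real.log (1 - x ^ 2) =
      psi x := by
    rw [show (1 - x ^ 2 : ℝ) = (1 + x) * (1 - x) by ring,
      Real.log_mul (by linarith) (by linarith)]
    unfold psi
    ring
  rw [e] at h3
  refine h3.congr_fun ?_
  intro k
  have h5 : (2 * (k : ℝ) + 1) ≠ 0 := by positivity
  have h6 : ((k : ℝ) + 1) ≠ 0 := by positivity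
  have h7 : (2 * (k : ℝ) + 2) ≠ 0 := by positivity
  have e2 : x ^ (2 * k + 1) * x = (x ^ 2) ^ (k + 1) := by
    rw [← pow_succ, ← pow_mul]
    congr 1
  field_simp
  rw [← e2]
  ring

theorem psi_lower8 {x : ℝ} (hx : |x| < 1) :
    x ^ 2 / 2 + (x ^ 2) ^ 2 / 12 + (x ^ 2) ^ 3 / 30 + (x ^ 2) ^ 4 / 56 + (x ^ 2) ^ 5 / 90
      + (x ^ 2) ^ 6 / 132 + (x ^ 2) ^ 7 / 182 + (x ^ 2) ^ 8 / 240 ≤ psi x := by
  have h := sum_le_hasSum (Finset.range 8) (fun k _ => by positivity) (hasSum_psi hx)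
  refine le_trans (le_of_eq ?_) h
  simp only [Finset.sum_range_succ, Finset.sum_range_zero]
  norm_num

theorem B_upper8 {ρ : ℝ} (h1 : |ρ| < 1) : B ρ ≤ 1931472 / 10000000 * ρ ^ 2 -
    ((ρ ^ 2) ^ 2 / 12 + (ρ ^ 2) ^ 3 / 30 + (ρ ^ 2) ^ 4 / 56 + (ρ ^ 2) ^ 5 / 90
      + (ρ ^ 2) ^ 6 / 132 + (ρ ^ 2) ^ 7 / 182 + (ρ ^ 2) ^ 8 / 240) := by
  have h2 := psi_lower8 h1
  have h3 := Real.log_two_lt_d9
  have h4 : B ρ = ρ ^ 2 * Real.log 2 - psi ρ := by
    unfold B h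
    ring
  have h5 := mul_le_mul_of_nonneg_left h3.le (sq_nonneg ρ)
  have h6 := sq_nonneg ρ
  rw [h4]
  linarith

theorem alpha_poly {s : ℝ} (h1 : 16 / 25 ≤ s) (h2 : s ≤ 81 / 100) :
    (1931472 / 10000000 - (s / 12 + s ^ 2 / 30 + s ^ 3 / 56 + s ^ 4 / 90
      + s ^ 5 / 132 + s ^ 6 / 182 + s ^ 7 / 240)) * (3 - s) ≤ 197 / 200 * (1 - s) := by
  obtain ⟨x, rfl⟩ : ∃ x, s = 16 / 25 + x := ⟨s - 16 / 25, by ring⟩
  have hx : 0 ≤ x := by linarith
  have hy : 0 ≤ 17 / 100 - x := by linarith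
  nlinarith [pow_nonneg hy 8, mul_nonneg hx (pow_nonneg hy 7),
    mul_nonneg (pow_nonneg hx 2) (pow_nonneg hy 6), mul_nonneg (pow_nonneg hx 3) (pow_nonneg hy 5),
    mul_nonneg (pow_nonneg hx 4) (pow_nonneg hy 4), mul_nonneg (pow_nonneg hx 5) (pow_nonneg hy 3),
    mul_nonneg (pow_nonneg hx 6) (pow_nonneg hy 2), mul_nonneg (pow_nonneg hx 7) hy,
    pow_nonneg hx 8]

theorem scalar_A3 {ρ m d : ℝ} (h0 : 0 < ρ) (h1 : 16 / 25 ≤ ρ ^ 2) (h2 : ρ ^ 2 ≤ 81 / 100)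
    (hm0 : 9 / 10 ≤ m) (hm1 : m < 1) (hd0 : 0 ≤ d) (ht : d ≤ 3 / 10 * (1 - m ^ 2)) :
    CertA ρ m d := by
  have hρ1 : |ρ| < 1 := by
    rw [abs_of_pos h0]
    nlinarith
  have hm0' : 0 ≤ m := by linarith
  have hv : 0 < 1 - m ^ 2 := by nlinarith
  have hB0 := B_nonneg hρ1.le
  obtain ⟨-, hJ1⟩ := JS_bound hm0' hm1 hd0 ht
  obtain ⟨p, hp⟩ : ∃ p, p = (1 - m) / 2 := ⟨_, rfl⟩
  have hm : m = 1 - 2 * p := by rw [hp]; ring
  have hp0 : 0 < p := by rw [hp]; linarith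
  have hp1 : p ≤ 1 / 20 := by rw [hp]; linarith
  have hvp : 1 - m ^ 2 = 4 * p * (1 - p) := by rw [hm]; ring
  -- entropy
  have hh : 2583 / 2500 * (1 - m ^ 2) ≤ h m := by
    have e : h m = (1 - p) * (-Real.log (1 - p)) + p * (-Real.log p) := by
      unfold h psi
      rw [hm, show (1 + (1 - 2 * p) : ℝ) = 2 * (1 - p) by ring,
        show (1 - (1 - 2 * p) : ℝ) = 2 * p by ring,
        Real.log_mul (by norm_num) (by linarith), Real.log_mul (by norm_num) (by linarith)]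
      ring
    have h3 : p ≤ -Real.log (1 - p) := by
      have := Real.log_le_sub_one_of_pos (by linarith : (0 : ℝ) < 1 - p)
      linarith
    have h4 : 39957 / 10000 - 20 * p ≤ -Real.log p := by
      have h5 := Real.log_le_sub_one_of_pos (by linarith : (0 : ℝ) < 20 * p)
      rw [show (20 * p : ℝ) = 2 ^ 2 * 5 * p by ring, Real.log_mul (by norm_num) hp0.ne',
        Real.log_mul (by norm_num) (by norm_num), Real.log_pow] at h5
      have h6 := log_five_gt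
      have h7 := Real.log_two_gt_d9
      push_cast at h5
      linarith
    rw [e, hvp]
    have h8 := mul_le_mul_of_nonneg_left h3 (by linarith : (0 : ℝ) ≤ 1 - p)
    have h9 := mul_le_mul_of_nonneg_left h4 hp0.le
    nlinarith
  -- pair entropy
  have hhb : 197 / 200 * (1 - m ^ 2) ≤ hb (m + d) (m - d) := by
    have hd2 : d ^ 2 ≤ 9 / 100 * (1 - m ^ 2) ^ 2 := by
      have h1 := mul_le_mul ht ht hd0 (by positivity)
      linear_combination h1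
    have h3 : (1 - m ^ 2) * (h m - hb (m + d) (m - d)) ≤
        (1 - m ^ 2) * (241 / 5000 * (1 - m ^ 2)) := by
      refine le_trans hJ1 ?_
      have h4 : d ^ 2 * (1071 / 2000 - 213 / 8000 * (1 - m ^ 2)) ≤ d ^ 2 * (1071 / 2000) :=
        mul_le_mul_of_nonneg_left (by linarith) (sq_nonneg d)
      nlinarith
    have h4 := le_of_mul_le_mul_left h3 hv
    linarith
  -- the bracket
  have hC : 2 * (1 + m) ^ 2 * Real.log (2 / (1 + m)) ≤ (1 - m ^ 2) * (2 - p + p ^ 2) := by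
    have h3 := Real.abs_log_sub_add_sum_range_le (x := p) (by rw [abs_of_pos hp0]; linarith) 2
    rw [abs_of_pos hp0] at h3
    have h4 := (abs_le.mp h3).1
    simp only [Finset.sum_range_succ, Finset.sum_range_zero] at h4
    norm_num at h4
    have e : Real.log (2 / (1 + m)) = - Real.log (1 - p) := by
      rw [← Real.log_inv]
      congr 1
      rw [hm, inv_eq_one_div, div_eq_div_iff (by linarith) (by linarith)]
      ring
    have h5 : (1 - p) * (- Real.log (1 - p)) ≤ (1 - p) * (p + p ^ 2 / 2) + p ^ 3 := by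
      have h6 : - Real.log (1 - p) ≤ p + p ^ 2 / 2 + p ^ 3 / (1 - p) := by linarith
      have h7 := mul_le_mul_of_nonneg_left h6 (by linarith : (0 : ℝ) ≤ 1 - p)
      have h8 : (1 - p) * (p ^ 3 / (1 - p)) = p ^ 3 := by
        have hne : (1 - p) ≠ 0 := by linarith
        field_simp
      linarith
    rw [e, hvp]
    have h9 := mul_le_mul_of_nonneg_left h5 (by linarith : (0 : ℝ) ≤ 8 * (1 - p))
    have e2 : 2 * (1 + m) ^ 2 * (- Real.log (1 - p)) =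
        8 * (1 - p) * ((1 - p) * (- Real.log (1 - p))) := by
      rw [hm]; ring
    rw [e2]
    refine le_trans h9 (le_of_eq ?_)
    ring
  have hbr : 2 * (1 + m) ^ 2 * Real.log (2 / (1 + m)) + (1 - ρ ^ 2) * (1 - m ^ 2)
      + ρ ^ 2 * d ^ 2 ≤ (1 - m ^ 2) * (3 - ρ ^ 2) := by
    have hd2 : d ^ 2 ≤ 9 / 100 * (1 - m ^ 2) ^ 2 := by
      have h1 := mul_le_mul ht ht hd0 (by positivity)
      linear_combination h1
    have h3 : ρ ^ 2 * d ^ 2 ≤ 81 / 100 * (9 / 100 * (1 - m ^ 2) ^ 2) :=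
      mul_le_mul h2 hd2 (sq_nonneg d) (by norm_num)
    have h4 : 81 / 100 * (9 / 100 * (1 - m ^ 2) ^ 2) ≤ (1 - m ^ 2) * (p - p ^ 2) := by
      have e : 81 / 100 * (9 / 100 * (1 - m ^ 2) ^ 2) =
        (1 - m ^ 2) * (729 / 10000 * (1 - m ^ 2)) := by ring
      rw [e]
      refine mul_le_mul_of_nonneg_left ?_ hv.le
      rw [hvp]
      nlinarith
    nlinarith
  -- the bound for B
  have hB : B ρ * (3 - ρ ^ 2) ≤ 197 / 200 * (ρ ^ 2 * (1 - ρ ^ 2)) := by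
    have h3 := mul_le_mul_of_nonneg_right (B_upper8 hρ1) (by linarith : 0 ≤ 3 - ρ ^ 2)
    have h4 := mul_le_mul_of_nonneg_left (alpha_poly h1 h2) (sq_nonneg ρ)
    refine le_trans h3 ?_
    refine le_trans (le_of_eq ?_) (le_trans h4 (le_of_eq ?_))
    · ring
    · ring
  unfold CertA
  have hs : 0 ≤ ρ ^ 2 * (1 - ρ ^ 2) := mul_nonneg (sq_nonneg ρ) (by linarith)
  calc B ρ * (2 * (1 + m) ^ 2 * Real.log (2 / (1 + m)) + (1 - ρ ^ 2) * (1 - m ^ 2)
        + ρ ^ 2 * d ^ 2) ≤ B ρ * ((1 - m ^ 2) * (3 - ρ ^ 2)) :=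
        mul_le_mul_of_nonneg_left hbr hB0
    _ = (1 - m ^ 2) * (B ρ * (3 - ρ ^ 2)) := by ring
    _ ≤ (1 - m ^ 2) * (197 / 200 * (ρ ^ 2 * (1 - ρ ^ 2))) :=
        mul_le_mul_of_nonneg_left hB hv.le
    _ = ρ ^ 2 * (1 - ρ ^ 2) * (197 / 200 * (1 - m ^ 2)) := by ring
    _ ≤ ρ ^ 2 * (1 - ρ ^ 2) * hb (m + d) (m - d) := mul_le_mul_of_nonneg_left hhb hs

end Vale.P322
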