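import Vale.Agent.P322.Psi
import Vale.Agent.P322.TwoPoint
import Vale.Agent.P322.Bregman

/-! # P322, module M2, part B: the `Γ'` bound and the Cauchy–Schwarz bound -/

namespace Vale.P322

open Finset

/-- The Jensen–Shannon divergence of a pair in perspective form. -/
private theorem js_eq {M D : ℝ} (hMD : |M| + |D| ≤ 1) :
    h M - hb (M + D) (M - D)
      = (1 + M) / 2 * psi (D / (1 + M)) + (1 - M) / 2 * psi (D / (1 - M)) := by
  have h1 := psi_split hMD
  simp only [h, hb]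
  linarith

private theorem abs_mid {x y : ℝ} (hx : |x| ≤ 1) (hy : |y| ≤ 1) :
    |(x + y) / 2| + |(x - y) / 2| ≤ 1 := by
  rw [abs_le] at hx hy
  rcases abs_cases ((x + y) / 2) with ⟨h1, _⟩ | ⟨h1, _⟩ <;>
    rcases abs_cases ((x - y) / 2) with ⟨h2, _⟩ | ⟨h2, _⟩ <;> rw [h1, h2] <;> linarith

private theorem abs_div_le {a b : ℝ} (h : |a| ≤ b) : |a / b| ≤ 1 := by
  have hb : 0 ≤ b := le_trans (abs_nonneg _) h
  rw [abs_div, abs_of_nonneg hb]
  exact div_le_one_of_le₀ h hb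

/-- `D² ≤ 2 (1-M²) JS`. -/
private theorem js_ge {M D : ℝ} (hMD : |M| + |D| ≤ 1) :
    D ^ 2 ≤ 2 * (1 - M ^ 2) * (h M - hb (M + D) (M - D)) := by
  have hp : |D| ≤ 1 + M := by have := neg_abs_le M; linarith
  have hm : |D| ≤ 1 - M := by have := le_abs_self M; linarith
  have hp0 : 0 ≤ 1 + M := le_trans (abs_nonneg _) hp
  have hm0 : 0 ≤ 1 - M := le_trans (abs_nonneg _) hm
  rw [js_eq hMD]
  have h1 := half_sq_le_psi (abs_div_le hp)
  have h2 := half_sq_le_psi (abs_div_le hm)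
  rcases hp0.eq_or_lt with h3 | h3
  · have : D = 0 := by rw [← h3] at hp; exact abs_nonpos_iff.1 hp
    subst this
    have : (1 - M ^ 2) = 0 := by
      have : 1 - M ^ 2 = (1 + M) * (1 - M) := by ring
      rw [this, ← h3]; ring
    rw [this]; simp
  rcases hm0.eq_or_lt with h4 | h4
  · have : D = 0 := by rw [← h4] at hm; exact abs_nonpos_iff.1 hm
    subst this
    have : (1 - M ^ 2) = 0 := by
      have : 1 - M ^ 2 = (1 + M) * (1 - M) := by ring
      rw [this, ← h4]; ring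
    rw [this]; simp
  have e1 : (1 + M) / 2 * ((D / (1 + M)) ^ 2 / 2) + (1 - M) / 2 * ((D / (1 - M)) ^ 2 / 2)
      = D ^ 2 / (2 * ((1 + M) * (1 - M))) := by
    field_simp
    ring
  have e2 : D ^ 2 = 2 * (1 - M ^ 2) * (D ^ 2 / (2 * ((1 + M) * (1 - M)))) := by
    have : (1 - M ^ 2) = (1 + M) * (1 - M) := by ring
    rw [this]
    field_simp
  rw [e2, ← e1]
  have h5 : 0 ≤ 2 * (1 - M ^ 2) := by
    have : (1 - M ^ 2) = (1 + M) * (1 - M) := by ring
    rw [this]; positivity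
  apply mul_le_mul_of_nonneg_left _ h5
  apply add_le_add
  · exact mul_le_mul_of_nonneg_left h1 (by linarith)
  · exact mul_le_mul_of_nonneg_left h2 (by linarith)

/-- Cauchy–Schwarz bound -/
theorem E_CS {ι : Type*} (s : Finset ι) (w x y : ι → ℝ)
    (hw : ∀ i ∈ s, 0 ≤ w i) (hw1 : ∑ i ∈ s, w i = 1)
    (hx : ∀ i ∈ s, |x i| ≤ 1) (hy : ∀ i ∈ s, |y i| ≤ 1)
    {m d : ℝ} (ha : m + d = ∑ i ∈ s, w i * x i) (hb' : m - d = ∑ i ∈ s, w i * y i) :
    Real.log 2 / 2 * d ^ 2
      ≤ (∑ i ∈ s, w i * h ((x i + y i) / 2))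
        * ((∑ i ∈ s, w i * h ((x i + y i) / 2)) - ∑ i ∈ s, w i * hb (x i) (y i)) := by
  have hl : 0 < Real.log 2 := Real.log_pos (by norm_num)
  -- pointwise
  have key : ∀ i ∈ s, 0 ≤ h ((x i + y i) / 2) ∧ 0 ≤ h ((x i + y i) / 2) - hb (x i) (y i) ∧
      Real.log 2 / 2 * ((x i - y i) / 2) ^ 2
        ≤ h ((x i + y i) / 2) * (h ((x i + y i) / 2) - hb (x i) (y i)) := by
    intro i hi
    have hMD := abs_mid (hx i hi) (hy i hi)
    have hM : |(x i + y i) / 2| ≤ 1 := by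
      have := abs_nonneg ((x i - y i) / 2); linarith
    have h1 := js_ge hMD
    have ex : (x i + y i) / 2 + (x i - y i) / 2 = x i := by ring
    have ey : (x i + y i) / 2 - (x i - y i) / 2 = y i := by ring
    rw [ex, ey] at h1
    have h2 := h_ge hM
    have h3 := h_nonneg hM
    have hM2 : 0 ≤ 1 - ((x i + y i) / 2) ^ 2 := by
      have := (sq_le_one_iff_abs_le_one _).2 hM
      linarith
    have hJ : 0 ≤ h ((x i + y i) / 2) - hb (x i) (y i) := by
      have hJ' := js_eq hMD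
      rw [ex, ey] at hJ'
      rw [hJ']
      have hp : |(x i - y i) / 2| ≤ 1 + (x i + y i) / 2 := by
        have := neg_abs_le ((x i + y i) / 2); linarith
      have hm : |(x i - y i) / 2| ≤ 1 - (x i + y i) / 2 := by
        have := le_abs_self ((x i + y i) / 2); linarith
      have g1 := half_sq_le_psi (abs_div_le hp)
      have g2 := half_sq_le_psi (abs_div_le hm)
      have g3 : 0 ≤ psi ((x i - y i) / 2 / (1 + (x i + y i) / 2)) := le_trans (by positivity) g1
      have g4 : 0 ≤ psi ((x i - y i) / 2 / (1 - (x i + y i) / 2)) := le_trans (by positivity) g2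
      have g5 : 0 ≤ 1 + (x i + y i) / 2 := le_trans (abs_nonneg _) hp
      have g6 : 0 ≤ 1 - (x i + y i) / 2 := le_trans (abs_nonneg _) hm
      positivity
    refine ⟨h3, hJ, ?_⟩
    calc Real.log 2 / 2 * ((x i - y i) / 2) ^ 2
        ≤ Real.log 2 / 2 * (2 * (1 - ((x i + y i) / 2) ^ 2)
            * (h ((x i + y i) / 2) - hb (x i) (y i))) :=
          mul_le_mul_of_nonneg_left h1 (by positivity)
      _ = ((1 - ((x i + y i) / 2) ^ 2) * Real.log 2)
            * (h ((x i + y i) / 2) - hb (x i) (y i)) := by ring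
      _ ≤ _ := mul_le_mul_of_nonneg_right h2 hJ
  have hd : d = ∑ i ∈ s, w i * ((x i - y i) / 2) := by
    have : ∑ i ∈ s, w i * ((x i - y i) / 2)
        = (∑ i ∈ s, w i * x i - ∑ i ∈ s, w i * y i) / 2 := by
      rw [← Finset.sum_sub_distrib, Finset.sum_div]
      exact Finset.sum_congr rfl fun i _ => by ring
    rw [this, ← ha, ← hb']; ring
  have hJsum : (∑ i ∈ s, w i * h ((x i + y i) / 2)) - ∑ i ∈ s, w i * hb (x i) (y i)
      = ∑ i ∈ s, w i * (h ((x i + y i) / 2) - hb (x i) (y i)) := by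
    rw [← Finset.sum_sub_distrib]
    exact Finset.sum_congr rfl fun i _ => by ring
  rw [hJsum]
  have hCS := Finset.sum_sq_le_sum_mul_sum_of_sq_le_mul s
    (r := fun i => w i * Real.sqrt (h ((x i + y i) / 2) * (h ((x i + y i) / 2) - hb (x i) (y i))))
    (f := fun i => w i * h ((x i + y i) / 2))
    (g := fun i => w i * (h ((x i + y i) / 2) - hb (x i) (y i)))
    (fun i hi => mul_nonneg (hw i hi) (key i hi).1)
    (fun i hi => mul_nonneg (hw i hi) (key i hi).2.1)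
    (fun i hi => by
      rw [mul_pow, Real.sq_sqrt (mul_nonneg (key i hi).1 (key i hi).2.1)]; exact le_of_eq (by ring))
  refine le_trans ?_ hCS
  have h1 : Real.sqrt (Real.log 2 / 2) * |d|
      ≤ ∑ i ∈ s, w i * Real.sqrt (h ((x i + y i) / 2)
          * (h ((x i + y i) / 2) - hb (x i) (y i))) := by
    rw [hd]
    calc Real.sqrt (Real.log 2 / 2) * |∑ i ∈ s, w i * ((x i - y i) / 2)|
        ≤ Real.sqrt (Real.log 2 / 2) * ∑ i ∈ s, |w i * ((x i - y i) / 2)| :=
          mul_le_mul_of_nonneg_left (Finset.abs_sum_le_sum_abs _ _) (Real.sqrt_nonneg _)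
      _ = ∑ i ∈ s, w i * (Real.sqrt (Real.log 2 / 2) * |(x i - y i) / 2|) := by
          rw [Finset.mul_sum]
          refine Finset.sum_congr rfl fun i hi => ?_
          rw [abs_mul, abs_of_nonneg (hw i hi)]; ring
      _ ≤ _ := by
          refine Finset.sum_le_sum fun i hi => mul_le_mul_of_nonneg_left ?_ (hw i hi)
          apply Real.le_sqrt_of_sq_le
          rw [mul_pow, Real.sq_sqrt (by positivity), sq_abs]
          exact (key i hi).2.2
  calc Real.log 2 / 2 * d ^ 2 = (Real.sqrt (Real.log 2 / 2) * |d|) ^ 2 := by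
        rw [mul_pow, Real.sq_sqrt (by positivity), sq_abs]
    _ ≤ _ := pow_le_pow_left₀ (by positivity) h1 2

/-- the quadratic part: `D²/(4(1+M)) + D²/(4(1-M)) ≥ c D - c² (1-M²)/2` -/
private theorem quad_ge {M D : ℝ} (hMD : |M| + |D| ≤ 1) (c : ℝ) :
    c * D - c ^ 2 * (1 - M ^ 2) / 2
      ≤ (1 + M) / 2 * ((D / (1 + M)) ^ 2 / 2) + (1 - M) / 2 * ((D / (1 - M)) ^ 2 / 2) := by
  have hp : |D| ≤ 1 + M := by have := neg_abs_le M; linarith
  have hm : |D| ≤ 1 - M := by have := le_abs_self M; linarith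
  have hp0 : 0 ≤ 1 + M := le_trans (abs_nonneg _) hp
  have hm0 : 0 ≤ 1 - M := le_trans (abs_nonneg _) hm
  have hfac : (1 - M ^ 2) = (1 + M) * (1 - M) := by ring
  rcases hp0.eq_or_lt with h3 | h3
  · have : D = 0 := by rw [← h3] at hp; exact abs_nonpos_iff.1 hp
    subst this
    rw [hfac, ← h3]; simp
  rcases hm0.eq_or_lt with h4 | h4
  · have : D = 0 := by rw [← h4] at hm; exact abs_nonpos_iff.1 hm
    subst this
    rw [hfac, ← h4]; simp
  have e1 : (1 + M) / 2 * ((D / (1 + M)) ^ 2 / 2) + (1 - M) / 2 * ((D / (1 - M)) ^ 2 / 2)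
      = D ^ 2 / (2 * ((1 + M) * (1 - M))) := by
    field_simp
    ring
  rw [e1, hfac, le_div_iff₀ (by positivity)]
  nlinarith [sq_nonneg (D - c * ((1 + M) * (1 - M)))]

/-- the quadratic part at the mean -/
private theorem quad_eq {m d : ℝ} (hm0 : 0 ≤ m) (hm1 : m < 1) :
    (1 + m) / 2 * ((d / (1 + m)) ^ 2 / 2) + (1 - m) / 2 * ((d / (1 - m)) ^ 2 / 2)
      = d ^ 2 / (2 * (1 - m ^ 2)) := by
  have h1 : 0 < 1 + m := by linarith
  have h2 : 0 < 1 - m := by linarith
  have hfac : (1 - m ^ 2) = (1 + m) * (1 - m) := by ring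
  rw [hfac]
  field_simp
  ring

/-- the `Γ'` bound -/
theorem E_gamma {ι : Type*} (s : Finset ι) (w x y : ι → ℝ)
    (hw : ∀ i ∈ s, 0 ≤ w i) (hw1 : ∑ i ∈ s, w i = 1)
    (hx : ∀ i ∈ s, |x i| ≤ 1) (hy : ∀ i ∈ s, |y i| ≤ 1)
    {m d : ℝ} (ha : m + d = ∑ i ∈ s, w i * x i) (hb' : m - d = ∑ i ∈ s, w i * y i)
    (hm0 : 0 ≤ m) (hm1 : m < 1) :
    (h m - ∑ i ∈ s, w i * h ((x i + y i) / 2))
        * (d ^ 2 + 2 * (1 + m) ^ 2 * Real.log (2 / (1 + m)))
      ≤ (hb (m + d) (m - d) - ∑ i ∈ s, w i * hb (x i) (y i))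
        * (2 * (1 + m) ^ 2 * Real.log (2 / (1 + m))) := by
  -- midpoint / half-difference
  obtain ⟨M, hM⟩ : ∃ M : ι → ℝ, M = fun i => (x i + y i) / 2 := ⟨_, rfl⟩
  obtain ⟨D, hD⟩ : ∃ D : ι → ℝ, D = fun i => (x i - y i) / 2 := ⟨_, rfl⟩
  have hMD : ∀ i ∈ s, |M i| + |D i| ≤ 1 := by
    intro i hi; rw [hM, hD]; exact abs_mid (hx i hi) (hy i hi)
  have ex : ∀ i, M i + D i = x i := by intro i; rw [hM, hD]; ring
  have ey : ∀ i, M i - D i = y i := by intro i; rw [hM, hD]; ring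
  have hMi : ∀ i, (x i + y i) / 2 = M i := by intro i; rw [hM]
  have hEM : ∑ i ∈ s, w i * M i = m := by
    have : ∑ i ∈ s, w i * M i = (∑ i ∈ s, w i * x i + ∑ i ∈ s, w i * y i) / 2 := by
      rw [← Finset.sum_add_distrib, Finset.sum_div]
      exact Finset.sum_congr rfl fun i _ => by rw [hM]; ring
    rw [this, ← ha, ← hb']; ring
  have hED : ∑ i ∈ s, w i * D i = d := by
    have : ∑ i ∈ s, w i * D i = (∑ i ∈ s, w i * x i - ∑ i ∈ s, w i * y i) / 2 := by
      rw [← Finset.sum_sub_distrib, Finset.sum_div]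
      exact Finset.sum_congr rfl fun i _ => by rw [hD]; ring
    rw [this, ← ha, ← hb']; ring
  have hp : ∀ i ∈ s, |D i| ≤ 1 + M i := fun i hi => by
    have := neg_abs_le (M i); have := hMD i hi; linarith
  have hm : ∀ i ∈ s, |D i| ≤ 1 - M i := fun i hi => by
    have := le_abs_self (M i); have := hMD i hi; linarith
  simp only [hMi]
  -- variance
  obtain ⟨V, hV⟩ : ∃ V, V = ∑ i ∈ s, w i * (M i - m) ^ 2 := ⟨_, rfl⟩
  have hV0 : 0 ≤ V := by
    rw [hV]; exact Finset.sum_nonneg fun i hi => mul_nonneg (hw i hi) (sq_nonneg _)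
  have hEM2 : ∑ i ∈ s, w i * (1 - M i ^ 2) = 1 - m ^ 2 - V := by
    have h1 : ∑ i ∈ s, w i * (M i - m) ^ 2
        = ∑ i ∈ s, w i * M i ^ 2 - 2 * m * ∑ i ∈ s, w i * M i + m ^ 2 * ∑ i ∈ s, w i := by
      rw [Finset.mul_sum, Finset.mul_sum, ← Finset.sum_sub_distrib, ← Finset.sum_add_distrib]
      exact Finset.sum_congr rfl fun i _ => by ring
    have h2 : ∑ i ∈ s, w i * (1 - M i ^ 2) = ∑ i ∈ s, w i - ∑ i ∈ s, w i * M i ^ 2 := by
      rw [← Finset.sum_sub_distrib]
      exact Finset.sum_congr rfl fun i _ => by ring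
    rw [h2, hV, h1, hEM, hw1]; ring
  -- perspective Jensen, plus side
  have hfun : ∀ t, psi t = (fun t => psi t - t ^ 2 / 2) t + t ^ 2 / 2 := fun t => by ring
  have jp := perspective_jensen s w (fun i => (1 + M i) / 2) (fun i => D i / 2)
    convexOn_psi_sub_sq hw
    (fun i hi => by have := le_trans (abs_nonneg _) (hp i hi); linarith)
    (fun i hi => by
      rw [abs_div, abs_of_pos (by norm_num : (0:ℝ) < 2)]
      have := hp i hi; linarith)
  have jm := perspective_jensen s w (fun i => (1 - M i) / 2) (fun i => D i / 2)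
    convexOn_psi_sub_sq hw
    (fun i hi => by have := le_trans (abs_nonneg _) (hm i hi); linarith)
    (fun i hi => by
      rw [abs_div, abs_of_pos (by norm_num : (0:ℝ) < 2)]
      have := hm i hi; linarith)
  have sp : ∑ i ∈ s, w i * ((1 + M i) / 2) = (1 + m) / 2 := by
    have : ∑ i ∈ s, w i * ((1 + M i) / 2) = (∑ i ∈ s, w i + ∑ i ∈ s, w i * M i) / 2 := by
      rw [← Finset.sum_add_distrib, Finset.sum_div]
      exact Finset.sum_congr rfl fun i _ => by ring
    rw [this, hw1, hEM]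
  have sm : ∑ i ∈ s, w i * ((1 - M i) / 2) = (1 - m) / 2 := by
    have : ∑ i ∈ s, w i * ((1 - M i) / 2) = (∑ i ∈ s, w i - ∑ i ∈ s, w i * M i) / 2 := by
      rw [← Finset.sum_sub_distrib, Finset.sum_div]
      exact Finset.sum_congr rfl fun i _ => by ring
    rw [this, hw1, hEM]
  have sd : ∑ i ∈ s, w i * (D i / 2) = d / 2 := by
    rw [← hED, Finset.sum_div]
    exact Finset.sum_congr rfl fun i _ => by ring
  rw [sp, sd] at jp
  rw [sm, sd] at jm
  have eh : ∀ a b : ℝ, (a / 2) / (b / 2) = a / b := fun a b => by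
    rw [div_div_div_cancel_right₀ (by norm_num)]
  simp only [eh] at jp jm
  -- JS in perspective form
  have hmd : |m| + |d| ≤ 1 := by
    have h1 : |m + d| ≤ 1 := by
      rw [ha]
      calc |∑ i ∈ s, w i * x i| ≤ ∑ i ∈ s, |w i * x i| := Finset.abs_sum_le_sum_abs _ _
        _ ≤ ∑ i ∈ s, w i := Finset.sum_le_sum fun i hi => by
            rw [abs_mul, abs_of_nonneg (hw i hi)]
            exact mul_le_of_le_one_right (hw i hi) (hx i hi)
        _ = 1 := hw1
    have h2 : |m - d| ≤ 1 := by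
      rw [hb']
      calc |∑ i ∈ s, w i * y i| ≤ ∑ i ∈ s, |w i * y i| := Finset.abs_sum_le_sum_abs _ _
        _ ≤ ∑ i ∈ s, w i := Finset.sum_le_sum fun i hi => by
            rw [abs_mul, abs_of_nonneg (hw i hi)]
            exact mul_le_of_le_one_right (hw i hi) (hy i hi)
        _ = 1 := hw1
    have h3 := abs_mid h1 h2
    have e1 : (m + d + (m - d)) / 2 = m := by ring
    have e2 : (m + d - (m - d)) / 2 = d := by ring
    rwa [e1, e2] at h3
  have J0 := js_eq hmd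
  have Ji : ∀ i, i ∈ s → h (M i) - hb (x i) (y i)
      = (1 + M i) / 2 * psi (D i / (1 + M i)) + (1 - M i) / 2 * psi (D i / (1 - M i)) := by
    intro i hi
    have := js_eq (hMD i hi)
    rwa [ex, ey] at this
  -- main lower bound for E JS - JS
  have hv : 0 < 1 - m ^ 2 := by nlinarith
  obtain ⟨c, hc⟩ : ∃ c, c = d / (1 - m ^ 2) := ⟨_, rfl⟩
  have hquad : c * d - c ^ 2 * (1 - m ^ 2 - V) / 2
      ≤ ∑ i ∈ s, w i * ((1 + M i) / 2 * ((D i / (1 + M i)) ^ 2 / 2)
          + (1 - M i) / 2 * ((D i / (1 - M i)) ^ 2 / 2)) := by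
    calc c * d - c ^ 2 * (1 - m ^ 2 - V) / 2
        = ∑ i ∈ s, w i * (c * D i - c ^ 2 * (1 - M i ^ 2) / 2) := by
          rw [← hED, ← hEM2, Finset.mul_sum, Finset.mul_sum, Finset.sum_div,
            ← Finset.sum_sub_distrib]
          exact Finset.sum_congr rfl fun i _ => by ring
      _ ≤ _ := Finset.sum_le_sum fun i hi =>
          mul_le_mul_of_nonneg_left (quad_ge (hMD i hi) c) (hw i hi)
  have hJS : d ^ 2 / (2 * (1 - m ^ 2) ^ 2) * V
      ≤ (∑ i ∈ s, w i * (h (M i) - hb (x i) (y i))) - (h m - hb (m + d) (m - d)) := by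
    have e1 : ∑ i ∈ s, w i * (h (M i) - hb (x i) (y i))
        = (∑ i ∈ s, w i * ((1 + M i) / 2 * (psi (D i / (1 + M i)) - (D i / (1 + M i)) ^ 2 / 2)))
          + (∑ i ∈ s, w i * ((1 - M i) / 2 * (psi (D i / (1 - M i)) - (D i / (1 - M i)) ^ 2 / 2)))
          + ∑ i ∈ s, w i * ((1 + M i) / 2 * ((D i / (1 + M i)) ^ 2 / 2)
          + (1 - M i) / 2 * ((D i / (1 - M i)) ^ 2 / 2)) := by
      rw [← Finset.sum_add_distrib, ← Finset.sum_add_distrib]
      exact Finset.sum_congr rfl fun i hi => by rw [Ji i hi]; ring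
    have e2 := quad_eq (d := d) hm0 hm1
    have e3 : c * d - c ^ 2 * (1 - m ^ 2 - V) / 2
        = d ^ 2 / (2 * (1 - m ^ 2)) + d ^ 2 / (2 * (1 - m ^ 2) ^ 2) * V := by
      rw [hc]
      field_simp
      ring
    rw [e1, J0]
    linarith
  -- Bregman bound
  have hP : (1 - m) ^ 2 * (h m - ∑ i ∈ s, w i * h (M i)) ≤ Real.log (2 / (1 + m)) * V := by
    have e1 : (1 - m) ^ 2 * (h m - ∑ i ∈ s, w i * h (M i))
        = ∑ i ∈ s, w i * ((1 - m) ^ 2 * (psi (M i) - psi m - (M i - m) * L m)) := by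
      have h1 : ∑ i ∈ s, w i * ((1 - m) ^ 2 * (psi (M i) - psi m - (M i - m) * L m))
          = (1 - m) ^ 2 * (∑ i ∈ s, w i * psi (M i) - (psi m) * ∑ i ∈ s, w i
            - L m * (∑ i ∈ s, w i * M i - m * ∑ i ∈ s, w i)) := by
        rw [Finset.mul_sum, Finset.mul_sum, ← Finset.sum_sub_distrib, ← Finset.sum_sub_distrib,
          Finset.mul_sum, ← Finset.sum_sub_distrib, Finset.mul_sum]
        exact Finset.sum_congr rfl fun i _ => by ring
      have h2 : ∑ i ∈ s, w i * h (M i)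
          = Real.log 2 * ∑ i ∈ s, w i - ∑ i ∈ s, w i * psi (M i) := by
        rw [Finset.mul_sum, ← Finset.sum_sub_distrib]
        exact Finset.sum_congr rfl fun i _ => by rw [h]; ring
      rw [h1, h2, hw1, hEM, h]; ring
    rw [e1, hV, Finset.mul_sum]
    refine Finset.sum_le_sum fun i hi => ?_
    have h1 : |M i| ≤ 1 := by
      have := hMD i hi; have := abs_nonneg (D i); linarith
    have h2 := mul_le_mul_of_nonneg_left (bregman_le hm0 hm1 h1) (hw i hi)
    linarith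
  -- conclusion
  have hΛ : 0 < Real.log (2 / (1 + m)) := by
    apply Real.log_pos
    rw [lt_div_iff₀ (by linarith)]; linarith
  generalize Real.log (2 / (1 + m)) = Λ at hP hΛ ⊢
  obtain ⟨P, hPdef⟩ : ∃ P, P = h m - ∑ i ∈ s, w i * h (M i) := ⟨_, rfl⟩
  rw [← hPdef] at hP ⊢
  have hsum : ∑ i ∈ s, w i * (h (M i) - hb (x i) (y i))
      = ∑ i ∈ s, w i * h (M i) - ∑ i ∈ s, w i * hb (x i) (y i) := by
    rw [← Finset.sum_sub_distrib]
    exact Finset.sum_congr rfl fun i _ => by ring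
  rw [hsum] at hJS
  have hQ : P + d ^ 2 / (2 * (1 - m ^ 2) ^ 2) * V
      ≤ hb (m + d) (m - d) - ∑ i ∈ s, w i * hb (x i) (y i) := by
    rw [hPdef]; linarith
  have hC : 0 ≤ 2 * (1 + m) ^ 2 * Λ := by positivity
  have h1 := mul_le_mul_of_nonneg_right hQ hC
  have h2 : P * d ^ 2 ≤ d ^ 2 / (2 * (1 - m ^ 2) ^ 2) * V * (2 * (1 + m) ^ 2 * Λ) := by
    have h3 : 0 < (1 - m) ^ 2 := by
      have : 0 < 1 - m := by linarith
      positivity
    have h4 : d ^ 2 / (2 * (1 - m ^ 2) ^ 2) * V * (2 * (1 + m) ^ 2 * Λ)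
        = d ^ 2 * (Λ * V / (1 - m) ^ 2) := by
      have h5 : (1 - m ^ 2) = (1 + m) * (1 - m) := by ring
      have h6 : 0 < 1 + m := by linarith
      have h7 : 0 < 1 - m := by linarith
      rw [h5]
      field_simp
    rw [h4]
    have h5 : P ≤ Λ * V / (1 - m) ^ 2 := by
      rw [le_div_iff₀ h3]; linarith
    have := mul_le_mul_of_nonneg_left h5 (sq_nonneg d)
    linarith
  linarith

end Vale.P322
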