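import Vale.Agent.P322.Psi
import Vale.Agent.P322.TwoPoint

/-!
# P322: E_JS and hr_lower_four (module M2, second part)
-/

namespace Vale.P322

open Finset

lemma js_split {x y : ℝ} (hx : |x| ≤ 1) (hy : |y| ≤ 1) :
    h ((x + y) / 2) - hb x y
      = (1 + (x + y) / 2) / 2 * psi ((x - y) / 2 / (1 + (x + y) / 2))
        + (1 - (x + y) / 2) / 2 * psi ((x - y) / 2 / (1 - (x + y) / 2)) := by
  obtain ⟨hx1, hx2⟩ := abs_le.mp hx
  obtain ⟨hy1, hy2⟩ := abs_le.mp hy
  have hs := psi_split (m := (x + y) / 2) (d := (x - y) / 2) (by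
    rcases abs_cases ((x + y) / 2) with ⟨h1, _⟩ | ⟨h1, _⟩ <;>
    rcases abs_cases ((x - y) / 2) with ⟨h2, _⟩ | ⟨h2, _⟩ <;> rw [h1, h2] <;> linarith)
  rw [show (x + y) / 2 + (x - y) / 2 = x by ring, show (x + y) / 2 - (x - y) / 2 = y by ring] at hs
  unfold hb h
  linarith

theorem E_JS {ι : Type*} (s : Finset ι) (w x y : ι → ℝ)
    (hw : ∀ i ∈ s, 0 ≤ w i) (hw1 : ∑ i ∈ s, w i = 1)
    (hx : ∀ i ∈ s, |x i| ≤ 1) (hy : ∀ i ∈ s, |y i| ≤ 1)
    {a b : ℝ} (ha : a = ∑ i ∈ s, w i * x i) (hb' : b = ∑ i ∈ s, w i * y i) :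
    h ((a + b) / 2) - hb a b
      ≤ (∑ i ∈ s, w i * h ((x i + y i) / 2)) - ∑ i ∈ s, w i * hb (x i) (y i) := by
  have hP := perspective_jensen s w (fun i => 1 + (x i + y i) / 2) (fun i => (x i - y i) / 2)
    convexOn_psi hw
    (fun i hi => by
      have h1 := abs_le.mp (hx i hi); have h2 := abs_le.mp (hy i hi); linarith [h1.1, h2.1])
    (fun i hi => by
      have h1 := abs_le.mp (hx i hi); have h2 := abs_le.mp (hy i hi)
      rw [abs_le]; constructor <;> linarith [h1.1, h1.2, h2.1, h2.2])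
  have hM := perspective_jensen s w (fun i => 1 - (x i + y i) / 2) (fun i => (x i - y i) / 2)
    convexOn_psi hw
    (fun i hi => by
      have h1 := abs_le.mp (hx i hi); have h2 := abs_le.mp (hy i hi); linarith [h1.2, h2.2])
    (fun i hi => by
      have h1 := abs_le.mp (hx i hi); have h2 := abs_le.mp (hy i hi)
      rw [abs_le]; constructor <;> linarith [h1.1, h1.2, h2.1, h2.2])
  have s1 : ∑ i ∈ s, w i * (1 + (x i + y i) / 2) = 1 + (a + b) / 2 := by
    calc ∑ i ∈ s, w i * (1 + (x i + y i) / 2)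
        = ∑ i ∈ s, (w i + (w i * x i) / 2 + (w i * y i) / 2) := by
          apply sum_congr rfl; intro i _; ring
      _ = _ := by
          rw [sum_add_distrib, sum_add_distrib, ← sum_div, ← sum_div, hw1, ← ha, ← hb']; ring
  have s2 : ∑ i ∈ s, w i * (1 - (x i + y i) / 2) = 1 - (a + b) / 2 := by
    calc ∑ i ∈ s, w i * (1 - (x i + y i) / 2)
        = ∑ i ∈ s, (w i - (w i * x i) / 2 - (w i * y i) / 2) := by
          apply sum_congr rfl; intro i _; ring
      _ = _ := by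
          rw [sum_sub_distrib, sum_sub_distrib, ← sum_div, ← sum_div, hw1, ← ha, ← hb']; ring
  have s3 : ∑ i ∈ s, w i * ((x i - y i) / 2) = (a - b) / 2 := by
    calc ∑ i ∈ s, w i * ((x i - y i) / 2)
        = ∑ i ∈ s, ((w i * x i) / 2 - (w i * y i) / 2) := by
          apply sum_congr rfl; intro i _; ring
      _ = _ := by
          rw [sum_sub_distrib, ← sum_div, ← sum_div, ← ha, ← hb']; ring
  have habs : ∀ z : ι → ℝ, (∀ i ∈ s, |z i| ≤ 1) → |∑ i ∈ s, w i * z i| ≤ 1 := by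
    intro z hz
    calc |∑ i ∈ s, w i * z i| ≤ ∑ i ∈ s, |w i * z i| := abs_sum_le_sum_abs _ _
      _ ≤ ∑ i ∈ s, w i := by
          apply sum_le_sum
          intro i hi
          rw [abs_mul, abs_of_nonneg (hw i hi)]
          exact mul_le_of_le_one_right (hw i hi) (hz i hi)
      _ = 1 := hw1
  have ha1 : |a| ≤ 1 := by rw [ha]; exact habs x hx
  have hb1 : |b| ≤ 1 := by rw [hb']; exact habs y hy
  rw [s1, s3] at hP
  rw [s2, s3] at hM
  rw [js_split ha1 hb1, ← sum_sub_distrib]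
  have e : ∑ i ∈ s, (w i * h ((x i + y i) / 2) - w i * hb (x i) (y i))
      = (∑ i ∈ s, w i * ((1 + (x i + y i) / 2) * psi ((x i - y i) / 2 / (1 + (x i + y i) / 2)))) / 2
        + (∑ i ∈ s, w i * ((1 - (x i + y i) / 2)
            * psi ((x i - y i) / 2 / (1 - (x i + y i) / 2)))) / 2 := by
    rw [sum_div, sum_div, ← sum_add_distrib]
    apply sum_congr rfl
    intro i hi
    rw [← mul_sub, js_split (hx i hi) (hy i hi)]
    ring
  rw [e]
  linarith

theorem hr_lower_four {ρ m d : ℝ} (h0 : 0 ≤ ρ) (h1 : ρ ≤ 1) (hm : |m| < 1)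
    (hmd : |m| + |d| ≤ 1) :
    h m - ρ ^ 4 * (h m - hb (m + d) (m - d))
        - ρ ^ 2 * (1 - ρ ^ 2) * (d ^ 2 / (2 * (1 - m ^ 2)))
      ≤ hr ρ (m + d) (m - d) := by
  obtain ⟨hm1, hm2⟩ := abs_lt.mp hm
  have hp : 0 < 1 + m := by linarith
  have hq : 0 < 1 - m := by linarith
  have hρd : |m| + |ρ * d| ≤ 1 := by
    rw [abs_mul, abs_of_nonneg h0]
    have := mul_le_of_le_one_left (abs_nonneg d) h1
    linarith
  have s1 := psi_split hmd
  have s2 := psi_split hρd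
  have a1 : |d / (1 + m)| ≤ 1 := by
    rw [abs_div, abs_of_pos hp, div_le_one hp]
    have := neg_abs_le m
    linarith
  have a2 : |d / (1 - m)| ≤ 1 := by
    rw [abs_div, abs_of_pos hq, div_le_one hq]
    have := le_abs_self m
    linarith
  have f1 := psi_mul_le_four h0 h1 a1
  have f2 := psi_mul_le_four h0 h1 a2
  rw [← mul_div_assoc] at f1 f2
  have g1 := mul_le_mul_of_nonneg_left f1 (by linarith : (0:ℝ) ≤ (1 + m) / 2)
  have g2 := mul_le_mul_of_nonneg_left f2 (by linarith : (0:ℝ) ≤ (1 - m) / 2)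
  have e : (1 + m) / 2 * ((ρ ^ 2 - ρ ^ 4) * ((d / (1 + m)) ^ 2 / 2))
      + (1 - m) / 2 * ((ρ ^ 2 - ρ ^ 4) * ((d / (1 - m)) ^ 2 / 2))
      = ρ ^ 2 * (1 - ρ ^ 2) * (d ^ 2 / (2 * (1 - m ^ 2))) := by
    have : 1 - m ^ 2 ≠ 0 := by nlinarith
    rw [show 1 - m ^ 2 = (1 + m) * (1 - m) by ring]
    field_simp
    ring
  have e2 : hr ρ (m + d) (m - d) = Real.log 2 - (psi (m + ρ * d) + psi (m - ρ * d)) / 2 := by
    unfold hr h
    rw [show (1 + ρ) / 2 * (m + d) + (1 - ρ) / 2 * (m - d) = m + ρ * d by ring,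
      show (1 - ρ) / 2 * (m + d) + (1 + ρ) / 2 * (m - d) = m - ρ * d by ring]
    ring
  have e3 : h m - hb (m + d) (m - d)
      = (1 + m) / 2 * psi (d / (1 + m)) + (1 - m) / 2 * psi (d / (1 - m)) := by
    unfold hb h
    linarith
  rw [e2, e3, s2]
  unfold h
  linarith [g1, g2, e]

end Vale.P322
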