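import Vale.Agent.P322.TwoPoint

/-! # P322, module M2: the two-point strong data processing inequality -/

namespace Vale.P322

open Finset

theorem hr_rep {ρ x y : ℝ} (h0 : 0 ≤ ρ) (h1 : ρ ≤ 1) (hx : |x| ≤ 1) (hy : |y| ≤ 1) :
    hr ρ x y - ρ ^ 2 * hb x y - (1 - ρ ^ 2) * h ((x + y) / 2)
      = ((1 + (x + y) / 2) * (ρ ^ 2 * psi (((x - y) / 2) / (1 + (x + y) / 2))
            - psi (ρ * (((x - y) / 2) / (1 + (x + y) / 2))))) / 2
        + ((1 - (x + y) / 2) * (ρ ^ 2 * psi (((x - y) / 2) / (1 - (x + y) / 2))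
            - psi (ρ * (((x - y) / 2) / (1 - (x + y) / 2))))) / 2 := by
  obtain ⟨hx1, hx2⟩ := abs_le.1 hx
  obtain ⟨hy1, hy2⟩ := abs_le.1 hy
  set m := (x + y) / 2 with hm
  set d := (x - y) / 2 with hd
  have ex : x = m + d := by rw [hm, hd]; ring
  have ey : y = m - d := by rw [hm, hd]; ring
  have hmd : |m| + |d| ≤ 1 := by
    rcases abs_cases m with ⟨e1, _⟩ | ⟨e1, _⟩ <;> rcases abs_cases d with ⟨e2, _⟩ | ⟨e2, _⟩ <;>
      rw [e1, e2] <;> rw [hm, hd] <;> linarith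
  have hmd' : |m| + |ρ * d| ≤ 1 := by
    rw [abs_mul, abs_of_nonneg h0]
    nlinarith [abs_nonneg d]
  have s1 := psi_split hmd
  have s2 := psi_split hmd'
  have f1 : (1 + ρ) / 2 * x + (1 - ρ) / 2 * y = m + ρ * d := by rw [hm, hd]; ring
  have f2 : (1 - ρ) / 2 * x + (1 + ρ) / 2 * y = m - ρ * d := by rw [hm, hd]; ring
  unfold hr hb
  rw [f1, f2, show ρ * (d / (1 + m)) = ρ * d / (1 + m) by ring,
    show ρ * (d / (1 - m)) = ρ * d / (1 - m) by ring]
  rw [show h x = h (m + d) by rw [← ex], show h y = h (m - d) by rw [← ey]]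
  unfold h
  linear_combination (-1) * s2 + ρ ^ 2 * s1

theorem hr_ge {ρ x y : ℝ} (h0 : 0 ≤ ρ) (h1 : ρ ≤ 1) (hx : |x| ≤ 1) (hy : |y| ≤ 1) :
    ρ ^ 2 * hb x y + (1 - ρ ^ 2) * h ((x + y) / 2) ≤ hr ρ x y := by
  obtain ⟨hx1, hx2⟩ := abs_le.1 hx
  obtain ⟨hy1, hy2⟩ := abs_le.1 hy
  have hrep := hr_rep h0 h1 hx hy
  have key : ∀ p r : ℝ, 0 ≤ p → |r| ≤ p → 0 ≤ p * (ρ ^ 2 * psi (r / p) - psi (ρ * (r / p))) := by
    intro p r hp hr
    apply mul_nonneg hp
    have : |r / p| ≤ 1 := by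
      rcases hp.eq_or_lt with h0 | h0
      · rw [← h0, div_zero, abs_zero]; norm_num
      · rw [abs_div, abs_of_pos h0, div_le_one h0]
        exact hr
    have := psi_mul_le h0 h1 this
    linarith
  have k1 := key (1 + (x + y) / 2) ((x - y) / 2) (by linarith) (abs_le.2 ⟨by linarith, by linarith⟩)
  have k2 := key (1 - (x + y) / 2) ((x - y) / 2) (by linarith) (abs_le.2 ⟨by linarith, by linarith⟩)
  linarith

/-- relative form of the two-point SDPI, averaged -/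
theorem E_hr_ge {ι : Type*} (s : Finset ι) (w x y : ι → ℝ) {ρ : ℝ} (h0 : 0 ≤ ρ) (h1 : ρ ≤ 1)
    (hw : ∀ i ∈ s, 0 ≤ w i) (hw1 : ∑ i ∈ s, w i = 1)
    (hx : ∀ i ∈ s, |x i| ≤ 1) (hy : ∀ i ∈ s, |y i| ≤ 1)
    {a b : ℝ} (ha : a = ∑ i ∈ s, w i * x i) (hb' : b = ∑ i ∈ s, w i * y i) :
    ρ ^ 2 * (∑ i ∈ s, w i * hb (x i) (y i)) + (1 - ρ ^ 2) * (∑ i ∈ s, w i * h ((x i + y i) / 2))
        + (hr ρ a b - ρ ^ 2 * hb a b - (1 - ρ ^ 2) * h ((a + b) / 2))
      ≤ ∑ i ∈ s, w i * hr ρ (x i) (y i) := by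
  have bd : ∀ z : ι → ℝ, (∀ i ∈ s, |z i| ≤ 1) → |∑ i ∈ s, w i * z i| ≤ 1 := by
    intro z hz
    calc |∑ i ∈ s, w i * z i| ≤ ∑ i ∈ s, |w i * z i| := Finset.abs_sum_le_sum_abs _ _
      _ ≤ ∑ i ∈ s, w i := by
          apply Finset.sum_le_sum
          intro i hi
          rw [abs_mul, abs_of_nonneg (hw i hi)]
          exact mul_le_of_le_one_right (hw i hi) (hz i hi)
      _ = 1 := hw1
  have hA : |a| ≤ 1 := by rw [ha]; exact bd x hx
  have hB : |b| ≤ 1 := by rw [hb']; exact bd y hy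
  rw [hr_rep h0 h1 hA hB]
  have hq := convexOn_q h0 h1
  have j1 := perspective_jensen s w (fun i => 1 + (x i + y i) / 2) (fun i => (x i - y i) / 2)
    hq hw
    (fun i hi => by
      have := abs_le.1 (hx i hi); have := abs_le.1 (hy i hi); linarith)
    (fun i hi => by
      have := abs_le.1 (hx i hi); have := abs_le.1 (hy i hi)
      exact abs_le.2 ⟨by linarith, by linarith⟩)
  have j2 := perspective_jensen s w (fun i => 1 - (x i + y i) / 2) (fun i => (x i - y i) / 2)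
    hq hw
    (fun i hi => by
      have := abs_le.1 (hx i hi); have := abs_le.1 (hy i hi); linarith)
    (fun i hi => by
      have := abs_le.1 (hx i hi); have := abs_le.1 (hy i hi)
      exact abs_le.2 ⟨by linarith, by linarith⟩)
  have e1 : ∑ i ∈ s, w i * (1 + (x i + y i) / 2) = 1 + (a + b) / 2 := by
    have : ∀ i ∈ s, w i * (1 + (x i + y i) / 2) = w i + (w i * x i) / 2 + (w i * y i) / 2 := by
      intro i _; ring
    rw [Finset.sum_congr rfl this, Finset.sum_add_distrib, Finset.sum_add_distrib,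
      ← Finset.sum_div, ← Finset.sum_div, hw1, ← ha, ← hb']
    ring
  have e2 : ∑ i ∈ s, w i * (1 - (x i + y i) / 2) = 1 - (a + b) / 2 := by
    have : ∀ i ∈ s, w i * (1 - (x i + y i) / 2) = w i - (w i * x i) / 2 - (w i * y i) / 2 := by
      intro i _; ring
    rw [Finset.sum_congr rfl this, Finset.sum_sub_distrib, Finset.sum_sub_distrib,
      ← Finset.sum_div, ← Finset.sum_div, hw1, ← ha, ← hb']
    ring
  have e3 : ∑ i ∈ s, w i * ((x i - y i) / 2) = (a - b) / 2 := by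
    have : ∀ i ∈ s, w i * ((x i - y i) / 2) = (w i * x i) / 2 - (w i * y i) / 2 := by
      intro i _; ring
    rw [Finset.sum_congr rfl this, Finset.sum_sub_distrib,
      ← Finset.sum_div, ← Finset.sum_div, ← ha, ← hb']
    ring
  rw [e1, e3] at j1
  rw [e2, e3] at j2
  have e4 : ∑ i ∈ s, w i * hr ρ (x i) (y i)
      = ρ ^ 2 * (∑ i ∈ s, w i * hb (x i) (y i))
        + (1 - ρ ^ 2) * (∑ i ∈ s, w i * h ((x i + y i) / 2))
        + ((∑ i ∈ s, w i * ((1 + (x i + y i) / 2) *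
            (ρ ^ 2 * psi ((x i - y i) / 2 / (1 + (x i + y i) / 2))
              - psi (ρ * ((x i - y i) / 2 / (1 + (x i + y i) / 2)))))) / 2
          + (∑ i ∈ s, w i * ((1 - (x i + y i) / 2) *
            (ρ ^ 2 * psi ((x i - y i) / 2 / (1 - (x i + y i) / 2))
              - psi (ρ * ((x i - y i) / 2 / (1 - (x i + y i) / 2)))))) / 2) := by
    rw [Finset.mul_sum, Finset.mul_sum, Finset.sum_div, Finset.sum_div, ← Finset.sum_add_distrib,
      ← Finset.sum_add_distrib, ← Finset.sum_add_distrib]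
    apply Finset.sum_congr rfl
    intro i hi
    have := hr_rep h0 h1 (hx i hi) (hy i hi)
    linear_combination (w i) * this
  rw [e4]
  linarith

end Vale.P322
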