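import Vale.Agent.P322.Cube
import Vale.Agent.P322.TwoPoint
import Vale.Agent.P322.TwoPointB
import Vale.Agent.P322.TwoPointC
import Vale.Agent.P322.TwoPointD

/-! # P322: strong data processing inequality on the cube -/

namespace Vale.P322

open Finset

theorem sum_w {n : ℕ} (F : (Fin n → Bool) → ℝ) :
    ∑ y, (1 / 2 ^ n : ℝ) * F y = (∑ y, F y) / 2 ^ n := by
  rw [← Finset.mul_sum]; ring

theorem sum_w_one {n : ℕ} : ∑ _y : Fin n → Bool, (1 / 2 ^ n : ℝ) = 1 := by
  rw [Finset.sum_const, Finset.card_univ, Fintype.card_fun, Fintype.card_bool, Fintype.card_fin,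
    nsmul_eq_mul]
  push_cast
  field_simp

theorem mean_hT_split {n : ℕ} (f : (Fin (n + 1) → Bool) → ℝ) :
    mean (fun x => h (f x)) = mean (fun x => hb (restr 0 true f x) (restr 0 false f x)) := by
  rw [mean_split 0]
  unfold restr hb mean
  rw [← Finset.sum_div, Finset.sum_add_distrib]
  ring

/-- The strong data processing inequality for arbitrary `[-1,1]`-valued functions. -/
theorem sdpi {ρ : ℝ} (h0 : 0 ≤ ρ) (h1 : ρ ≤ 1) : ∀ (n : ℕ) (f : (Fin n → Bool) → ℝ),
    (∀ x, |f x| ≤ 1) →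
    ρ ^ 2 * mean (fun x => h (f x)) + (1 - ρ ^ 2) * h (mean f) ≤ Hc ρ f := by
  intro n
  induction n with
  | zero =>
    intro f _
    have e : T ρ f = f := by
      funext y
      unfold T
      simp only [Finset.univ_unique, Finset.sum_singleton, Finset.univ_eq_empty, Finset.prod_empty,
        one_mul]
      congr 1
      exact Subsingleton.elim _ _
    have e2 : ∀ F : (Fin 0 → Bool) → ℝ, mean F = F default := by
      intro F
      unfold mean
      simp only [Finset.univ_unique, Finset.sum_singleton, pow_zero, div_one]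
      exact congrArg F (Subsingleton.elim _ _)
    unfold Hc
    rw [e]
    have e3 := e2 (fun x => h (f x))
    unfold mean at e3
    rw [e3]
    rw [e2, e2]
    apply le_of_eq
    ring
  | succ n ih =>
    intro f hf
    set fp := restr 0 true f with hfp
    set fm := restr 0 false f with hfm
    have hfp1 : ∀ x, |fp x| ≤ 1 := fun x => hf _
    have hfm1 : ∀ x, |fm x| ≤ 1 := fun x => hf _
    have hav1 : ∀ x, |(fp x + fm x) / 2| ≤ 1 := by
      intro x
      rw [abs_le]
      have a := abs_le.mp (hfp1 x)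
      have b := abs_le.mp (hfm1 x)
      constructor <;> linarith [a.1, a.2, b.1, b.2]
    have i1 := ih fp hfp1
    have i2 := ih fm hfm1
    have i3 := ih (fun x => (fp x + fm x) / 2) hav1
    rw [mean_avg] at i3
    -- split
    have hs := Hc_split ρ 0 f
    rw [← hfp, ← hfm] at hs
    have hm := mean_split 0 f
    rw [← hfp, ← hfm] at hm
    have hTp : ∀ y, |T ρ fp y| ≤ 1 := abs_T_le h0 h1 hfp1
    have hTm : ∀ y, |T ρ fm y| ≤ 1 := abs_T_le h0 h1 hfm1
    -- pointwise SDPI
    have hpt : ρ ^ 2 * ((Hc ρ fp + Hc ρ fm) / 2) + (1 - ρ ^ 2) * Hc ρ (fun x => (fp x + fm x) / 2)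
        ≤ Hc ρ f := by
      rw [hs]
      have : ρ ^ 2 * ((Hc ρ fp + Hc ρ fm) / 2) + (1 - ρ ^ 2) * Hc ρ (fun x => (fp x + fm x) / 2)
          = (∑ y, (ρ ^ 2 * hb (T ρ fp y) (T ρ fm y)
              + (1 - ρ ^ 2) * h ((T ρ fp y + T ρ fm y) / 2))) / 2 ^ n := by
        unfold Hc hb
        rw [Finset.sum_add_distrib, ← Finset.mul_sum, ← Finset.mul_sum, ← Finset.sum_div,
          Finset.sum_add_distrib]
        have : ∀ y, T ρ (fun x => (fp x + fm x) / 2) y = (T ρ fp y + T ρ fm y) / 2 :=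
          fun y => T_avg ρ fp fm y
        simp only [this]
        ring
      rw [this]
      refine div_le_div_of_nonneg_right (Finset.sum_le_sum fun y _ => ?_) (by positivity)
      exact hr_ge h0 h1 (hTp y) (hTm y)
    -- Jensen–Shannon
    have hJS := E_JS (Finset.univ : Finset (Fin n → Bool)) (fun _ => (1 / 2 ^ n : ℝ)) fp fm
      (fun _ _ => by positivity) sum_w_one (fun x _ => hfp1 x) (fun x _ => hfm1 x)
      (a := mean fp) (b := mean fm) (by rw [sum_w]; rfl) (by rw [sum_w]; rfl)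
    rw [sum_w, sum_w] at hJS
    have e1 : (∑ x, h ((fp x + fm x) / 2)) / 2 ^ n = mean (fun x => h ((fp x + fm x) / 2)) := rfl
    have e2 : (∑ x, hb (fp x) (fm x)) / 2 ^ n = mean (fun x => h (f x)) := by
      rw [mean_hT_split f]; rfl
    rw [e1, e2] at hJS
    have e3 : mean (fun x => h (f x)) = (mean (fun x => h (fp x)) + mean (fun x => h (fm x))) / 2 := by
      rw [mean_split 0]; rfl
    rw [hm]
    have hρ2 : 0 ≤ ρ ^ 2 := sq_nonneg _
    have hβ : 0 ≤ 1 - ρ ^ 2 := by nlinarith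
    unfold hb at hJS
    have k1 : ρ ^ 2 * ((Hc ρ fp + Hc ρ fm) / 2)
        ≥ ρ ^ 2 * (ρ ^ 2 * mean (fun x => h (f x))
            + (1 - ρ ^ 2) * ((h (mean fp) + h (mean fm)) / 2)) := by
      apply mul_le_mul_of_nonneg_left _ hρ2
      rw [e3]
      linarith
    have k2 : (1 - ρ ^ 2) * Hc ρ (fun x => (fp x + fm x) / 2)
        ≥ (1 - ρ ^ 2) * (ρ ^ 2 * mean (fun x => h ((fp x + fm x) / 2))
            + (1 - ρ ^ 2) * h ((mean fp + mean fm) / 2)) :=
      mul_le_mul_of_nonneg_left i3 hβ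
    have k3 := mul_le_mul_of_nonneg_left hJS (mul_nonneg hρ2 hβ)
    nlinarith [hpt, k1, k2, k3]

end Vale.P322
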